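import Crest.Agent.N218.Al.Kr
import Crest.Agent.N218.D6.Defs
import Crest.Agent.N218.K.Lens
import Crest.Agent.N218.In.Emb
import Crest.Agent.N218.Sk.Sat

-- ▼ part N218/Al/D6
section

/-!
# Row 218 (helper23): the algebra of the piece (D6)
-/

set_option autoImplicit false
set_option linter.unusedSimpArgs false

open PowerSeries Finset

noncomputable section

namespace Crest.Agent.N218.Al

/-- `S[ε₁, ε₂]` -/
def DD := DualNumber (DualNumber S)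
instance : CommRing DD := inferInstanceAs (CommRing (DualNumber (DualNumber S)))
/-- scalars -/
def sc : S →+* DD :=
  (TrivSqZeroExt.inlHom (DualNumber S) (DualNumber S)).comp (TrivSqZeroExt.inlHom S S)
/-- first generator -/
def e1 : DD := (TrivSqZeroExt.inl DualNumber.eps : DualNumber (DualNumber S))
/-- second generator -/
def e2 : DD := (DualNumber.eps : DualNumber (DualNumber S))
/-- the components -/
def cq (i : Fin 4) : DualNumber (DualNumber S) →+ S where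
  toFun x := ![x.fst.fst, x.fst.snd, x.snd.fst, x.snd.snd] i
  map_zero' := by fin_cases i <;> simp
  map_add' x y := by fin_cases i <;> simp
/-- the components -/
def cp (i : Fin 4) : DD →+ S := cq i

theorem ext4 {x y : DD} (h0 : cp 0 x = cp 0 y) (h1 : cp 1 x = cp 1 y) (h2 : cp 2 x = cp 2 y)
    (h3 : cp 3 x = cp 3 y) : x = y :=
  TrivSqZeroExt.ext (TrivSqZeroExt.ext h0 h1) (TrivSqZeroExt.ext h2 h3)
theorem cq_mul (x y : DualNumber (DualNumber S)) : cq 0 (x * y) = cq 0 x * cq 0 y ∧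
    cq 1 (x * y) = cq 0 x * cq 1 y + cq 1 x * cq 0 y ∧
    cq 2 (x * y) = cq 0 x * cq 2 y + cq 2 x * cq 0 y ∧
    cq 3 (x * y) = cq 0 x * cq 3 y + cq 1 x * cq 2 y + cq 2 x * cq 1 y + cq 3 x * cq 0 y := by
  simp [cq]; ring
@[simp] theorem cp0_mul (x y : DD) : cp 0 (x * y) = cp 0 x * cp 0 y := (cq_mul x y).1
@[simp] theorem cp1_mul (x y : DD) : cp 1 (x * y) = cp 0 x * cp 1 y + cp 1 x * cp 0 y :=
  (cq_mul x y).2.1
@[simp] theorem cp2_mul (x y : DD) : cp 2 (x * y) = cp 0 x * cp 2 y + cp 2 x * cp 0 y :=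
  (cq_mul x y).2.2.1
@[simp] theorem cp3_mul (x y : DD) :
    cp 3 (x * y) = cp 0 x * cp 3 y + cp 1 x * cp 2 y + cp 2 x * cp 1 y + cp 3 x * cp 0 y :=
  (cq_mul x y).2.2.2
@[simp] theorem cp0_sc (s : S) : cp 0 (sc s) = s := rfl
@[simp] theorem cp1_sc (s : S) : cp 1 (sc s) = 0 := rfl
@[simp] theorem cp2_sc (s : S) : cp 2 (sc s) = 0 := rfl
@[simp] theorem cp3_sc (s : S) : cp 3 (sc s) = 0 := rfl
@[simp] theorem cp0_one : cp 0 1 = 1 := rfl
@[simp] theorem cp1_one : cp 1 1 = 0 := rfl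
@[simp] theorem cp2_one : cp 2 1 = 0 := rfl
@[simp] theorem cp3_one : cp 3 1 = 0 := rfl
@[simp] theorem cp0_e1 : cp 0 e1 = 0 := rfl
@[simp] theorem cp1_e1 : cp 1 e1 = 1 := rfl
@[simp] theorem cp2_e1 : cp 2 e1 = 0 := rfl
@[simp] theorem cp3_e1 : cp 3 e1 = 0 := rfl
@[simp] theorem cp0_e2 : cp 0 e2 = 0 := rfl
@[simp] theorem cp1_e2 : cp 1 e2 = 0 := rfl
@[simp] theorem cp2_e2 : cp 2 e2 = 1 := rfl
@[simp] theorem cp3_e2 : cp 3 e2 = 0 := rfl
theorem cp_sc (i : Fin 4) (s : S) (x : DD) : cp i (sc s * x) = s * cp i x := by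
  fin_cases i <;> simp

/-- integral elements -/
def OD : Subring DD where
  carrier := {x | ∀ i, cp i x ∈ OS}
  mul_mem' {a b} ha hb i := by
    fin_cases i <;> simp only [Fin.zero_eta, Fin.mk_one, Fin.reduceFinMk, cp0_mul, cp1_mul, cp2_mul,
      cp3_mul] <;> repeat' first | exact OS.mul_mem (ha _) (hb _) | apply OS.add_mem
  add_mem' {a b} ha hb i := by rw [map_add]; exact OS.add_mem (ha i) (hb i)
  one_mem' i := by fin_cases i <;> simp
  zero_mem' i := by simp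
  neg_mem' {a} ha i := by rw [map_neg]; exact OS.neg_mem (ha i)

theorem sc_mem {s : S} (h : s ∈ OS) : sc s ∈ OD := fun i => by fin_cases i <;> simp [h]
theorem e1_mem : e1 ∈ OD := fun i => by fin_cases i <;> simp
theorem e2_mem : e2 ∈ OD := fun i => by fin_cases i <;> simp

theorem sc_can {x y : DD} (h : sc (t ^ 2) * x = sc (t ^ 2) * y) : x = y := by
  have k : ∀ i, cp i x = cp i y := fun i => mul_left_cancel₀ (pow_ne_zero 2 t_ne) (by
    rw [← cp_sc, ← cp_sc, h])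
  exact ext4 (k 0) (k 1) (k 2) (k 3)

/-- truncated exponential -/
def EE (a b c : S) : DD := sc (t ^ 2) - sc (t * a) * e1 - sc (t * b) * e2 + sc (a * b - c) * (e1 * e2)

theorem EE_mul (a b c a' b' c' : S) :
    EE a b c * EE a' b' c' = sc (t ^ 2) * EE (a + a') (b + b') (c + c') := by
  apply ext4 <;> simp [EE, -map_pow] <;> ring

theorem EE_mem {a b c : S} (ha : a ∈ OS) (hb : b ∈ OS) (hc : c ∈ OS) : EE a b c ∈ OD :=
  OD.add_mem (OD.sub_mem (OD.sub_mem (sc_mem (OS.pow_mem t_mem 2))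
    (OD.mul_mem (sc_mem (OS.mul_mem t_mem ha)) e1_mem))
    (OD.mul_mem (sc_mem (OS.mul_mem t_mem hb)) e2_mem))
    (OD.mul_mem (sc_mem (OS.sub_mem (OS.mul_mem ha hb) hc)) (OD.mul_mem e1_mem e2_mem))

theorem EE_prod {α : Type*} (s : Finset α) (k : α → ℕ) (a b y : α → S)
    (hy : ∀ i, N L (k i) * y i = 1) :
    sc (t ^ 2) * ∏ i ∈ s, (1 - sc L ^ k i * ((1 + sc (a i) * e1) * (1 + sc (b i) * e2))) =
      sc (∏ i ∈ s, (1 - L ^ k i)) * EE (∑ i ∈ s, L ^ k i * y i * a i) (∑ i ∈ s, L ^ k i * y i * b i)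
        (∑ i ∈ s, L ^ k i * y i ^ 2 * (a i * b i)) := by
  classical
  induction s using Finset.induction_on with
  | empty => simp [EE]
  | insert i s hi ih =>
    have w : (1 - L ^ k i) * y i = t := by rw [← t_N, mul_assoc, hy, mul_one]
    have one : sc (t ^ 2) * (1 - sc L ^ k i * ((1 + sc (a i) * e1) * (1 + sc (b i) * e2))) =
        sc (1 - L ^ k i) * EE (L ^ k i * y i * a i) (L ^ k i * y i * b i)
          (L ^ k i * y i ^ 2 * (a i * b i)) := by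
      rw [← map_pow]
      apply ext4 <;> simp [EE, -map_pow]
      · ring
      · linear_combination -t * L ^ k i * a i * w
      · linear_combination -t * L ^ k i * b i * w
      · linear_combination L ^ k i * a i * b i * ((1 - L ^ k i) * y i + t) * w
    simp only [prod_insert hi, sum_insert hi]
    apply sc_can
    rw [map_mul sc (1 - _), mul_left_comm (sc (t ^ 2)) (_ * _), ← EE_mul]
    rw [mul_mul_mul_comm, ← one, ← ih, mul_mul_mul_comm, mul_assoc]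

theorem LN2 (m : ℕ) : (∃ z, L ^ m = 1 - m * t + t ^ 2 * z) ∧
    ∃ z, N L m = m - m * C ((m - 1) / 2 : ℚ) * t + t ^ 2 * z := by
  have h2 : ∀ n : ℕ, 2 * (C ((n - 1) / 2 : ℚ) : S) = n - 1 := fun n => by
    rw [← map_ofNat (C (R := ℚ)), ← map_mul, mul_div_cancel₀ _ two_ne_zero]; simp
  induction m with
  | zero => exact ⟨⟨0, by simp⟩, 0, by simp [N]⟩
  | succ m ih =>
    obtain ⟨⟨z, e⟩, z', e'⟩ := ih
    refine ⟨⟨z * L + m, by rw [pow_succ, e, L]; push_cast; ring⟩, z + z', ?_⟩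
    have a := h2 m
    have b := h2 (m + 1)
    rw [N, sum_range_succ, ← N, e, e']
    apply mul_left_cancel₀ (a := (2 : S)) (fun h => by simpa [map_ofNat] using congrArg constantCoeff h)
    push_cast at b ⊢
    linear_combination -m * t * a + (m + 1) * t * b

theorem L_inv_sq {k : ℕ} (hk : k ≠ 0) {y : S} (hy : N L k * y = 1) :
    ∃ z, L ^ k * y ^ 2 = C (1 / k ^ 2 : ℚ) * (1 - t) + t ^ 2 * z := by
  obtain ⟨⟨z, e⟩, z', e'⟩ := LN2 k
  have h2 : 2 * (C ((k - 1) / 2 : ℚ) : S) = k - 1 := by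
    rw [← map_ofNat (C (R := ℚ)), ← map_mul, mul_div_cancel₀ _ two_ne_zero]; simp
  have h3 : (C (1 / k ^ 2 : ℚ) : S) * k ^ 2 = 1 := by
    rw [← map_natCast (C (R := ℚ)), ← map_pow, ← map_mul, one_div_mul_cancel (by positivity), map_one]
  generalize (C ((k - 1) / 2 : ℚ) : S) = c at *
  generalize (C (1 / k ^ 2 : ℚ) : S) = κ at *
  have : ∃ w, k ^ 2 * L ^ k = (1 - t) * N L k ^ 2 + t ^ 2 * w :=
    ⟨k ^ 2 * z - (1 - t) * ((k * c - t * z') ^ 2 + 2 * k * z') - 2 * k ^ 2 * c, by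
      rw [e, e']; linear_combination (k : S) ^ 2 * t * h2⟩
  obtain ⟨w, e⟩ := this
  exact ⟨κ * y ^ 2 * w, by
    linear_combination κ * y ^ 2 * e - L ^ k * y ^ 2 * h3 + κ * (1 - t) * (N L k * y + 1) * hy⟩

/-- the exponents run through the odd residues -/
def Odq {ι : Type*} [Fintype ι] (q : ℕ) (k : ι → ℕ) : Prop :=
  (∀ i, Odd (k i)) ∧ ∃ m ∈ O2, 2 * ∑ i, (1 / k i ^ 2 : ℚ) = q * (2 * m + 1)

theorem s2_val {ι : Type*} [Fintype ι] {q : ℕ} {k : ι → ℕ} (h : Odq q k) {y : ι → S}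
    (hy : ∀ i, N L (k i) * y i = 1) {Y : S} (hY : N L q * Y = 1) (n : ℤ) :
    ∃ h ∈ OS, (∃ m ∈ O2, constantCoeff h = 8 * m + 4) ∧
      ∃ z, Y * ((∑ i, L ^ k i * y i ^ 2) * (8 * (2 * n + 1))) = h + t ^ 2 * z := by
  obtain ⟨hk, m, hm, e⟩ := h
  choose z ez using fun i => L_inv_sq (hk i).pos.ne' (hy i)
  obtain ⟨-, z', e'⟩ := LN2 q
  have hn := intCast_mem O2 n
  have o : (2 * m + 1) * (2 * n + 1) ∈ O2 := by
    refine O2.mul_mem (O2.add_mem (O2.mul_mem (ofNat_mem O2 2) ?_) O2.one_mem)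
      (O2.add_mem (O2.mul_mem (ofNat_mem O2 2) ?_) O2.one_mem) <;> assumption
  have h2 : 2 * (C ((q - 1) / 2 : ℚ) : S) = q - 1 := by
    rw [← map_ofNat (C (R := ℚ)), ← map_mul, mul_div_cancel₀ _ two_ne_zero]; simp
  have h3 : 2 * ∑ i, L ^ k i * y i ^ 2 = q * (2 * C m + 1) * (1 - t) + t ^ 2 * (2 * ∑ i, z i) := by
    have := congrArg (C (R := ℚ)) e
    simp only [map_mul, map_sum, map_ofNat, map_natCast, map_add, map_one] at this
    simp only [ez, sum_add_distrib, ← sum_mul, ← mul_sum]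
    linear_combination (1 - t) * this
  refine ⟨C ((2 * m + 1) * (2 * n + 1)) * ((1 - t) * (4 + 2 * (q - 1) * t)),
    OS.mul_mem (C_mem o) (OS.mul_mem L_mem (OS.add_mem (ofNat_mem OS 4) (OS.mul_mem (OS.mul_mem
      (ofNat_mem OS 2) (OS.sub_mem (natCast_mem OS q) OS.one_mem)) t_mem))),
    ⟨2 * m * n + m + n, O2.add_mem (O2.add_mem (O2.mul_mem (O2.mul_mem (ofNat_mem O2 2) hm) hn) hm)
      hn, by simp [cc_t, map_ofNat]; ring⟩, ?_⟩
  generalize (C ((q - 1) / 2 : ℚ) : S) = c at *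
  simp only [map_mul, map_add, map_ofNat, map_one, map_intCast]
  refine ⟨Y * (2 * n + 1) * (8 * ∑ i, z i + 4 * (2 * C m + 1) * (1 - t) *
    (q * c ^ 2 - z' * (1 + c * t))), ?_⟩
  linear_combination 4 * Y * (2 * n + 1) * h3 + (2 * C m + 1) * (2 * n + 1) * (1 - t) *
    (4 * (1 + c * t) * hY - 4 * (1 + c * t) * Y * e' + 2 * t * h2)


/-- the Euler class of `(∑ j, L₁ ^ a j L₂ ^ b j) ⊗ ∑ i, L ^ k i` -/
def eu {K ι J : Type*} [CommRing K] [Fintype ι] [Fintype J] (l h1 h2 : K) (k : ι → ℕ)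
    (a b : J → ℤ) : K := ∏ i, ∏ j, (1 - l ^ k i * ((1 + a j * h1) * (1 + b j * h2)))

theorem map_eu {K K' ι J : Type*} [CommRing K] [CommRing K'] [Fintype ι] [Fintype J] (f : K →+* K')
    (l h1 h2 : K) (k : ι → ℕ) (a b : J → ℤ) :
    f (eu l h1 h2 k a b) = eu (f l) (f h1) (f h2) k a b := by simp [eu]


theorem eu_eq {ι J : Type*} [Fintype ι] [Fintype J] (k : ι → ℕ) (a b : J → ℤ) {y : ι → S}
    (hy : ∀ i, N L (k i) * y i = 1) : sc (t ^ 2) * eu (sc L) e1 e2 k a b =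
      sc (t ^ (Fintype.card ι * Fintype.card J) * (∏ i, N L (k i)) ^ Fintype.card J) *
        EE ((∑ i, L ^ k i * y i) * (∑ j, a j : ℤ)) ((∑ i, L ^ k i * y i) * (∑ j, b j : ℤ))
          ((∑ i, L ^ k i * y i ^ 2) * (∑ j, a j * b j : ℤ)) := by
  have := EE_prod (univ : Finset (ι × J)) (fun p => k p.1) (fun p => a p.2) (fun p => b p.2)
    (fun p => y p.1) fun p => hy p.1
  simp only [Fintype.prod_prod_type, Fintype.sum_prod_type, map_intCast, ← t_N, ← mul_sum,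
    ← sum_mul, prod_const, card_univ, prod_mul_distrib, prod_pow] at this
  push_cast
  rw [eu, this, Fintype.card_prod]


theorem odq_fin (n : ℕ) : Odq (2 ^ (n + 1)) fun j : Fin (2 ^ n) => 2 * j.val + 1 := by
  obtain ⟨m, hm, e⟩ := sum_inv_sq n
  refine ⟨fun j => odd_two_mul_add_one _, m, hm, ?_⟩
  rw [Finset.sum_range fun j => (1 : ℚ) / (2 * j + 1) ^ 2] at e
  push_cast; rw [e]; ring

theorem Odq.equiv {ι ι' : Type*} [Fintype ι] [Fintype ι'] {q : ℕ} {k : ι → ℕ} (h : Odq q k)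
    (e : ι' ≃ ι) : Odq q fun i => k (e i) :=
  ⟨fun i => h.1 _, by rw [e.sum_comp fun i => (1 / k i ^ 2 : ℚ)]; exact h.2⟩

/-- odd residues -/
def oddEquiv (n : ℕ) : {k : ZMod (2 ^ (n + 1)) // Odd k.val} ≃ Fin (2 ^ n) where
  toFun k := ⟨k.1.val / 2, by have := k.1.val_lt; omega⟩
  invFun j := ⟨(2 * j.val + 1 : ℕ), by
    rw [ZMod.val_cast_of_lt (by have := j.2; omega)]; exact odd_two_mul_add_one _⟩
  left_inv k := Subtype.ext (by simp only [Nat.two_mul_div_two_add_one_of_odd k.2]; simp)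
  right_inv j := Fin.ext (by
    simp only [ZMod.val_cast_of_lt (show 2 * j.val + 1 < 2 ^ (n + 1) by have := j.2; omega)]; omega)

theorem odq_zmod (n : ℕ) :
    Odq (2 ^ (n + 1)) fun k : {k : ZMod (2 ^ (n + 1)) // Odd k.val} => k.1.val := by
  convert (odq_fin n).equiv (oddEquiv n) using 2 with k
  exact (Nat.two_mul_div_two_add_one_of_odd k.2).symm


theorem lf_uo {y : DD} (h : y ∈ OD) {y' : DD} (h' : y' ∈ OD) {M q : ℕ} (hM : M ≠ 0) {a b : DD}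
    (e : y * y' = 1 + (1 - sc L) ^ M * a + (1 - sc L ^ q) * b) : UO (cp 0 y) := by
  have := congrArg (fun x => constantCoeff (cp 0 x)) e
  simp only [← map_pow, ← map_one sc, ← map_sub, map_add, cp0_mul, cp0_sc, map_mul] at this
  obtain ⟨m, hm, k⟩ := odd_of_mul (cc_mem (h 0)) (cc_mem (h' 0)) (by simpa [cc_L, hM] using this)
  exact uo_of (h 0) hm k


end Crest.Agent.N218.Al
end
end

-- ▼ part N218/D6/Df2

/-!
# Row 218, block D6 (helper8): the concrete localisation data and the leaves (FROZEN)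
-/

set_option autoImplicit false
set_option linter.unusedVariables false

open unitInterval Topology Filter Set OnePoint Polynomial
open scoped InnerProductSpace ComplexConjugate

noncomputable section

namespace Crest.Agent.N218.D6

open K K.Cp Pm In
open Sk (Cn S2 S3 X22 hfv Frm Wt Pcd Sat Val half)

/-- the big group `T × T²` -/
abbrev GT : Type := Circle × Circle × Circle
/-- the small group `G × T²` -/
abbrev GG (k : ℕ) : Type := Gk k × Circle × Circle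
def c1 : GT →* Circle := MonoidHom.fst _ _
def ca : GT →* Circle := (MonoidHom.fst _ _).comp (MonoidHom.snd _ _)
def cb : GT →* Circle := (MonoidHom.snd _ _).comp (MonoidHom.snd _ _)
theorem c1_ct : Continuous c1 := continuous_fst
theorem ca_ct : Continuous ca := continuous_snd.fst
theorem cb_ct : Continuous cb := continuous_snd.snd
def ph (k : ℕ) : GG k →* GT := (ck k).prodMap (MonoidHom.id _)
theorem ph_ct (k : ℕ) : Continuous (ph k) := (cc (ck k)).prodMap continuous_id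
def pg (k : ℕ) : GG k →* Gk k := MonoidHom.fst _ _
theorem pg_ct (k : ℕ) : Continuous (pg k) := continuous_fst
/-- the weights -/
def wc (j : ℕ) (a a' : ℤ) : GT →* Circle := c1 ^ j * (ca ^ (-a) * cb ^ (-a'))
theorem wc_ct (j : ℕ) (a a' : ℤ) : Continuous (wc j a a') :=
  (c1_ct.pow j).mul ((ca_ct.zpow _).mul (cb_ct.zpow _))

/-- `S³` -/
abbrev Ya : GS GT := Sp ca ca_ct 2
/-- `S³ × S³` -/
abbrev Y0 : GS GT := YS Ya cb cb_ct 2
/-- `S³ × S³ × S(ℂ^M)` -/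
abbrev YT (M : ℕ) : GS GT := YS Y0 c1 c1_ct M
/-- the same for the small group -/
abbrev YG (k m : ℕ) : GS (GG k) := YL Y0 c1 c1_ct (ph k) (ph_ct k) m

/-- even and odd frequencies -/
abbrev Ev (k : ℕ) : Type := {j : Ix k // Even j.val}
abbrev Od (k : ℕ) : Type := {j : Ix k // Odd j.val}
variable (k : ℕ) {n : ℕ}
abbrev WE (a a' : Fin n → ℤ) : Rep GT :=
  Rep.wt (fun p : Ev k × Fin n => wc p.1.1.val (a p.2) (a' p.2)) fun _ => wc_ct _ _ _
abbrev WO (a a' : Fin n → ℤ) : Rep GT :=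
  Rep.wt (fun p : Od k × Fin n => wc p.1.1.val (a p.2) (a' p.2)) fun _ => wc_ct _ _ _

variable {k}
/-- Fourier coordinates -/
def fo (y : V k (Fin n → ℂ)) : (Ev k × Fin n → ℂ) × (Od k × Fin n → ℂ) :=
  (fun p => Fo.co _ _ y (p.1.1, p.2), fun p => Fo.co _ _ y (p.1.1, p.2))
/-- the inverse -/
def fi (c : (Ev k × Fin n → ℂ) × (Od k × Fin n → ℂ)) : V k (Fin n → ℂ) :=
  (Fo.co _ _).symm fun p => if h : Even p.1.val then c.1 (⟨p.1, h⟩, p.2)
    else c.2 (⟨p.1, Nat.not_even_iff_odd.1 h⟩, p.2)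

theorem us_sq (u : US 2) : ‖u.1 0‖ ^ 2 + ‖u.1 1‖ ^ 2 = 1 := by
  have := u.2
  rw [Un1, Fin.sum_univ_two, conj_mul_self, conj_mul_self] at this
  exact_mod_cast this
/-- unit vectors as points of `S³` -/
def s3 (u : US 2) : S3 := ⟨WithLp.toLp 2 u.1, by
  rw [mem_sphere_zero_iff_norm, EuclideanSpace.norm_eq, Fin.sum_univ_two]
  simp [us_sq u]⟩
/-- the Hopf map -/
def hp (u : US 2) : S2 := ⟨hfv (s3 u), by
  have h := us_sq u
  rw [mem_sphere_zero_iff_norm, EuclideanSpace.norm_eq, Fin.sum_univ_three, Real.sqrt_eq_one]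
  simp only [Complex.sq_norm, Complex.normSq_apply] at h
  simp [hfv, s3, Complex.sq_norm, Complex.normSq_apply, mul_pow]
  linear_combination ((u.1 0).re * (u.1 0).re + (u.1 0).im * (u.1 0).im +
    ((u.1 1).re * (u.1 1).re + (u.1 1).im * (u.1 1).im) + 1) * h⟩
def ys (y : US 2 × US 2) : S3 × S3 := (s3 y.1, s3 y.2)
def hx (y : US 2 × US 2) : X22 := (hp y.1, hp y.2)

section fr
variable {E : Type} [NormedAddCommGroup E] [InnerProductSpace ℂ E]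
/-- from frame coordinates -/
def up (s : Fin n → S3 × S3 → E) (y : US 2 × US 2) (c : V k (Fin n → ℂ)) : V k E :=
  fun i => ∑ j, c i j • s j (ys y)
/-- to frame coordinates -/
def dn (s : Fin n → S3 × S3 → E) (y : US 2 × US 2) (e : V k E) : V k (Fin n → ℂ) :=
  fun i j => ⟪s j (ys y), e i⟫_ℂ
end fr

/-- padding with zeros -/
def pad (m p : ℕ) : C(US m, US (m + p)) :=
  ⟨fun u => ⟨Fin.append u.1 0, by
    have := u.2
    simpa [Un1, Fin.sum_univ_add] using this⟩,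
    Continuous.subtype_mk (continuous_pi fun i => by
      refine Fin.addCases (fun i => ?_) (fun i => ?_) i
      · simp only [Fin.append_left]; exact (continuous_apply i).comp continuous_subtype_val
      · simp only [Fin.append_right]; exact continuous_const) _⟩
/-- the angle as a real number -/
def rt (θ : Circle) : ℝ := (θ : ℂ).arg / (2 * Real.pi)

section ld
variable {n₁ n₂ : ℕ} (D : Data X22 (Cn n₁) (Cn n₂)) (k)
  (s₁ : Fin n → S3 × S3 → Cn n₁) (s₂ : Fin n → S3 × S3 → Cn n₂)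

open Classical in
/-- `g_r N v g_(-r)` in coordinates -/
def gm (y : US 2 × US 2) (θ : Circle) (c : (Ev k × Fin n → ℂ) × (Od k × Fin n → ℂ)) :
    OnePoint ((Ev k × Fin n → ℂ) × (Od k × Fin n → ℂ)) :=
  if ∀ i, (hx y, Fo.g (-rt θ) (up s₁ y (fi c)) i) ∈ D.Ov then
    OnePoint.some (fo (dn s₂ y (Fo.g (rt θ) fun i => D.v (hx y, Fo.g (-rt θ) (up s₁ y (fi c)) i))))
  else ∞
/-- `N u` in coordinates -/
def mm (y : US 2 × US 2) (c : (Ev k × Fin n → ℂ) × (Od k × Fin n → ℂ)) :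
    (Ev k × Fin n → ℂ) × (Od k × Fin n → ℂ) :=
  fo (dn s₁ y fun i => D.u (hx y, up s₂ y (fi c) i))

/-- cycles for the orbit loop -/
structure KV {m : ℕ} (kV : V k (Cn n₁ × Cn n₂) → Fin m → ℂ) : Prop where
  ct : Continuous kV
  eq : ∀ (g : Gk k) v, kV (fun i => v (i + g.toAdd)) = fun j => (ck k g : ℂ) * kV v j
  od : ∀ v, kV (mn v) = kV v
  pr : ∀ R : ℝ, ∃ R' : ℝ, ∀ v, ‖kV v‖ ≤ R → ‖mn v‖ ≤ R'
  z : ∀ v, kV v = 0 ↔ mn v = 0
  sm : ∀ x ∈ (D.Orb k).O, (D.Orb k).P x = 0 → ∀ (u : US m) (ρ : ℝ), 1 ≤ ρ → kV x.2 ≠ ρ • u.1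

/-- **the localisation data of the orbit loop** -/
def ld (a a' b b' : Fin n → ℤ) {m : ℕ} (p : ℕ) (kV : V k (Cn n₁ × Cn n₂) → Fin m → ℂ) :
    LD GT (GG k) where
  φ := ph k
  hφ := ph_ct k
  χ := c1 ^ 2 ^ (k + 1)
  hχ := c1_ct.pow _
  Y := YT (m + p)
  W0 := WE k a a'
  W1 := WO k a a'
  Z0 := WE k b b'
  Z1 := WO k b b'
  U := UU c1 c1_ct m
  γ x := gm k D s₁ s₂ x.1.1.1 x.1.2 x.2
  γ0 x := OnePoint.map Prod.fst (gm k D s₁ s₂ x.1.1.1 x.1.2 (x.2, 0))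
  μ x := mm k D s₁ s₂ x.1.1 x.2
  μ0 x := (mm k D s₁ s₂ x.1.1 (x.2, 0)).1
  k x := kV (pr (up s₁ x.1.1 (fi (0, x.2.1))) (up s₂ x.1.1 (fi (0, x.2.2))))
  Ym := YG k m
  i := ⟨fun y : (US 2 × US 2) × US m => (y.1, pad m p y.2), by fun_prop⟩
  u := ⟨fun y : (US 2 × US 2) × US m => y.2.1, by fun_prop⟩
end ld

section thv
variable (k) (m : ℕ) (E : Type) [NormedAddCommGroup E] [NormedSpace ℝ E] [FiniteDimensional ℝ E]
/-- the regular representation of the small group -/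
abbrev VV : Rep (GG k) := (Rr k E).res (pg k) (pg_ct k)
/-- source and target -/
abbrev VS : LS (GG k) := (VV k E).ls.prod (LS.triv _ ℂ)
abbrev VT : Rep (GG k) := (VV k E).prod ((UU (ck k) (cc _) m).res (pg k) (pg_ct k))
/-- projection to the lens space -/
def pj : C((YG k m).Q, (Sp (ck k) (cc _) m).Q) :=
  GS.qmap _ _ ⟨fun y : (US 2 × US 2) × US m => y.2, continuous_snd⟩ fun g _ => ⟨g.1, rfl⟩
variable {k m E}
/-- the dual problem of a loop of problems over `S² × S²` -/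
def ThV (P : Pb (X22 × UnitAddCircle) k E) (kV : V k E → Fin m → ℂ) :
    FP (YG k m) (VS k E) (VT k m E) :=
  ⟨{x : ((US 2 × US 2) × US m) × V k E × ℂ | x.2.2 ≠ 0 ∧ ((hx x.1.1, ang x.2.2), x.2.1) ∈ P.O},
    fun x : ((US 2 × US 2) × US m) × V k E × ℂ =>
      (P.h ((hx x.1.1, ang x.2.2), x.2.1), kV x.2.1 - ‖x.2.2‖ • x.1.2.1)⟩
end thv

set_option hygiene false in
/-- quantify over saturated framed data -/
local macro "∀F " t:term : term =>
  `(∀ (k n n₁ n₂ : ℕ) (D : Data X22 (Cn n₁) (Cn n₂)) (c κ R₀ M : ℝ) (a a' b b' : Fin n → ℤ)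
    (s₁ : Fin n → S3 × S3 → Cn n₁) (s₂ : Fin n → S3 × S3 → Cn n₂), 16 ≤ k → D.Ok c κ R₀ M →
    Sat D → Frm D.π₁ a a' s₁ → Frm D.π₂ b b' s₂ → $t)

/-- leaf KVE: `kV v = ε (coordinates of the odd Fourier coefficients) ^ (j⁻¹ mod q)`, padded -/
def KVE : Prop := ∀F ∃ (m : ℕ) (kV : V k (Cn n₁ × Cn n₂) → Fin m → ℂ), 7 ≤ m ∧ KV k D kV
/-- leaf INST -/
def INST : Prop := ∀F ∀ (m p : ℕ) (kV : V k (Cn n₁ × Cn n₂) → Fin m → ℂ), KV k D kV →
  (ld k D s₁ s₂ a a' b b' p kV).Ok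
/-- leaf UNI -/
def UNI : Prop := ∀F ∀ (m p : ℕ) (kV : V k (Cn n₁ × Cn n₂) → Fin m → ℂ),
  (ld k D s₁ s₂ a a' b b' p kV).Ok → (ld k D s₁ s₂ a a' b b' p kV).Uni
/-- leaf LINK1: from coordinates to the orbit loop -/
def LINK1 : Prop := ∀F ∀ (m p : ℕ) (kV : V k (Cn n₁ × Cn n₂) → Fin m → ℂ), KV k D kV →
  (ld k D s₁ s₂ a a' b b' p kV).Ok → (ld k D s₁ s₂ a a' b b' p kV).Th.Ok →
  ∀ δ : ℝ, 0 < δ → ((D.Orb k).F (tau δ)).Ok → ∀ lT lS (e : KX (YG k m).Q),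
    UT _ ((ld k D s₁ s₂ a a' b b' p kV).rs (ld k D s₁ s₂ a a' b b' p kV).T).ls lT →
    UT _ (ld k D s₁ s₂ a a' b b' p kV).SC lS →
    (ld k D s₁ s₂ a a' b b' p kV).Th.pb lT = (Sb _ _).sm e lS →
    ∃ lT' lS' υ, (Sb _ _).Th lT' ∧ (Sb _ _).Th lS' ∧ IsUnit υ ∧
      (ThV ((D.Orb k).F (tau δ)) kV).pb lT' = (Sb (YG k m) _).sm (υ * e) lS'

/-- leaf LINK2: the push-forward along `S² × S² × ℝ⁴ ⊆ ℝ⁸` -/
def LINK2 : Prop := ∀ (k m : ℕ) (E : Type) [NormedAddCommGroup E] [NormedSpace ℝ E]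
  [FiniteDimensional ℝ E], 16 ≤ k → Cx (Rr k E).ls →
  ∀ (lT : KS (YG k m) (VT k m E).ls) (lS : KS (YG k m) (VS k E)), (Sb _ _).Th lT → (Sb _ _).Th lS →
  ∃ (Λ : KX (YG k m).Q →+ KX (Sp (ck k) (cc _) m).Q) (υ : KX (YG k m).Q) (lT' : _) (lS' : _),
    IsUnit υ ∧ (∀ a y, Λ (pull (pj k m) a * y) = a * Λ y) ∧
    IsUnit (Λ ((Lc (YG k m) (ca.comp (ph k)) - 1) * (Lc (YG k m) (cb.comp (ph k)) - 1))) ∧
    (Sb _ _).Th lT' ∧ (Sb _ _).Th lS' ∧
    ∀ (P : Pb (X22 × UnitAddCircle) k E) (kV : V k E → Fin m → ℂ) (e : KX (YG k m).Q), P.Ok →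
      Continuous kV → (∀ (g : Gk k) v, kV (fun i => v (i + g.toAdd)) = fun j => (ck k g : ℂ) * kV v j) →
      (∀ x ∈ P.O, kV x.2 ≠ 0) → (ThV P kV).pb lT = (Sb _ _).sm e lS →
      Dg (ck k) (cc _) m ((e22.circ.pb P).st (Rep.triv _ ℝ)) lT' ((Sb _ _).sm (Λ (υ * e)) lS')

/-- leaf ALGM: `Al.d6` with `7` replaced by `m` -/
def ALGM : Prop := ∀ {R₁ R A B C C₀ ι J : Type} [CommRing R₁] [CommRing R] [CommRing A] [CommRing B]
  [CommRing C] [CommRing C₀] [Fintype ι] [Fintype J] {q M m : ℕ} {k : ι → ℕ} {a a' b b' : J → ℤ}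
  {l₁ : R₁} {i : R₁ →+* R} {l₂ : R} {iA : R →+* A} {l : A} {π : A →+* B} {ρ : B →+* C} {l₀ : C₀}
  {j : C₀ →+* C} {n : ℤ} {x κ κ0 : A} {κw d : B} {υ : C} (Λ : C →+ C₀) (a₇ w : ℤ[X]),
  Al.Pz (Int.castRingHom R₁) l₁ 2 0 → Al.Pz i l₂ 2 0 → (1 - l₁) ^ 2 = 0 → (1 - l₂) ^ 2 = 0 →
  Al.Pz iA l M 0 → Al.Pz (π.comp iA) (π l) M q → Al.Pz (ρ.comp (π.comp iA)) (ρ (π l)) m q →
  Al.Pz (Int.castRingHom C₀) l₀ m q → j l₀ = ρ (π l) → Al.Odq q k → q ≠ 0 → 256 ∣ q →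
  ∑ j, a j = ∑ j, b j → ∑ j, a' j = ∑ j, b' j →
  ∑ j, b j * b' j - ∑ j, a j * a' j = 8 * (2 * n + 1) → 7 ≤ m →
  2 * (Fintype.card ι * Fintype.card J) + m + 3 ≤ M → IsUnit (π κ) → IsUnit κw →
  x * (1 - l ^ q) = κ * Al.eu l (iA (i l₁ - 1)) (iA (l₂ - 1)) k a a' -
    κ0 * Al.eu l (iA (i l₁ - 1)) (iA (l₂ - 1)) k b b' →
  π (Al.eu l (iA (i l₁ - 1)) (iA (l₂ - 1)) k a a') * π (Al.eu l (iA (i l₁ - 1)) (iA (l₂ - 1)) k b b') *
    d = (1 - π l) ^ m * π x * κw * π (Al.eu l (iA (i l₁ - 1)) (iA (l₂ - 1)) k b b') →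
  IsUnit υ → (∀ a y, Λ (j a * y) = a * Λ y) →
  IsUnit (Λ (ρ (π (iA (i l₁ - 1))) * ρ (π (iA (l₂ - 1))))) → IsUnit (aeval l₀ w) →
  Λ (υ * ρ d) = aeval l₀ ((1 - X) ^ (m - 7) * a₇ * w) →
  Al.ph (Al.r ^ 7 * iS a₇) - 1 / 2 ∈ Al.O2

/-- leaf PRES: presentations -/
def PRES : Prop := Al.Pz (Int.castRingHom _) (Lc Ya ca) 2 0 ∧ (1 - Lc Ya ca) ^ 2 = 0 ∧
  Al.Pz (pull (piB Ya cb cb_ct 2)) (Lc Y0 cb) 2 0 ∧ (1 - Lc Y0 cb) ^ 2 = 0 ∧
  (∀ M, Al.Pz (pull (piB Y0 c1 c1_ct M)) (Lc (YT M) c1) M 0) ∧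
  ∀ k m, Al.Pz (pull (piL Y0 c1 c1_ct (ph k) (ph_ct k) m)) (Lc (YG k m) (c1.comp (ph k))) m
    (2 ^ (k + 1))

/-- the specification of the `d`-invariant (`INVD = ∃ J, SpD J`) -/
def SpD (J : AI 5) : Prop :=
  ∀ {Γ : Type} [Group Γ] [Fintype Γ] [TopologicalSpace Γ] [DiscreteTopology Γ]
    (χ : Γ →* Circle), ∀ X V : Rep Γ, Gq χ → Adm 5 X V → Cx V.ls →
  ∀ o : OD χ (cc χ) X.ls V, ∃ s : ℤˣ, ∀ P φ, DV χ (cc χ) o P φ → J.ν χ X V P = s • φ


/-- leaf FINB: from the level `m` to the level `7` -/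
def FINB : Prop := ∀ (J : AI 5), SpD J → ∀ (k m : ℕ) (X V : Rep (Gk k)) (P : PB X.ls V) lT lS c,
  16 ≤ k → 7 ≤ m → Adm 5 X V → Cx (V.prod (Rep.triv _ ℝ)).ls → P.Fr →
  (Sb _ _).Th lT → (Sb _ _).Th lS →
  Dg (ck k) (cc _) m (P.st (Rep.triv _ ℝ)) lT ((Sb _ _).sm c lS) →
  (∀ a₇ w : ℤ[X], IsUnit (ev (ck k) (cc _) m w) →
    c = ev (ck k) (cc _) m ((1 - Polynomial.X) ^ (m - 7) * a₇ * w) →
    Al.ph (Al.r ^ 7 * iS a₇) - 1 / 2 ∈ Al.O2) → J.ν (ck k) X V P = half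

/-- **block D6** -/
def D6T : Prop := ∀ (g : GEN) (p : PAN) (s : CST) (J : AI 5), SpD J →
  Val (i22 g p s J) 21 (fun D => Pcd D ∧ Sat D) half

/-- leaf FIN: the glue -/
def FIN : Prop := LOCA → KVE → INST → UNI → LINK1 → LINK2 → ALGM → PRES → FINB → D6T

end Crest.Agent.N218.D6

end
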