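import Crest.Agent.N218.D3.Zl
import Crest.Agent.N218.D3.Esh
import Crest.Agent.N218.D3.Geo
import Crest.Agent.N218.D6.Df2
import Crest.Agent.N218.D6.Uk
import Crest.Agent.N218.K.Fin0
import Crest.Agent.N218.K.Denl
import Crest.Agent.N218.In.Gen
import Crest.Agent.N218.Pm.Loop

-- ▼ part N218/D3/Chb
section

/-! Row 218, block D3, leaf CHB (helper14): from the orthogonal to the gnomonic chart. -/

set_option autoImplicit false
set_option linter.unusedVariables false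

open Set unitInterval
open scoped RealInnerProductSpace

noncomputable section

namespace Crest.Agent.N218.D3
open K In Sh

namespace Chb

theorem fam {Γ : Type} [Group Γ] [TopologicalSpace Γ] {M V : Rep Γ} {A B : Type}
    [NormedAddCommGroup A] [NormedSpace ℝ A] [FiniteDimensional ℝ A] [NormedAddCommGroup B]
    [NormedSpace ℝ B] [FiniteDimensional ℝ B] (c : ℝ → Pp A B)
    {P : PB ((Rep.triv Γ B).prod M).ls V} (hP : P.Fr)
    (op : IsOpen {x : A × I | x.1 ∈ (c x.2).1})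
    (ct : ContinuousOn (fun x : A × I => (c x.2).2 x.1) {x | x.1 ∈ (c x.2).1})
    {T : Set (A × I)} (hT : IsCompact T) (sub : ∀ x ∈ T, x.1 ∈ (c x.2).1)
    (z : ∀ (x : A × I) (m : M.W), x.1 ∈ (c x.2).1 → ((c x.2).2 x.1, m) ∈ P.Z → x ∈ T) :
    (cmp (c 0) P).Bd (cmp (c 1) P) := by
  have c1 : Continuous fun x : (A × M.W) × I => (x.1.1, x.2) := by fun_prop
  have cF : ContinuousOn (fun x : (A × M.W) × I => ((c x.2).2 x.1.1, x.1.2))
      {x | x.1.1 ∈ (c x.2).1} :=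
    (ct.comp c1.continuousOn fun _ a => a).prodMk continuous_fst.snd.continuousOn
  refine PB.Ok.hb_sl (X := ((Rep.triv Γ A).prod M).ls) (V := V) (H := ⟨{x : (A × M.W) × I | x.1.1 ∈ (c x.2).1 ∧
      ((c x.2).2 x.1.1, x.1.2) ∈ P.O}, fun x : (A × M.W) × I => P.f ((c x.2).2 x.1.1, x.1.2)⟩)
    ⟨cF.isOpen_inter_preimage (op.preimage c1) hP.op, fun g x u => ⟨u.1, hP.inv g _ u.2⟩,
      hP.ct.comp (cF.mono fun _ u => u.1) fun _ u => u.2, fun g x u => hP.eq g _ u.2, ?_,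
      fun x u g k => hP.fr ⟨u.1.2, u.2⟩ g (Prod.ext rfl (congrArg Prod.snd k :))⟩
  have k := (hT.prod (hP.cp.image continuous_snd)).image
    (f := fun x : (A × I) × M.W => ((x.1.1, x.2), x.1.2)) (by fun_prop)
  have s : (fun x : (A × I) × M.W => ((x.1.1, x.2), x.1.2)) '' T ×ˢ (Prod.snd '' P.Z) ⊆
      {x : (A × M.W) × I | x.1.1 ∈ (c x.2).1} := by
    rintro _ ⟨y, a, rfl⟩
    exact sub _ a.1
  refine (congrArg IsCompact (Set.ext fun x : (A × M.W) × I => ?_)).mpr (k.of_isClosed_subset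
    ((cF.mono s).preimage_isClosed_of_isClosed k.isClosed hP.cp.isClosed) inter_subset_left)
  exact ⟨fun a => ⟨⟨((x.1.1, x.2), x.1.2), ⟨z _ x.1.2 a.1.1 ⟨a.1.2, a.2⟩, _, ⟨a.1.2, a.2⟩, rfl⟩, rfl⟩,
    a.1.2, a.2⟩, fun a => ⟨⟨s a.1, a.2.1⟩, a.2.2⟩⟩

variable {Φ : A.Fam} (h : P.Shape Φ (2 ^ 30))

theorem in_le (p : A.Eu 11) : ⟪h.e', p⟫ ≤ ‖p‖ := by
  simpa [h.e1] using real_inner_le_norm h.e' p

theorem d_ge (l : I) (p : A.Eu 11) : ⟪h.e', p⟫ ≤ (1 - l) * ‖p‖ + l * ⟪h.e', p⟫ := by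
  nlinarith [in_le h p, l.2.2]

theorem d_le (l : I) (p : A.Eu 11) : (1 - l) * ‖p‖ + l * ⟪h.e', p⟫ ≤ ‖p‖ := by
  nlinarith [in_le h p, l.2.1]

theorem ch_ct : ContinuousOn (fun x : A0 × I => (ch h x.2 x.1.1, x.1.2))
    {x | 0 < ⟪h.e', x.1.1⟫} := by
  refine (ContinuousOn.smul (ContinuousOn.inv₀ (by fun_prop) fun x a =>
    (lt_of_lt_of_le a (d_ge h _ _)).ne') (by fun_prop)).prodMk (by fun_prop)

theorem half_le {l : I} {p : A.Eu 11} (a : 0 < ⟪h.e', p⟫) (n : ‖p‖ = 1)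
    (s : ‖(ch h l p).1‖ ^ 2 + ‖(ch h l p).2‖ ^ 2 ≤ h.K ^ 2 / 4) : 1 / 2 ≤ ⟪h.e', p⟫ := by
  have d0 := a.trans_le (d_ge h l p)
  have d1 := d_le h l p
  have e := h.πn p
  simp only [ch, Prod.smul_fst, Prod.smul_snd, norm_smul, mul_pow, ← mul_add, e, norm_inv,
    Real.norm_of_nonneg d0.le] at s
  generalize (1 - l : ℝ) * ‖p‖ + l * ⟪h.e', p⟫ = d at s d0 d1
  rw [n] at s d1
  rw [inv_pow, inv_mul_le_iff₀ (by positivity)] at s
  have K2 := pow_pos h.K0 2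
  have d2 : d ^ 2 ≤ 1 := by nlinarith
  have : h.K ^ 2 * (1 ^ 2 - ⟪h.e', p⟫ ^ 2) ≤ h.K ^ 2 * (1 / 4) := by nlinarith
  have := le_of_mul_le_mul_left this K2
  nlinarith

theorem ari {e A r y : ℝ} (e0 : 0 < e) (A0 : 0 < A) (s : e * A * 2 ^ 30 ≤ r / 4)
    (b : y ≤ A * 2 ^ 24) : e * y ≤ r / 2 := by
  nlinarith [mul_pos e0 A0, mul_le_mul_of_nonneg_left b e0.le]

variable (t : Tt h.S)

theorem zer {l : I} {p : A.Eu 11} {u : E 8} {ξ s ζ : ℝ} {η : VY} {y : P.Y} (a1 : 0 < ⟪h.e', p⟫)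
    (a2 : (ch h l p, u) ∈ t.S1.O) (b1 : (t.S1.W (ch h l p, u), ξ) ∈ t.S2.O)
    (b2 : ‖t.S1.H (ch h l p, u)‖ < t.S2.r) (b3 : Pm.mn η ≠ 0) (c1 : Real.log ‖p‖ = 0)
    (c2 : eq0 (rl h (t.S2.W (t.S1.W (ch h l p, u), ξ))) s η = 0)
    (c3 : h.j.symm ((t.S1.H (ch h l p, u), t.S2.H (t.S1.W (ch h l p, u), ξ)), ζ) - h.ε • y = 0)
    (hv : ∀ b, (∀ i, ‖η i‖ ≤ b) → ‖y‖ ≤ b) :
    (‖p‖ = 1 ∧ 1 / 2 ≤ ⟪h.e', p⟫) ∧ (ch h l p, u) ∈ t.S1.O ∧ ‖t.S1.W (ch h l p, u)‖ ≤ t.ρ ∧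
      ‖t.S1.H (ch h l p, u)‖ ≤ t.S2.r / 2 := by
  have n : ‖p‖ = 1 := Real.eq_one_of_pos_of_log_eq_zero (lt_of_lt_of_le a1 (in_le h _)) c1
  obtain ⟨q1, q2, -⟩ := t.l2 _ b1
  obtain ⟨z1, z2⟩ := zl Φ h t _ q2 _ η b3 c2
  have m : (ch h l p, u, ξ) ∈ h.S.O := by rw [t.hO]; exact ⟨a2, b2, b1⟩
  have e : h.S.H (ch h l p, u, ξ) = (h.j (h.ε • y)).1 := by
    rw [t.hH, ← sub_eq_zero.1 c3, h.j.apply_symm_apply]
  have bH : ‖h.S.H (ch h l p, u, ξ)‖ ≤ h.S.r / 2 := by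
    have := hv _ z2
    rw [e]
    refine (Zl.j1_le h _).trans ?_
    rw [norm_smul, Real.norm_of_nonneg h.ε0.le]
    exact ari h.ε0 (Zl.A_pos h) h.small this
  have su := h.sup _ m (by rw [t.hW]; exact z1.le) bH
  refine ⟨⟨n, half_le h a1 n su⟩, a2, q1.le, ?_⟩
  rw [t.hH, t.hr, Prod.norm_mk] at bH
  exact (max_le_iff.1 bH).1

/-- the compact set of labels -/
def TT : Set (A0 × I) := {x | (‖x.1.1‖ = 1 ∧ 1 / 2 ≤ ⟪h.e', x.1.1⟫) ∧
  (ch h x.2 x.1.1, x.1.2) ∈ t.S1.O ∧ ‖t.S1.W (ch h x.2 x.1.1, x.1.2)‖ ≤ t.ρ ∧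
    ‖t.S1.H (ch h x.2 x.1.1, x.1.2)‖ ≤ t.S2.r / 2}

theorem TT_cp : IsCompact (TT h t) := by
  have r2 := t.S2.r0
  have C := t.S1.cpt t.ρ t.hρ (t.S2.r / 2) (by linarith [t.r21])
  have cl : IsClosed {x : A0 × I | ‖x.1.1‖ = 1 ∧ 1 / 2 ≤ ⟪h.e', x.1.1⟫} :=
    (isClosed_eq (by fun_prop) continuous_const).inter
      (isClosed_le continuous_const (by fun_prop : Continuous fun x : A0 × I => ⟪h.e', x.1.1⟫))
  have pos : ∀ x : A0 × I, 1 / 2 ≤ ⟪h.e', x.1.1⟫ → 0 < ⟪h.e', x.1.1⟫ := fun x a => by linarith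
  exact (((isCompact_sphere 0 1).prod (C.image continuous_snd)).prod
    isCompact_univ).of_isClosed_subset
      (((ch_ct h).mono fun x a => pos x a.2).preimage_isClosed_of_isClosed cl C.isClosed)
      fun x a => ⟨⟨mem_sphere_zero_iff_norm.2 a.1.1, _, a.2, rfl⟩, trivial⟩

theorem cL_op : IsOpen {x : A0 × I | x.1 ∈ (cL h t x.2).1} :=
  (ch_ct h).isOpen_inter_preimage (isOpen_lt continuous_const
    (by fun_prop : Continuous fun x : A0 × I => ⟪h.e', x.1.1⟫)) t.S1.op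

theorem cL_ct : ContinuousOn (fun x : A0 × I => (cL h t x.2).2 x.1) {x | x.1 ∈ (cL h t x.2).1} := by
  have cq : ContinuousOn (fun x : A0 × I => (ch h x.2 x.1.1, x.1.2)) {x | x.1 ∈ (cL h t x.2).1} :=
    (ch_ct h).mono fun _ a => a.1
  exact ((t.S1.sW.continuousOn.comp cq fun _ a => a.2).prodMk
    (t.S1.sH.continuousOn.comp cq fun _ a => a.2)).prodMk (ContinuousOn.log
      continuous_fst.fst.norm.continuousOn fun x a => (lt_of_lt_of_le a.1 (in_le h _)).ne')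

theorem main (v : VY →L[ℝ] P.Y) (hv : ∀ η b, (∀ i, ‖η i‖ ≤ b) → ‖v η‖ ≤ b)
    (hF : (Es.P1' h t v).Fr) :
    (cmp (cL h t 0) (Es.P1' h t v)).Bd (cmp (cL h t 1) (Es.P1' h t v)) :=
  fam (cL h t) hF (cL_op h t) (cL_ct h t) (TT_cp h t)
    (fun x a => ⟨lt_of_lt_of_le one_half_pos a.1.2, a.2.1⟩) fun x m a b =>
      zer h t a.1 a.2 b.1.1 b.1.2.1 b.1.2.2 (congrArg (fun y => y.1.1.1) b.2)
        (congrArg (fun y => y.1.2) b.2) (congrArg (fun y => y.2) b.2) (hv _)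

end Chb

/-- **change of the chart** -/
theorem chb (hF : PFR) : CHB := by
  intro Φ h t
  have f := hF Φ h t
  rw [Es.P1_eq] at f ⊢
  refine Chb.main h t _ (fun η b a => ?_) f
  have := Zl.av_le (c := 0) (y := η) fun i => (sub_zero (η i)).symm ▸ a i
  rwa [sub_zero] at this

end Crest.Agent.N218.D3

end
end

-- ▼ part N218/D3/Eis
section

/-!
# Row 218, block D3 (helper89): linear bookkeeping
-/

set_option autoImplicit false
set_option linter.unusedVariables false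
set_option linter.unusedSectionVars false

open Set Module

noncomputable section

namespace Crest.Agent.N218.D3
open K In Sh

namespace Ei

theorem fr_iso {Γ : Type} [Group Γ] [TopologicalSpace Γ] {X X' : LS Γ} {V V' : Rep Γ} {P : PB X V}
    (h : P.Fr) (A : X'.Iso X) (B : V.Iso V') : (P.iso A B).Fr := by
  refine ⟨h.op.preimage A.e.continuous, fun g x a => ?_,
    B.e.continuous.comp_continuousOn (h.ct.comp A.e.continuous.continuousOn fun _ a => a),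
    fun g x a => ?_, ?_, fun x a g b => h.fr ⟨a.1, B.e.map_eq_zero_iff.1 a.2⟩ g ?_⟩
  · change A.e _ ∈ P.O
    rw [A.eq]; exact h.inv g _ a
  · change B.e (P.f (A.e _)) = _
    rw [A.eq, h.eq g _ a, B.eq]; rfl
  · have : (P.iso A B).Z = A.e ⁻¹' P.Z :=
      Set.ext fun x => and_congr_right fun _ => B.e.map_eq_zero_iff
    rw [this]
    exact A.e.isCompact_preimage.2 h.cp
  · rw [← A.eq, b]

variable {A B C D Y Y' : Type} [NormedAddCommGroup A] [NormedSpace ℝ A] [FiniteDimensional ℝ A]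
  [NormedAddCommGroup B] [NormedSpace ℝ B] [FiniteDimensional ℝ B]
  [NormedAddCommGroup C] [NormedSpace ℝ C] [FiniteDimensional ℝ C]
  [NormedAddCommGroup D] [NormedSpace ℝ D] [FiniteDimensional ℝ D]
  [NormedAddCommGroup Y] [NormedSpace ℝ Y] [FiniteDimensional ℝ Y]
  [NormedAddCommGroup Y'] [NormedSpace ℝ Y'] [FiniteDimensional ℝ Y'] (k : ℕ)

/-- invariant continuous maps -/
structure Iv (c : Pm.V k Y → Y) : Prop where
  ct : Continuous c
  inv : ∀ y g, c (fun i => y (i + g)) = c y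

theorem iv_av (ε : ℝ) : Iv k fun y => ε • Pm.av k Y y :=
  ⟨(Pm.av k Y).continuous.const_smul ε, fun y g => congrArg (ε • ·) (Pm.av_add y g)⟩

variable {k} {c : Pm.V k Y → Y}


variable (A) in
/-- the average as a new variable -/
def aE (hc : Iv k c) (j : Y ≃L[ℝ] (B × ℝ) × ℝ) (κ : Y ≃L[ℝ] Y') :
    ((Rep.triv (Gk k) (A × B)).prod (XX (ℂ × ℝ × ℝ) k Y)).ls.Iso
      ((XX (A × ℂ) k Y').prod (Rep.triv (Gk k) Y)).ls where
  e := { toFun := fun z : (A × B) × (ℂ × ℝ × ℝ) × Pm.V k Y => (((z.1.1, z.2.1.1), fun i => κ (z.2.2 i)),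
           j.symm ((z.1.2, z.2.1.2.1), z.2.1.2.2) - c z.2.2)
         invFun := fun z : ((A × ℂ) × Pm.V k Y') × Y =>
           ((z.1.1.1, (j (z.2 + c fun i => κ.symm (z.1.2 i))).1.1),
             (z.1.1.2, (j (z.2 + c fun i => κ.symm (z.1.2 i))).1.2,
               (j (z.2 + c fun i => κ.symm (z.1.2 i))).2), fun i => κ.symm (z.1.2 i))
         left_inv := fun z : (A × B) × (ℂ × ℝ × ℝ) × Pm.V k Y => by
           simp only [ContinuousLinearEquiv.symm_apply_apply, sub_add_cancel,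
             ContinuousLinearEquiv.apply_symm_apply]
           rfl
         right_inv := fun z : ((A × ℂ) × Pm.V k Y') × Y => by
           simp only [ContinuousLinearEquiv.symm_apply_apply, add_sub_cancel_right,
             ContinuousLinearEquiv.apply_symm_apply, Prod.mk.eta]
         continuous_toFun := show Continuous fun z : (A × B) × (ℂ × ℝ × ℝ) × Pm.V k Y =>
           (((z.1.1, z.2.1.1), fun i => κ (z.2.2 i)),
             j.symm ((z.1.2, z.2.1.2.1), z.2.1.2.2) - c z.2.2) by have := hc.ct; fun_prop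
         continuous_invFun := show Continuous fun z : ((A × ℂ) × Pm.V k Y') × Y =>
           ((z.1.1.1, (j (z.2 + c fun i => κ.symm (z.1.2 i))).1.1),
             (z.1.1.2, (j (z.2 + c fun i => κ.symm (z.1.2 i))).1.2,
               (j (z.2 + c fun i => κ.symm (z.1.2 i))).2), fun i => κ.symm (z.1.2 i))
           by have := hc.ct; fun_prop }
  eq g z := Prod.ext rfl (congrArg (fun a => j.symm ((z.1.2, z.2.1.2.1), z.2.1.2.2) - a)
    (hc.inv z.2.2 g.toAdd))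

variable (C D k) in
/-- the change of the fibre in the target -/
def bE (κ : Y ≃L[ℝ] Y') : ((XX C k Y').prod (Rep.triv (Gk k) D)).Iso
    ((XX C k Y).prod (Rep.triv (Gk k) D)) :=
  ⟨((ContinuousLinearEquiv.refl ℝ C).prodCongr
    (ContinuousLinearEquiv.piCongrRight fun _ : Pm.Ix k => κ.symm)).prodCongr (.refl ℝ D),
    fun _ _ => rfl⟩

/-- rescaled coordinates -/
def ka {ε : ℝ} (h : ε ≠ 0) (i : Y ≃ₗᵢ[ℝ] Y') : Y ≃L[ℝ] Y' :=
  (LinearEquiv.smulOfNeZero ℝ Y ε h).toContinuousLinearEquiv.trans i.toContinuousLinearEquiv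

theorem ka_apply {ε : ℝ} (h : ε ≠ 0) (i : Y ≃ₗᵢ[ℝ] Y') (y : Y) : ka h i y = i (ε • y) := rfl

theorem ka_symm {ε : ℝ} (h : ε ≠ 0) (i : Y ≃ₗᵢ[ℝ] Y') (y : Y') :
    (ka h i).symm y = ε⁻¹ • i.symm y := by
  rw [ContinuousLinearEquiv.symm_apply_eq, ka_apply, smul_inv_smul₀ h, i.apply_symm_apply]

theorem mn_ka {k : ℕ} (κ : Y ≃L[ℝ] Y') (y : Pm.V k Y) (i : Pm.Ix k) :
    Pm.mn (fun i => κ (y i)) i = κ (Pm.mn y i) := by simp [Pm.mn]

theorem mn_ne {k : ℕ} (κ : Y ≃L[ℝ] Y') (y : Pm.V k Y) :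
    Pm.mn (fun i => κ (y i)) ≠ 0 ↔ Pm.mn y ≠ 0 :=
  not_congr ⟨fun a => funext fun i => κ.map_eq_zero_iff.1 ((mn_ka κ y i).symm.trans (congrFun a i)),
    fun a => funext fun i => by rw [mn_ka, a]; exact map_zero κ⟩

open Gn



/-- the rescaled total problem -/
def pE (c : Pm.V k Y → Y) (ε : ℝ) (j : Y ≃L[ℝ] (B × ℝ) × ℝ) (i : Y ≃ₗᵢ[ℝ] Y') (r : A × Y' → Y') :
    PB ((Rep.triv (Gk k) (A × B)).prod (XX (ℂ × ℝ × ℝ) k Y)).ls
      ((XX (ℝ × ℝ) k Y).prod (Rep.triv (Gk k) Y)) :=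
  ⟨{z : (A × B) × (ℂ × ℝ × ℝ) × Pm.V k Y | z.1.1 ≠ 0 ∧ Pm.mn z.2.2 ≠ 0},
    fun z : (A × B) × (ℂ × ℝ × ℝ) × Pm.V k Y =>
      (((Real.log ‖z.1.1‖, z.2.1.1.im), ε⁻¹ • ((fun a => (ε • z.2.2) a -
          i.symm (r (‖z.1.1‖⁻¹ • z.1.1, i ((ε • z.2.2) (a - 1))))) +
          Real.exp z.2.1.1.re • Pm.mn (ε • z.2.2))),
        j.symm ((z.1.2, z.2.1.2.1), z.2.1.2.2) - c z.2.2)⟩

theorem eis0 [Nontrivial A] {m : ℕ} (J : AI m) (hk : 16 ≤ k) (hc : Iv k c) {ε : ℝ} (hε : ε ≠ 0)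
    (j : Y ≃L[ℝ] (B × ℝ) × ℝ) (i : Y ≃ₗᵢ[ℝ] Y') (r : A × Y' → Y')
    (a : Adm m (XX (A × ℂ) k Y') (XX (ℝ × ℝ) k Y'))
    (a' : Adm m ((Rep.triv (Gk k) (A × B)).prod (XX (ℂ × ℝ × ℝ) k Y))
      ((XX (ℝ × ℝ) k Y).prod (Rep.triv (Gk k) Y)))
    (o : (Pm.Ec k univ fun p : Metric.sphere (0 : A) 1 × Y' => r (p.1, p.2)).Ok) :
    (pE c ε j i r).Fr ∧ Pm.Pe (J.ν (ck k) _ _ (pE c ε j i r)) ((Emb.sph A).line.inv J k (Pm.sp Y')
      (Pm.Ec k univ fun p : Metric.sphere (0 : A) 1 × Y' => r (p.1, p.2))) := by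
  have f := (Emb.sph A).line.pb_fr o
  obtain ⟨s1, h1⟩ := J.stb _ _ _ (Rep.triv (Gk k) Y) (gq hk) a
  obtain ⟨s2, h2⟩ := J.iso _ _ _ _ _ (gq hk) (adm_prod a _) a' (aE A hc j (ka hε i))
    (bE (ℝ × ℝ) Y k (ka hε i))
  have f' := fr_iso (fr_st f (Rep.triv (Gk k) Y)) (aE A hc j (ka hε i)) (bE (ℝ × ℝ) Y k (ka hε i))
  have eO : (pE c ε j i r).O = ((((Emb.sph A).line.pb (Pm.Ec k univ
      fun p : Metric.sphere (0 : A) 1 × Y' => r (p.1, p.2))).st (Rep.triv (Gk k) Y)).iso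
      (aE A hc j (ka hε i)) (bE (ℝ × ℝ) Y k (ka hε i))).O :=
    Set.ext fun z => ⟨fun u => ⟨⟨⟨u.1, trivial⟩, (mn_ne _ _).2 u.2, fun _ => trivial⟩, trivial⟩,
      fun u => ⟨u.1.1.1, (mn_ne _ _).1 u.1.2.1⟩⟩
  have l : (pE c ε j i r).Le _ := ⟨eO.subset, fun z u => ?_, fun z u => eO ▸ u.1⟩
  · have f2 := l.ok f' (eO ▸ f'.op) (eO ▸ f'.inv)
    exact ⟨f2, pe_two s2 s1 ((J.bd _ _ _ (gq hk) a' _ _ (l.hb f2 f')).trans (h2 _ (fr_st f _)))
      (h1 _ f)⟩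
  · obtain ⟨⟨p, b⟩, ⟨w, c⟩, y⟩ := z
    refine Prod.ext (Prod.ext rfl (funext fun n => ?_)) rfl
    change ε⁻¹ • ((ε • y n - i.symm (r (‖p‖⁻¹ • p, i (ε • y (n - 1))))) +
      Real.exp w.re • Pm.mn (ε • y) n) = (ka hε i).symm ((ka hε i (y n) -
        r (Emb.rad A p, ka hε i (y (n - 1)))) + Real.exp w.re • Pm.mn (fun n => ka hε i (y n)) n)
    rw [Emb.rad_coe u.1, mn_ka, ka_symm]
    simp [ka_apply, Pm.mn, smul_sub, smul_comm ε]
    rfl

end Ei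



theorem Ei.aux2 {Φ : A.Fam} (h : P.Shape Φ (2 ^ 30)) (c : VY → P.Y) :
    (⟨{z : A0 × (ℂ × ℝ × ℝ) × VY | z.1.1 ≠ 0 ∧ Pm.mn z.2.2 ≠ 0},
    fun z : A0 × (ℂ × ℝ × ℝ) × VY =>
      (((Real.log ‖z.1.1‖, z.2.1.1.im),
        h.ε⁻¹ • eq0 (rE h (‖z.1.1‖⁻¹ • z.1.1)) z.2.1.1.re (h.ε • z.2.2)),
        h.j.symm ((z.1.2, z.2.1.2.1), z.2.1.2.2) - c z.2.2)⟩ : PB XE.ls VV) =
      Ei.pE c h.ε h.j h.i Φ.r := by
  unfold Ei.pE eq0 rE
  with_reducible rfl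

theorem Ei.E1_eq {Φ : A.Fam} (h : P.Shape Φ (2 ^ 30)) :
    E1 h = Ei.pE (fun y => h.ε • Pm.av 21 _ y) h.ε h.j h.i Φ.r := by
  unfold E1
  exact Ei.aux2 h fun y => h.ε • Pm.av 21 _ y


theorem eis (hR : REP) (hE : OKE) : EIS := by
  intro g p s I Φ h t
  rw [Ei.E1_eq, Sk.ev, i11_pa g p s I]
  exact Ei.eis0 I (by norm_num) (Ei.iv_av 21 h.ε) h.ε0.ne' h.j h.i Φ.r (adm (by simp) _ _) hR.1
    (hE Φ)

end Crest.Agent.N218.D3

end
end

-- ▼ part N218/D6/Uni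
section

/-!
# Row 218, block D6 (helper12): the round trip on the even part has unit degree
-/

set_option autoImplicit false
set_option linter.unusedVariables false

open unitInterval Topology Filter Set OnePoint
open scoped InnerProductSpace ComplexConjugate

noncomputable section

namespace Crest.Agent.N218.D6

open K K.Cp Pm In Uk
open Sk (Cn S2 S3 X22 hfv Frm Sat)

namespace Un

variable {k n : ℕ}

theorem fo_fi (c : (Ev k × Fin n → ℂ) × (Od k × Fin n → ℂ)) : fo (fi c) = c := by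
  refine Prod.ext (funext fun p => ?_) (funext fun p => ?_) <;>
    simp only [fo, fi, ContinuousLinearEquiv.apply_symm_apply]
  · exact dif_pos p.1.2
  · exact dif_neg (Nat.not_even_iff_odd.2 p.1.2)

theorem fi_fo (y : V k (Fin n → ℂ)) : fi (fo y) = y := by
  rw [fi, ContinuousLinearEquiv.symm_apply_eq]
  funext p
  split_ifs <;> rfl

theorem fo_ct : Continuous (fo : V k (Fin n → ℂ) → _) :=
  (continuous_pi fun _ => (continuous_apply _).comp (Fo.co _ _).continuous).prodMk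
    (continuous_pi fun _ => (continuous_apply _).comp (Fo.co _ _).continuous)

theorem fi_ct : Continuous (fi : _ → V k (Fin n → ℂ)) :=
  (Fo.co _ _).symm.continuous.comp (continuous_pi fun p => by split_ifs <;> fun_prop)

theorem fo_smul (c : ℂ) (y : V k (Fin n → ℂ)) : fo (c • y) = c • fo y := by
  simp only [fo, _root_.map_smul]; rfl

theorem s3_ct : Continuous s3 :=
  Continuous.subtype_mk ((PiLp.continuous_toLp 2 _).comp continuous_subtype_val) _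
theorem ys_ct : Continuous ys := (s3_ct.comp continuous_fst).prodMk (s3_ct.comp continuous_snd)
theorem hfv_ct : Continuous hfv := by
  refine (PiLp.continuous_toLp 2 _).comp (continuous_pi fun i => ?_)
  fin_cases i <;> simp <;> fun_prop
theorem hp_ct : Continuous hp :=
  Continuous.subtype_mk (hfv_ct.comp (continuous_subtype_val.comp s3_ct)) _
theorem hx_ct : Continuous hx := (hp_ct.comp continuous_fst).prodMk (hp_ct.comp continuous_snd)

/-- the half turn -/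
abbrev hf (k : ℕ) : Ix k := ((2 ^ k : ℕ) : Ix k)

theorem evn_iff (y : V k (Fin n → ℂ)) : Fo.sh (hf k) y = y ↔ (fo y).2 = 0 := by
  have q : 2 ^ (k + 1) = 2 ^ k + 2 ^ k := by ring
  refine ⟨fun h => funext fun p => ?_, fun h => Fo.D_ext fun j => ?_⟩
  · have := Fo.D_sh (hf k) y p.1.1
    rw [h, Fo.ch_half q, p.1.2.neg_one_pow] at this
    have := congrFun this p.2
    change Fo.D _ _ y p.1.1 p.2 = 0
    simp only [Pi.smul_apply, smul_eq_mul] at this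
    linear_combination (1 / 2 : ℂ) * this
  · rw [Fo.D_sh, Fo.ch_half q]
    rcases Nat.even_or_odd j.val with e | e
    · rw [e.neg_one_pow, one_smul]
    · rw [show Fo.D _ _ y j = 0 from funext fun i => congrFun h (⟨j, e⟩, i), smul_zero]

/-- the action on `S³ × S³` -/
abbrev ac (g : GG k) (y : US 2 × US 2) : US 2 × US 2 := Y0.act (ph k g) y

theorem hp_act (t : Circle) (u u' : US 2) (h : ∀ i, u'.1 i = t * u.1 i) : hp u' = hp u := by
  have e : conj (u'.1 0) * u'.1 1 = conj (u.1 0) * u.1 1 := by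
    rw [h, h, map_mul]; linear_combination (conj (u.1 0) * u.1 1) * circ_conj t
  have n : ∀ i, ‖u'.1 i‖ = ‖u.1 i‖ := fun i => by rw [h, norm_mul, Circle.norm_coe, one_mul]
  refine Subtype.ext ?_
  simp only [hp, hfv, s3, e, n]

theorem hx_act (g : GG k) (y : US 2 × US 2) : hx (ac g y) = hx y :=
  Prod.ext (hp_act g.2.1 _ _ fun _ => rfl) (hp_act g.2.2 _ _ fun _ => rfl)

variable {E : Type} [NormedAddCommGroup E] [InnerProductSpace ℂ E] {π : X22 → E →L[ℂ] E}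
  {a a' : Fin n → ℤ} {s : Fin n → S3 × S3 → E}

theorem up_dn (h : Frm π a a' s) (y : US 2 × US 2) (e : V k E) (i : Ix k) :
    up s y (dn s y e) i = π (hx y) (e i) := (h.sp (hx y) (ys y) rfl rfl _).symm

theorem dn_up (h : Frm π a a' s) (y : US 2 × US 2) (c : V k (Fin n → ℂ)) :
    dn s y (up s y c) = c := by
  funext i j
  simp [dn, up, h.on]

theorem pi_up (h : Frm π a a' s) (y : US 2 × US 2) (c : V k (Fin n → ℂ)) (i : Ix k) :
    π (hx y) (up s y c i) = up s y c i := by rw [← up_dn h, dn_up h]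

theorem up_ct (h : Frm π a a' s) :
    Continuous fun x : (US 2 × US 2) × V k (Fin n → ℂ) => up s x.1 x.2 :=
  continuous_pi fun i => continuous_finsetSum _ fun j _ =>
    Continuous.smul (by fun_prop) ((h.ct j).comp (ys_ct.comp continuous_fst))

theorem dn_ct (h : Frm π a a' s) : Continuous fun x : (US 2 × US 2) × V k E => dn s x.1 x.2 :=
  continuous_pi fun i => continuous_pi fun j =>
    ((h.ct j).comp (ys_ct.comp continuous_fst)).inner (by fun_prop)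

theorem co_act (h : Frm π a a' s) (g : GG k) (y : US 2 × US 2) (e : V k E) (j : Ix k) (l : Fin n) :
    Fo.co _ _ (dn s (ac g y) (Fo.sh g.1.toAdd e)) (j, l) =
      (wc j.val (a l) (a' l) (ph k g) : ℂ) * Fo.co _ _ (dn s y e) (j, l) := by
  have c : ∀ (t : Circle) (z : ℤ), conj ((t : ℂ) ^ z) = (t : ℂ) ^ (-z) := fun t z => by
    rw [map_zpow₀, ← Circle.coe_inv_eq_conj, Circle.coe_inv, inv_zpow']
  have e1 : ∀ i, dn s (ac g y) (Fo.sh g.1.toAdd e) i l =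
      ((g.2.1 : ℂ) ^ (-a l) * (g.2.2 : ℂ) ^ (-a' l)) * Fo.sh g.1.toAdd (dn s y e) i l := fun i => by
    simp only [dn, Fo.sh]
    rw [h.eq l (ys y) (ys (ac g y)) g.2.1 g.2.2 rfl rfl, inner_smul_left, map_mul, c, c]
  have e2 := congrFun (Fo.D_sh g.1.toAdd (dn s y e) j) l
  have e3 : (wc j.val (a l) (a' l) (ph k g) : ℂ) =
      Fo.ch g.1.toAdd ^ j.val * ((g.2.1 : ℂ) ^ (-a l) * (g.2.2 : ℂ) ^ (-a' l)) := by
    simp only [wc, MonoidHom.mul_apply, MonoidHom.pow_apply, MonoidHom.zpow_apply, Circle.coe_mul,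
      Circle.coe_pow, Circle.coe_zpow]
    rfl
  rw [Fo.co_apply, Fo.co_apply, e3, mul_comm (_ ^ j.val), mul_assoc, ← Fo.ch_mul]
  refine Eq.trans ?_ (congrArg (_ * ·) e2)
  simp only [Fo.D_apply, Finset.sum_apply, Pi.smul_apply, smul_eq_mul, e1, Finset.mul_sum]
  exact Finset.sum_congr rfl fun i _ => by ring

theorem dn_act (h : Frm π a a' s) (g : GG k) (y : US 2 × US 2) (e : V k E) :
    fo (dn s (ac g y) (Fo.sh g.1.toAdd e)) =
      ((WE k a a').ρ (ph k g) (fo (dn s y e)).1, (WO k a a').ρ (ph k g) (fo (dn s y e)).2) :=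
  Prod.ext (funext fun p => co_act h g y e p.1.1 p.2) (funext fun p => co_act h g y e p.1.1 p.2)

variable (s) in
/-- the even vector with coordinates `z` -/
def ze (y : US 2 × US 2) (z : Ev k × Fin n → ℂ) : V k E := up s y (fi (z, 0))

theorem ze_act (h : Frm π a a' s) (g : GG k) (y : US 2 × US 2) (z : Ev k × Fin n → ℂ) :
    ze s (ac g y) ((WE k a a').ρ (ph k g) z) = Fo.sh g.1.toAdd (ze s y z) := by
  have e := dn_act h g y (ze s y z)
  rw [ze, dn_up h, fo_fi] at e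
  have e' : _ = (((WE k a a').ρ (ph k g) z, 0) : (Ev k × Fin n → ℂ) × (Od k × Fin n → ℂ)) :=
    e.trans (Prod.ext rfl (map_zero ((WO k a a').ρ (ph k g))))
  funext i
  refine (congrArg (fun c => up s (ac g y) (fi c) i) e'.symm).trans ?_
  simp only [fi_fo, up_dn h, hx_act]
  exact pi_up h y _ _

theorem ze_hf (y : US 2 × US 2) (z : Ev k × Fin n → ℂ) (i : Ix k) :
    ze s y z (i + hf k) = ze s y z i := by
  have := congrFun ((evn_iff (fi (z, 0))).2 (by rw [fo_fi])) i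
  simp only [ze, up]
  rw [show fi (z, 0) (i + hf k) = fi (z, 0) i from this]

theorem ze_ct (h : Frm π a a' s) :
    Continuous fun x : (US 2 × US 2) × (Ev k × Fin n → ℂ) => ze s x.1 x.2 :=
  (up_ct h).comp (continuous_fst.prodMk (fi_ct.comp (continuous_snd.prodMk continuous_const)))

theorem ze_fo (h : Frm π a a' s) (y : US 2 × US 2) {e : V k E} (p : ∀ i, π (hx y) (e i) = e i)
    (ev : ∀ i, e (i + hf k) = e i) : ze s y (fo (dn s y e)).1 = e := by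
  have : (fo (dn s y e)).2 = 0 := (evn_iff _).1 (funext fun i => funext fun j => by
    simp only [Fo.sh, dn, ev])
  funext i
  rw [ze, ← this, Prod.mk.eta, fi_fo, up_dn h, p]

theorem fo_ze (h : Frm π a a' s) (y : US 2 × US 2) (z : Ev k × Fin n → ℂ) :
    (fo (dn s y (ze s y z))).1 = z := by rw [ze, dn_up h, fo_fi]

theorem bdd {Y A B : Type} [TopologicalSpace Y] [CompactSpace Y] [NormedAddCommGroup A]
    [ProperSpace A] [NormedAddCommGroup B] {f : Y × A → B} (hf : Continuous f) (R : ℝ) :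
    ∃ C, ∀ y a, ‖a‖ ≤ R → ‖f (y, a)‖ ≤ C := by
  obtain ⟨C, h⟩ := ((isCompact_univ.prod (isCompact_closedBall (0 : A) R)).image
    hf).isBounded.exists_norm_le
  exact ⟨C, fun y a r => h _ ⟨(y, a), ⟨trivial, mem_closedBall_zero_iff.2 r⟩, rfl⟩⟩

section path
variable {n₁ n₂ : ℕ} (D : Data X22 (Cn n₁) (Cn n₂)) (s₂ : Fin n → S3 × S3 → Cn n₂) {T : Type}

/-- the argument of `h₂` -/
def w (x : (I × ((US 2 × US 2) × T)) × (Ev k × Fin n → ℂ)) (i : Ix k) : (X22 × ℝ) × Cn n₂ :=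
  ((hx x.1.2.1, x.1.1), ze s₂ x.1.2.1 x.2 i)
/-- the domain of the path -/
def Oh : Set ((I × ((US 2 × US 2) × T)) × (Ev k × Fin n → ℂ)) := {x | ∀ i, w s₂ x i ∈ D.O₂}
/-- the path -/
def fh (x : (I × ((US 2 × US 2) × T)) × (Ev k × Fin n → ℂ)) : Ev k × Fin n → ℂ :=
  (fo (dn s₂ x.1.2.1 fun i => D.h₂ (w s₂ x i))).1

variable {D s₂} {c κ R₀ M : ℝ} {b b' : Fin n → ℤ} [TopologicalSpace T]

theorem cw (f2 : Frm D.π₂ b b' s₂) (i : Ix k) :
    Continuous fun x : (I × ((US 2 × US 2) × T)) × (Ev k × Fin n → ℂ) => w s₂ x i := by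
  have a : Continuous fun x : (I × ((US 2 × US 2) × T)) × (Ev k × Fin n → ℂ) => (x.1.2.1, x.2) :=
    continuous_fst.snd.fst.prodMk continuous_snd
  have b := continuous_pi_iff.1 ((ze_ct (k := k) f2).comp a) i
  exact ((hx_ct.comp continuous_fst.snd.fst).prodMk
    (continuous_subtype_val.comp continuous_fst.fst)).prodMk b

theorem cd (f2 : Frm D.π₂ b b' s₂) :
    Continuous fun x : (US 2 × US 2) × V k (Cn n₂) => (fo (dn s₂ x.1 x.2)).1 :=
  (fo_ct.comp (dn_ct f2)).fst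

theorem oh_op (h : D.Ok c κ R₀ M) (f2 : Frm D.π₂ b b' s₂) : IsOpen (Oh (k := k) (T := T) D s₂) := by
  rw [Oh, ofPred_forall]
  exact isOpen_iInter_of_finite fun i => h.o₂.preimage (cw f2 i)

theorem fh_ct (h : D.Ok c κ R₀ M) (f2 : Frm D.π₂ b b' s₂) :
    ContinuousOn (fh (k := k) (T := T) D s₂) (Oh D s₂) := by
  have a : ContinuousOn (fun x : (I × ((US 2 × US 2) × T)) × (Ev k × Fin n → ℂ) =>
      (x.1.2.1, fun i => D.h₂ (w s₂ x i))) (Oh D s₂) := continuous_fst.snd.fst.continuousOn.prodMk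
    (continuousOn_pi.2 fun i => h.c₂.comp (cw f2 i).continuousOn fun x o => o i)
  have b := (cd (k := k) f2).comp_continuousOn a
  exact b

theorem fh_cp [CompactSpace T] (h : D.Ok c κ R₀ M) (f2 : Frm D.π₂ b b' s₂) (R : ℝ) :
    ∃ S, IsCompact S ∧ S ⊆ Oh (k := k) (T := T) D s₂ ∧ ∀ x ∈ Oh D s₂, ‖fh D s₂ x‖ ≤ R → x ∈ S := by
  obtain ⟨C1, b1⟩ := bdd (ze_ct (k := k) f2) R
  obtain ⟨C2, b2⟩ := bdd (cd (k := k) f2) (max (max R₀ C1) 1)
  refine ⟨(univ ×ˢ Metric.closedBall 0 C2) ∩ ⋂ i, (fun x => w s₂ x i) ⁻¹' {z ∈ D.O₂ |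
    |z.1.2| ≤ max (max R₀ C1) 1 ∧ ‖D.h₂ z‖ ≤ max (max R₀ C1) 1 ∧ ‖z.2‖ ≤ max (max R₀ C1) 1},
    (isCompact_univ.prod (isCompact_closedBall _ _)).inter_right (isClosed_iInter fun i =>
      (h.k₂ _).isClosed.preimage (cw f2 i)), fun x o i => (mem_iInter.1 o.2 i).1, fun x o e => ?_⟩
  have e1 : ∀ i, ‖D.h₂ (w s₂ x i)‖ ≤ C1 := fun i => by
    have := (norm_le_pi_norm _ i).trans (b1 x.1.2.1 _ e)
    have z := ze_fo f2 x.1.2.1 (e := fun i => D.h₂ (w s₂ x i)) (fun i => (h.q₂ _ _ _).2.2)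
      fun i => by simp only [w, ze_hf]
    simp only [fh, z] at this
    exact this
  have e2 : ∀ i, ‖ze s₂ x.1.2.1 x.2 i‖ ≤ max (max R₀ C1) 1 := fun i => by
    refine le_trans ?_ (le_max_left _ _)
    have t := h.x₂ _ (o i)
    simp only [w, ze, pi_up f2] at t
    rcases le_total R₀ ‖ze s₂ x.1.2.1 x.2 i‖ with u | u
    · refine le_max_of_le_right (le_trans ?_ ((t u).trans (e1 i)))
      exact le_mul_of_one_le_left (norm_nonneg _) (by linarith [h.hκ])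
    · exact le_max_of_le_left u
  refine ⟨⟨trivial, mem_closedBall_zero_iff.2 ?_⟩, mem_iInter.2 fun i => ⟨o i, ?_,
    (e1 i).trans (le_max_of_le_left (le_max_right _ _)), e2 i⟩⟩
  · have := b2 x.1.2.1 _ ((pi_norm_le_iff_of_nonneg (by positivity)).2 e2)
    simp only [fo_ze f2] at this
    exact this
  · exact le_max_of_le_right ((abs_of_nonneg x.1.1.2.1).trans_le x.1.1.2.2)

omit [TopologicalSpace T] in
theorem w_act (f2 : Frm D.π₂ b b' s₂) (g : GG k) (t : I) (y : US 2 × US 2) (u u' : T)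
    (z : Ev k × Fin n → ℂ) (i : Ix k) :
    w s₂ ((t, (ac g y, u')), (WE k b b').ρ (ph k g) z) i = w s₂ ((t, (y, u)), z) (i + g.1.toAdd) :=
  Prod.ext (Prod.ext (hx_act g _) rfl) (congrFun (ze_act f2 g y z) i)

omit [TopologicalSpace T] in
theorem fh_act (f2 : Frm D.π₂ b b' s₂) (g : GG k) (t : I) (y : US 2 × US 2) (u u' : T)
    (z : Ev k × Fin n → ℂ) : fh D s₂ ((t, (ac g y, u')), (WE k b b').ρ (ph k g) z) =
      (WE k b b').ρ (ph k g) (fh D s₂ ((t, (y, u)), z)) :=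
  (congrArg (fun e => (fo (dn s₂ (ac g y) e)).1)
    (funext fun i => congrArg D.h₂ (w_act f2 g t y u u' z i))).trans
    (congrArg Prod.fst (dn_act f2 g y fun i => D.h₂ (w s₂ ((t, (y, u)), z) i)))

omit [TopologicalSpace T] in
theorem pe_one (h : D.Ok c κ R₀ M) (f2 : Frm D.π₂ b b' s₂) (y : (US 2 × US 2) × T)
    (z : Ev k × Fin n → ℂ) : pe (Oh D s₂) (fh D s₂) ((1, y), z) = OnePoint.some (D.μ • z) := by
  have t := fun i => h.r₂ (hx y.1) 1 (ze s₂ y.1 z i) le_rfl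
  have hw : ∀ i, w s₂ ((1, y), z) i = ((hx y.1, 1), ze s₂ y.1 z i) := fun _ => rfl
  have o : ((1, y), z) ∈ Oh D s₂ := fun i => by rw [hw]; exact (t i).1
  refine (pe_in _ o).trans (congrArg OnePoint.some ?_)
  have e : (dn s₂ y.1 fun i => D.h₂ (w s₂ ((1, y), z) i)) = (D.μ : ℂ) • fi (z, 0) := by
    rw [← dn_up f2 y.1 (fi (z, 0))]
    funext i j
    change ⟪_, D.h₂ ((hx y.1, 1), ze s₂ y.1 z i)⟫_ℂ = D.μ * ⟪_, ze s₂ y.1 z i⟫_ℂ
    rw [(t i).2, ze, pi_up f2, ← Complex.coe_smul, inner_smul_right]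
  rw [fh, e, fo_smul, fo_fi]; rfl

omit [TopologicalSpace T] in
theorem pe_zero (h : D.Ok c κ R₀ M) (S : Sat D) {a a' : Fin n → ℤ} {s₁ : Fin n → S3 × S3 → Cn n₁}
    (f1 : Frm D.π₁ a a' s₁) (y : (US 2 × US 2) × T) (z : Ev k × Fin n → ℂ) :
    OnePoint.map Prod.fst (gm k D s₁ s₂ y.1 1 ((mm k D s₁ s₂ y.1 (z, 0)).1, 0)) =
      pe (Oh D s₂) (fh D s₂) ((0, y), z) := by
  have t := fun i => h.l₂ (hx y.1) 0 (ze s₂ y.1 z i) le_rfl
  have e : up s₁ y.1 (fi ((mm k D s₁ s₂ y.1 (z, 0)).1, 0)) =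
      fun i => D.u (hx y.1, ze s₂ y.1 z i) :=
    ze_fo f1 y.1 (fun i => S.u _ _) fun i =>
      congrArg (fun v => D.u (hx y.1, v)) (ze_hf y.1 z i)
  have t0 : rt 1 = 0 := by simp [rt]
  rw [gm, t0, neg_zero, Fo.g_zero, Fo.g_zero, e]
  have hw : ∀ i, w s₂ ((0, y), z) i = ((hx y.1, 0), ze s₂ y.1 z i) := fun _ => rfl
  split_ifs with o
  · have o' : ((0, y), z) ∈ Oh D s₂ := fun i => by rw [hw]; exact (t i).1.2 (o i)
    rw [pe_in _ o', fh]
    simp only [hw, fun i => (t i).2 (o i)]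
    rfl
  · have o' : ((0, y), z) ∉ Oh D s₂ := fun o' => o fun i => (t i).1.1 (by rw [← hw]; exact o' i)
    rw [pe_out _ o']
    rfl

theorem pm_h (h : D.Ok c κ R₀ M) (f2 : Frm D.π₂ b b' s₂) (N : ℕ) :
    Pm (IY ((YT N).res (ph k) (ph_ct k))) ((WE k b b').res (ph k) (ph_ct k)).ls
      ((WE k b b').res (ph k) (ph_ct k)).ls
      (pe (B := ((WE k b b').res (ph k) (ph_ct k)).W) (Oh (T := US N) D s₂) (fh D s₂)) :=
  pm_pe (oh_op h f2) (fh_ct h f2)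
    (fun g x o i => (w_act f2 g x.1.1 x.1.2.1 x.1.2.2 _ x.2 i).symm ▸ o _)
    (fun g x o => fh_act f2 g x.1.1 x.1.2.1 x.1.2.2 _ x.2) (fh_cp h f2)

end path
end Un

open Un in
/-- **leaf UNI** -/
theorem uni : UNI := fun k n n₁ n₂ D c κ R₀ M a a' b b' s₁ s₂ hk h S f1 f2 m p kV ok F r l hl =>
  th_path (pm_h h f2 (m + p)) (scl _ (show D.μ ≠ 0 by linarith [h.hμ])) (pe_one h f2)
    (fun y z => (r y z).trans (congrArg (pt _ _ y) (pe_zero h S f1 y z))) hl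

end Crest.Agent.N218.D6

end
end

-- ▼ part N218/D6/Finb
section

/-! Row 218, block D6 (helper80): `FINB`. -/

set_option autoImplicit false

open Polynomial Module

noncomputable section

namespace Crest.Agent.N218.D6
open K

namespace Fb
variable {Γ : Type} [Group Γ] [Fintype Γ] [TopologicalSpace Γ] [DiscreteTopology Γ]
  {χ : Γ →* Circle} {X V : Rep Γ} {P : PB X.ls V}

/-- raising the level -/
theorem lev (hi : Function.Injective χ) (cX : Cx X.ls.xr) (cV : Cx V.ls) {r : ℕ} (hr : 0 < r)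
    {lS lT} (tS : (Sb _ _).Th lS) (tT : (Sb _ _).Th lT) {a : ℤ[X]}
    (h : Dg χ (cc χ) r P lT ((Sb _ _).sm (ev χ (cc χ) r a) lS)) (j : ℕ) :
    ∀ lS' lT', (Sb _ _).Th lS' → (Sb _ _).Th lT' → ∃ w : ℤ[X], IsUnit (ev χ (cc χ) (r + j) w) ∧
      Dg χ (cc χ) (r + j) P lT'
        ((Sb _ _).sm (ev χ (cc χ) (r + j) ((1 - Polynomial.X) ^ j * a * w)) lS') := by
  induction j with
  | zero =>
    intro lS' lT' a1 a2
    obtain ⟨u, u', e1, rfl, -⟩ := tT.unit a2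
    obtain ⟨v, v', e2, -, rfl⟩ := tS.unit a1
    obtain ⟨w, e⟩ := (kln χ r hi hr).1 (u * v')
    obtain ⟨F, c, f⟩ := h
    refine ⟨w, e ▸ (IsUnit.of_mul_eq_one _ e1).mul (.of_mul_eq_one_right _ e2), F, c, ?_⟩
    rw [F.pull_sm, pull_id, f, Ex.sm_sm, Ex.sm_sm, pow_zero, one_mul, map_mul]
    exact congrArg ((Sb _ _).sm · lS') (by rw [mul_right_comm, ← e, mul_comm]; rfl)
  | succ j ih =>
    intro lS' lT' a1 a2
    obtain ⟨l1, -, b1, -⟩ := cX.sp (cc χ) (r + j) Th.thom hi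
    obtain ⟨l2, -, b2, -⟩ := (cx_tt χ (cc χ) (r + j) cV).sp (cc χ) (r + j) Th.thom hi
    obtain ⟨w, e, d⟩ := ih l1 l2 b1.th b2.th
    obtain ⟨u, e', d'⟩ := denl Th.thom kln χ (r + j) X V hi (by omega) cX cV l1 l2 lS' lT'
      b1.th b2.th a1 a2
    refine ⟨w * u, map_mul (ev χ (cc χ) (r + j + 1)) w u ▸
      (En.unit_up kln hi (by omega) e).mul e', ?_⟩
    rw [show (1 - Polynomial.X) ^ (j + 1) * a * (w * u) =
      (1 - Polynomial.X) * ((1 - Polynomial.X) ^ j * a * w) * u by ring]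
    exact d' P _ d
end Fb

theorem finb : FINB := by
  intro J hJ k m X V P lT lS c hk hm a cV p tT tS d h
  have g := In.gq hk
  have a' := In.Gn.adm_prod a (Rep.triv _ ℝ)
  have p' := In.Gn.fr_st p (Rep.triv _ ℝ)
  obtain ⟨s, e⟩ := J.stb _ X V (Rep.triv _ ℝ) g a
  obtain ⟨o⟩ := ((oex Th.thom _ _ _ g cV).2 a').1
  obtain ⟨s', e'⟩ := hJ _ _ _ g a' cV o
  obtain ⟨F, f⟩ := Iv.cl (χ := In.ck k) (Nat.lt_of_succ_lt (Iv.dim a' (by norm_num))) p'
  obtain ⟨y, b⟩ := o.tS.ex (o.tT.1.hm F)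
  obtain ⟨a₇, rfl⟩ := (kln _ 7 g.inj (by norm_num)).1 y
  obtain ⟨j, rfl⟩ := Nat.exists_eq_add_of_le hm
  obtain ⟨w, u, d'⟩ := Fb.lev g.inj ((cxa (In.ck k) _ _ cV).2.1 a') cV (by norm_num) o.tS o.tT ⟨F, f, b⟩ j
    lS lT tS tT
  rw [← Ex.one_sm _ lT] at d'
  have t := Iv.dg_un (by have := Iv.dim a' (show 5 ≤ 12 by norm_num); omega) d d'
  rw [Ex.one_sm] at t
  have v := h a₇ w u (by rw [Nat.add_sub_cancel_left]; exact (tS.inj t).symm)
  have z := e' _ _ ⟨a₇, ⟨F, f, b⟩, rfl⟩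
  rw [e P p, show ((Al.ph (Al.r ^ 7 * iS a₇) : ℚ) : QQ) = Sk.half from
    (QuotientAddGroup.eq_iff_sub_mem).2 v] at z
  have := In.Gn.pe_two s⁻¹ s' (show J.ν _ X V P = s⁻¹ • s • J.ν _ X V P from (inv_smul_smul _ _).symm) z
  exact this.elim id fun q => q.trans Sk.neg_half

end Crest.Agent.N218.D6
end
end

-- ▼ part N218/D6/Kve
section

/-!
# Row 218, block D6 (helper99): leaf KVE, the cycle
-/

set_option autoImplicit false
set_option linter.unusedVariables false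

open unitInterval Set
open scoped ComplexConjugate

noncomputable section

namespace Crest.Agent.N218.D6

open K K.Cp Pm In
open Sk (Cn)

namespace Kv
variable {k : ℕ} {E : Type} [NormedAddCommGroup E] [NormedSpace ℂ E]

theorem hq (k : ℕ) : 2 ^ (k + 1) = 2 ^ k + 2 ^ k := by ring

theorem mn_yk (y : V k E) : mn y = Yk.mn (Equiv.addRight ((2 ^ k : ℕ) : Ix k)) y := by
  funext i; simp [mn, Yk.mn]

theorem D_mn (y : V k E) (j : Ix k) :
    Fo.D _ E (mn y) j = if Odd j.val then Fo.D _ E y j else 0 := by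
  rw [mn_yk]; exact Fo.D_mn (hq k) y j

theorem mul_inv {j : Ix k} (h : Odd j.val) : j * j⁻¹ = 1 := by
  have := ZMod.coe_mul_inv_eq_one (n := 2 ^ (k + 1)) j.val
    (Nat.Coprime.pow_right _ (Nat.coprime_two_right.2 h))
  rwa [ZMod.natCast_zmod_val] at this

theorem ex_ne {j : Ix k} (h : Odd j.val) : (j⁻¹).val ≠ 0 := fun e => by
  have := mul_inv h
  rw [(ZMod.val_eq_zero _).1 e, mul_zero] at this
  have : Fact (1 < 2 ^ (k + 1)) := ⟨Nat.one_lt_two_pow (by omega)⟩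
  exact zero_ne_one (α := Ix k) ‹_›

variable {N : ℕ} (e : E ≃L[ℂ] (Fin N → ℂ))

/-- powers of the odd Fourier coefficients -/
def k0 (v : V k E) : (Ix k × Fin N) ⊕ Fin 7 → ℂ :=
  Sum.elim (fun p => if Odd p.1.val then e (Fo.D _ E v p.1) p.2 ^ (p.1⁻¹).val else 0) 0

theorem k0_ct : Continuous (k0 (k := k) e) := continuous_pi fun p => by
  rcases p with p | p
  · simp only [k0, Sum.elim_inl]
    split_ifs
    · fun_prop
    · exact continuous_const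
  · exact continuous_const

theorem k0_sh (a : Ix k) (v : V k E) (p) : k0 e (Fo.sh a v) p = Fo.ch a * k0 e v p := by
  rcases p with p | p
  · simp only [k0, Sum.elim_inl]
    split_ifs with h
    · rw [Fo.D_sh, map_smul, Pi.smul_apply, smul_eq_mul, mul_pow, ← Fo.ch_mul, mul_assoc,
        mul_inv h, mul_one]
    · rw [mul_zero]
  · exact (mul_zero _).symm

theorem k0_mn (v : V k E) : k0 e (mn v) = k0 e v := funext fun p => by
  rcases p with p | p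
  · simp only [k0, Sum.elim_inl]
    split_ifs with h
    · rw [D_mn, if_pos h]
    · rfl
  · rfl

theorem k0_bd (R : ℝ) : ∃ R', ∀ v : V k E, (∀ p, ‖k0 e v p‖ ≤ R) → ‖mn v‖ ≤ R' := by
  refine ⟨‖(Fo.D (2 ^ (k + 1)) E).symm.toContinuousLinearMap‖ * (‖(e.symm : (Fin N → ℂ) →L[ℂ] E)‖ * max 1 R),
    fun v h => ?_⟩
  rw [← (Fo.D (2 ^ (k + 1)) E).symm_apply_apply (mn v)]
  refine (Fo.D (2 ^ (k + 1)) E).symm.toContinuousLinearMap.le_opNorm_of_le
    ((pi_norm_le_iff_of_nonneg (by positivity)).2 fun j => ?_)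
  rw [D_mn]
  split_ifs with hj
  · rw [← e.symm_apply_apply (Fo.D _ E v j)]
    refine (e.symm : (Fin N → ℂ) →L[ℂ] E).le_opNorm_of_le
      ((pi_norm_le_iff_of_nonneg (by positivity)).2 fun i => ?_)
    have := h (.inl (j, i))
    simp only [k0, Sum.elim_inl, if_pos hj, norm_pow] at this
    rcases le_total ‖e (Fo.D _ E v j) i‖ 1 with c | c
    · exact le_max_of_le_left c
    · exact le_max_of_le_right ((le_self_pow₀ c (ex_ne hj)).trans this)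
  · rw [norm_zero]; positivity

theorem k0_z (v : V k E) : k0 e v = 0 ↔ mn v = 0 := by
  rw [mn_yk, Fo.mn_zero_iff (hq k)]
  refine ⟨fun h j hj => e.injective (funext fun i => ?_), fun h => funext fun p => ?_⟩
  · have := congrFun h (.inl (j, i))
    simp only [k0, Sum.elim_inl, if_pos hj] at this
    rw [map_zero]; exact eq_zero_of_pow_eq_zero this
  · rcases p with p | p
    · simp only [k0, Sum.elim_inl]
      split_ifs with c
      · rw [h _ c, map_zero]; exact zero_pow (ex_ne c)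
      · rfl
    · rfl

theorem us_ge {m : ℕ} (u : US m) : 1 ≤ m * ‖u.1‖ ^ 2 := by
  have h := congrArg Complex.re u.2
  rw [Complex.re_sum] at h
  calc (1 : ℝ) = _ := h.symm
    _ ≤ ∑ _i : Fin m, ‖u.1‖ ^ 2 := Finset.sum_le_sum fun i _ => by
      rw [Complex.conj_mul', ← Complex.ofReal_pow, Complex.ofReal_re]
      exact pow_le_pow_left₀ (norm_nonneg _) (norm_le_pi_norm u.1 i) 2
    _ = _ := by simp

end Kv
open Kv

theorem kve : KVE := by
  intro k n n₁ n₂ D c κ R₀ M a a' b b' s₁ s₂ hk hD _ _ _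
  let e : (Cn n₁ × Cn n₂) ≃L[ℂ] (Fin (Module.finrank ℂ (Cn n₁ × Cn n₂)) → ℂ) :=
    .ofFinrankEq (by simp)
  let f := (Fintype.equivFin ((Ix k × Fin (Module.finrank ℂ (Cn n₁ × Cn n₂))) ⊕ Fin 7)).symm
  obtain ⟨R, hR⟩ := Data.LR_bd (k := k) hD 0
  obtain ⟨C, hC⟩ := ((isCompact_closedBall (0 : V k (Cn n₁ × Cn n₂)) R).image
    (k0_ct e)).isBounded.exists_norm_le
  set m := Fintype.card ((Ix k × Fin (Module.finrank ℂ (Cn n₁ × Cn n₂))) ⊕ Fin 7) with hm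
  have m7 : 7 ≤ m := by rw [hm, Fintype.card_sum, Fintype.card_fin]; omega
  obtain ⟨ε, e0, e1⟩ : ∃ ε : ℝ, 0 < ε ∧ ε * (|C| + 1) * (m + 1) = 1 :=
    ⟨((|C| + 1) * (m + 1))⁻¹, by positivity, by field_simp⟩
  have e2 : (ε : ℂ) ≠ 0 := Complex.ofReal_ne_zero.2 e0.ne'
  refine ⟨m, fun v i => ε * k0 e v (f i), m7,
    continuous_pi fun i => continuous_const.mul ((continuous_apply _).comp (k0_ct e)),
    fun g v => funext fun i => ?_, fun v => by simp only [k0_mn], fun R => ?_, fun v => ?_, ?_⟩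
  · exact (congrArg _ (k0_sh e g.toAdd v _)).trans (mul_left_comm _ _ _)
  · obtain ⟨R', h⟩ := k0_bd (k := k) e (R / ε)
    refine ⟨R', fun v hv => h v fun p => ?_⟩
    have := (norm_le_pi_norm _ (f.symm p)).trans hv
    rw [Equiv.apply_symm_apply, norm_mul, Complex.norm_real, Real.norm_of_nonneg e0.le] at this
    rwa [le_div_iff₀' e0]
  · rw [← k0_z e]
    refine ⟨fun h => funext fun p => ?_, fun h => funext fun i => by simp [h]⟩
    have := congrFun h (f.symm p)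
    rw [Equiv.apply_symm_apply] at this
    exact (mul_eq_zero.1 this).resolve_left e2
  · intro x hx h0 u ρ hρ h
    have b := (hR (((x.1.1, rep x.1.2), 1), x.2) hx (by
      rw [← norm_zero (E := V k (Cn n₁ × Cn n₂)), ← h0]
      simp [Data.LR, Data.Orb])).1
    have b2 := hC _ ⟨x.2, mem_closedBall_zero_iff.2 b, rfl⟩
    have b3 : ‖ρ • u.1‖ ≤ ε * |C| := h ▸ (pi_norm_le_iff_of_nonneg (by positivity)).2 fun i => by
      rw [norm_mul, Complex.norm_real, Real.norm_of_nonneg e0.le]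
      exact mul_le_mul_of_nonneg_left ((norm_le_pi_norm _ _).trans (b2.trans (le_abs_self C))) e0.le
    rw [norm_smul, Real.norm_of_nonneg (by linarith)] at b3
    have u0 := norm_nonneg u.1
    have b4 : ‖u.1‖ * (m + 1) < 1 := by
      have : ‖u.1‖ ≤ ε * |C| := by nlinarith
      have p : (0 : ℝ) < m + 1 := by positivity
      nlinarith [mul_pos e0 p]
    have := us_ge u
    have m0 : (0 : ℝ) ≤ m := by positivity
    nlinarith [mul_nonneg m0 u0]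

end Crest.Agent.N218.D6
end
end

-- ▼ part N218/D6/Algm

/-!
# Row 218, block D6 (helper23): the algebra at level `m`
-/

set_option autoImplicit false
set_option linter.unusedSimpArgs false
set_option linter.unusedVariables false

open PowerSeries Finset

noncomputable section

namespace Crest.Agent.N218.Al

theorem fin_auxM {q n M ν : ℕ} (hM : n + ν + 7 ≤ M) {υ a g z w Y : S} (hυ : UO υ) (hw : w ∈ OS)
    (hY : N L q * Y = 1)
    (h : t ^ (n + 1) * υ * N L q * a = t ^ (n + ν + 5) * υ * g + t ^ M * z + t * N L q ^ 2 * w) :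
    ∃ s, Ng q (s - t ^ 4 * (Y * g)) ∧ ∃ c ∈ OS, a = t ^ ν * s + N L q * c := by
  obtain ⟨j, rfl⟩ := Nat.exists_eq_add_of_le hM
  obtain ⟨-, τ, hτ, e⟩ := hυ
  obtain ⟨w', e'⟩ : ∃ w', w' = Y ^ 2 * (υ * N L q * a - t ^ (ν + 4) * υ * g -
    t ^ (ν + 6 + j) * z) := ⟨_, rfl⟩
  have k : t ^ n * w' = w := mul_left_cancel₀ t_ne (by
    rw [e']; linear_combination Y ^ 2 * h + t * w * (N L q * Y + 1) * hY)
  refine ⟨t ^ 4 * (Y * g) + t ^ 6 * (t ^ j * τ * Y * z), ⟨t ^ j * τ * Y * z, 0, OS.zero_mem, by ring⟩,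
    τ * w', OS.mul_mem hτ (shift_mem (k ▸ hw)), ?_⟩
  rw [e']
  linear_combination (-τ * (υ * N L q * a - t ^ (ν + 4) * υ * g - t ^ (ν + 6 + j) * z) * Y -
    τ * υ * a) * hY + (t ^ (ν + 4) * Y * g - a) * e

theorem d6M {ι J J' : Type*} [Fintype ι] [Fintype J] [Fintype J'] {q M ν : ℕ} {k : ι → ℕ}
    {a a' b b' : J → ℤ} {f f' : J' → ℤ}
    (hk : Odq q k) (h0 : q ≠ 0) (hq : 2 ∣ q) (ha : ∑ j, a j = ∑ j, b j)
    (ha' : ∑ j, a' j = ∑ j, b' j) {n : ℤ}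
    (hn : ∑ j, b j * b' j - ∑ j, a j * a' j = 8 * (2 * n + 1))
    (hM : Fintype.card ι * Fintype.card J + Fintype.card ι * Fintype.card J' + ν + 10 ≤ M)
    {x κ κ0 κw d p1 p2 p3 : DD}
    (hx : x ∈ OD) (hκ0 : κ0 ∈ OD) (hp : p3 ∈ OD) (uκ : UO (cp 0 κ)) (uw : UO (cp 0 κw))
    (h1 : x * (1 - sc L ^ q) = κ * eu (sc L) e1 e2 k a a' - κ0 * eu (sc L) e1 e2 k b b' +
      sc t ^ M * p1)
    (h2 : eu (sc L) e1 e2 k a a' * eu (sc L) e1 e2 k f f' * d =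
      sc t ^ (ν + 7) * x * κw * eu (sc L) e1 e2 k f f' + sc t ^ M * p2 + (1 - sc L ^ q) * p3) :
    ∃ s : Fin 4 → S, (Hs q (s 3) ∧ Zs q (s 0) ∧ Zs q (s 1) ∧ Zs q (s 2)) ∧
      ∀ i, ∃ c ∈ OS, cp i d = t ^ ν * s i + N L q * c := by
  have un : ∀ i, UO (N L (k i)) := fun i => by
    obtain ⟨c, -, e⟩ := N_eq (k i)
    obtain ⟨m, hm⟩ := hk.1 i
    exact uo_of (N_mem L_mem _) (natCast_mem O2 m) (by rw [e, hm]; simp [cc_t, map_ofNat])
  choose y ym hy using fun i => (un i).2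
  have uυ : UO ((∏ i, N L (k i)) ^ Fintype.card J) :=
    (prod_induction _ UO (fun _ _ => UO.mul) uo_one fun i _ => un i).pow _
  have uυ' : UO ((∏ i, N L (k i)) ^ Fintype.card J') :=
    (prod_induction _ UO (fun _ _ => UO.mul) uo_one fun i _ => un i).pow _
  obtain ⟨Y, hY⟩ := N_inv h0
  obtain ⟨h, hh, hm, z, ez⟩ := s2_val hk hy hY n
  have eE := eu_eq k a a' hy
  have eW := eu_eq k b b' hy
  have eF := eu_eq k f f' hy
  have m1 : ∑ i, L ^ k i * y i ∈ OS := OS.sum_mem fun i _ => OS.mul_mem (OS.pow_mem L_mem _) (ym i)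
  have m2 : ∑ i, L ^ k i * y i ^ 2 ∈ OS :=
    OS.sum_mem fun i _ => OS.mul_mem (OS.pow_mem L_mem _) (OS.pow_mem (ym i) 2)
  have hn' : ((∑ j, b j * b' j : ℤ) : S) - (∑ j, a j * a' j : ℤ) = 8 * (2 * n + 1) := by
    exact_mod_cast congrArg (Int.cast : ℤ → S) hn
  rw [ha, ha'] at eE
  have mA := OS.mul_mem m2 (intCast_mem OS (∑ j, a j * a' j))
  have mB := OS.mul_mem m2 (intCast_mem OS (∑ j, b j * b' j))
  have m3 := OS.mul_mem m1 (intCast_mem OS (∑ j, b j))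
  have m4 := OS.mul_mem m1 (intCast_mem OS (∑ j, b' j))
  have m5 := EE_mem (OS.neg_mem (OS.mul_mem m1 (intCast_mem OS (∑ j, f j))))
    (OS.neg_mem (OS.mul_mem m1 (intCast_mem OS (∑ j, f' j))))
    (OS.neg_mem (OS.mul_mem m2 (intCast_mem OS (∑ j, f j * f' j))))
  generalize (∑ i, L ^ k i * y i ^ 2) * ((∑ j, f j * f' j : ℤ) : S) = sF at eF m5
  generalize (∑ i, L ^ k i * y i) * ((∑ j, f j : ℤ) : S) = s3 at eF m5
  generalize (∑ i, L ^ k i * y i) * ((∑ j, f' j : ℤ) : S) = s4 at eF m5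
  generalize (∏ i, N L (k i)) ^ Fintype.card J' = υ' at *
  generalize Fintype.card ι * Fintype.card J' = c' at *
  generalize eu (sc L) e1 e2 k f f' = B' at *
  have hd : (∑ i, L ^ k i * y i ^ 2) * (∑ j, b j * b' j : ℤ) + -((∑ i, L ^ k i * y i ^ 2) *
    (∑ j, a j * a' j : ℤ)) = (∑ i, L ^ k i * y i ^ 2) * (8 * (2 * n + 1)) := by rw [← hn']; ring
  generalize (∑ i, L ^ k i * y i ^ 2) * (8 * (2 * n + 1)) = δ at *
  generalize (∑ i, L ^ k i * y i ^ 2) * ((∑ j, a j * a' j : ℤ) : S) = sA at *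
  generalize (∑ i, L ^ k i * y i ^ 2) * ((∑ j, b j * b' j : ℤ) : S) = sB at *
  generalize (∑ i, L ^ k i * y i) * ((∑ j, b j : ℤ) : S) = s1 at *
  generalize (∑ i, L ^ k i * y i) * ((∑ j, b' j : ℤ) : S) = s2 at *
  generalize (∏ i, N L (k i)) ^ Fintype.card J = υ at *
  generalize Fintype.card ι * Fintype.card J = c at *
  generalize eu (sc L) e1 e2 k a a' = A at *
  generalize eu (sc L) e1 e2 k b b' = B at *
  have z0 : EE 0 0 0 = sc (t ^ 2) := by simp [EE]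
  have z1 : EE 0 0 δ = sc (t ^ 2) - sc δ * (e1 * e2) := by simp [EE, sub_eq_add_neg]
  have fA : A * EE (-s1) (-s2) (-sA) = sc (t ^ c * υ) * sc (t ^ 2) := sc_can (by
    rw [← mul_assoc, eE, mul_assoc, EE_mul]; simp only [add_neg_cancel, z0]; ring)
  have fB : B * EE (-s1) (-s2) (-sB) = sc (t ^ c * υ) * sc (t ^ 2) := sc_can (by
    rw [← mul_assoc, eW, mul_assoc, EE_mul]; simp only [add_neg_cancel, z0]; ring)
  have fC : B * EE (-s1) (-s2) (-sA) = sc (t ^ c * υ) * (sc (t ^ 2) - sc δ * (e1 * e2)) := sc_can (by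
    rw [← mul_assoc, eW, mul_assoc, EE_mul]; simp only [add_neg_cancel, hd, z1]; ring)
  have fF : B' * EE (-s3) (-s4) (-sF) = sc (t ^ c' * υ') * sc (t ^ 2) := sc_can (by
    rw [← mul_assoc, eF, mul_assoc, EE_mul]; simp only [add_neg_cancel, z0]; ring)
  have mF := OD.mul_mem hp (OD.mul_mem (EE_mem (OS.neg_mem m3) (OS.neg_mem m4) (OS.neg_mem mA)) m5)
  have a0 : cp 0 A = t ^ c * υ := mul_right_cancel₀ (pow_ne_zero 2 t_ne) (by
    simpa [EE, -map_pow] using congrArg (cp 0) fA)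
  have b0 : cp 0 B = t ^ c * υ := mul_right_cancel₀ (pow_ne_zero 2 t_ne) (by
    simpa [EE, -map_pow] using congrArg (cp 0) fB)
  generalize EE (-s1) (-s2) (-sA) = FA at *
  generalize EE (-s3) (-s4) (-sF) = FB at *
  have eN : 1 - sc L ^ q = sc t * sc (N L q) := by rw [← map_mul, t_N]; simp
  rw [eN] at h1 h2
  have u0 : UO (cp 0 κ0) := by
    have k0 := congrArg (cp 0) h1
    simp only [← map_pow, map_add, map_sub, cp0_mul, cp0_sc, a0, b0] at k0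
    obtain ⟨j, rfl⟩ : ∃ j, M = c + (j + 1) := ⟨M - c - 1, by omega⟩
    obtain ⟨x', ex⟩ : ∃ x', x' = Y * (υ * (cp 0 κ - cp 0 κ0) + t ^ (j + 1) * cp 0 p1) := ⟨_, rfl⟩
    have mx : x' ∈ OS := shift_mem (n := c) (by
      convert OS.mul_mem t_mem (hx 0) using 1
      rw [ex]; linear_combination -Y * k0 + t * cp 0 x * hY)
    obtain ⟨-, τ, hτ, eτ⟩ := uυ
    obtain ⟨m, hm, em⟩ := uκ.odd
    obtain ⟨q', rfl⟩ := hq
    obtain ⟨w, -, ew⟩ := N_eq (2 * q')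
    have : cp 0 κ0 = cp 0 κ - τ * N L (2 * q') * x' + τ * t ^ (j + 1) * cp 0 p1 := by
      rw [ex]; linear_combination (τ * (υ * (cp 0 κ - cp 0 κ0) + t ^ (j + 1) * cp 0 p1)) * hY +
        (cp 0 κ - cp 0 κ0) * eτ
    refine uo_of (hκ0 0) (O2.sub_mem hm (O2.mul_mem (O2.mul_mem (cc_mem hτ) (natCast_mem O2 q'))
      (cc_mem mx))) ?_
    rw [this, ew]; simp [cc_t, em, map_ofNat]; ring
  have main' : ∀ i, ∃ s, Ng q (s - t ^ 4 * (Y * cp i (κw * ((κ - κ0) * sc (t ^ 2) +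
      κ0 * (sc δ * (e1 * e2)))))) ∧ ∃ c ∈ OS, cp i d = t ^ ν * s + N L q * c := fun i => by
    refine fin_auxM (n := c + c' + 3) (M := M) (by omega) (uυ.mul uυ') (mF i) hY
      (z := cp i (sc t ^ (ν + 8) * sc (t ^ c' * υ') * κw * p1 * FA + sc (N L q) * p2 * FA * FB)) ?_
    rw [← cp_sc, ← cp_sc, ← cp_sc, ← cp_sc, ← map_add, ← map_add]
    congr 1
    simp only [map_mul, map_pow] at *
    generalize sc t = T at *
    generalize sc (N L q) = Q at *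
    generalize sc υ = U at *
    generalize sc υ' = U' at *
    linear_combination Q * FA * FB * h2 - Q * d * B' * FB * fA - Q * d * T ^ c * U * T ^ 2 * fF +
      Q * T ^ (ν + 7) * x * κw * FA * fF + T ^ (ν + 8) * T ^ c' * U' * κw * FA * h1 +
      T ^ (ν + 8) * T ^ c' * U' * κw * κ * fA - T ^ (ν + 8) * T ^ c' * U' * κw * κ0 * fC
  choose s main rest using main'
  have low : ∀ {s g : S}, Ng q (s - t ^ 4 * (Y * (g * t ^ 2))) → Zs q s := fun {s g} h => by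
    have := (h.add (s' := t ^ 4 * (Y * (g * t ^ 2))) ⟨Y * g, 0, OS.zero_mem, by ring⟩).zs
    rwa [sub_add_cancel] at this
  refine ⟨s, ⟨?_, low (g := cp 0 (κw * (κ - κ0))) ?_, low (g := cp 1 (κw * (κ - κ0))) ?_,
    low (g := cp 2 (κw * (κ - κ0))) ?_⟩, rest⟩
  · have : Hs q (t ^ 4 * h) := ⟨h, hh, hm, 0, 0, OS.zero_mem, by simp⟩
    convert (this.mul (uw.mul u0)).add ((main 3).add ⟨Y * cp 3 (κw * (κ - κ0)) +
      cp 0 κw * cp 0 κ0 * z, 0, OS.zero_mem, rfl⟩).zs using 1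
    simp [-map_pow, -map_mul]
    linear_combination t ^ 4 * cp 0 κw * cp 0 κ0 * ez
  · convert main 0 using 4; simp [-map_pow, -map_mul]; ring
  · convert main 1 using 4; simp [-map_pow, -map_mul]; ring
  · convert main 2 using 4; simp [-map_pow, -map_mul]; ring

/-- division by `t ^ ν` -/
theorem hs_div {q ν : ℕ} (h0 : q ≠ 0) {a s c : S} (hs : Hs q s) (hc : c ∈ OS)
    (e : t ^ ν * a = t ^ ν * s + N L q * c) : Hs q a := by
  obtain ⟨Y, hY⟩ := N_inv h0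
  have k : t ^ ν * (Y * (a - s)) = c := by linear_combination Y * e + c * hY
  have n : Ng q (a - s) := ⟨0, _, shift_mem (k ▸ hc), by linear_combination (s - a) * hY⟩
  simpa using hs.add n.zs

theorem Lf.uo {K : Type*} [CommRing K] {l : K} {M q : ℕ} (h : Pz (Int.castRingHom K) l M q)
    (hM : M ≠ 0) {y : K} (u : IsUnit y) {s : S} (k : Lf l y s) : UO s := by
  obtain ⟨y', e⟩ := u.exists_right_inv
  obtain ⟨s', k'⟩ := h.lf y'
  obtain ⟨b, -, c, -, f⟩ := Lf.uniq h (k.mul k') (e ▸ lf_one l)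
  obtain ⟨m, hm, o⟩ := odd_of_mul (cc_mem k.mem) (cc_mem k'.mem) (by
    simpa [cc_L, cc_t, hM] using congrArg constantCoeff f)
  exact uo_of k.mem hm o

/-- the span of `1, η₁, η₂, η₁ η₂` -/
def sp4 {C C₀ : Type*} [CommRing C] [CommRing C₀] (j : C₀ →+* C) {η₁ η₂ : C} (h₁ : η₁ ^ 2 = 0)
    (h₂ : η₂ ^ 2 = 0) : Subring C where
  carrier := {y | ∃ a₀ a₁ a₂ a₃, y = j a₀ + j a₁ * η₁ + j a₂ * η₂ + j a₃ * (η₁ * η₂)}
  mul_mem' := by
    rintro _ _ ⟨a₀, a₁, a₂, a₃, rfl⟩ ⟨b₀, b₁, b₂, b₃, rfl⟩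
    refine ⟨a₀ * b₀, a₀ * b₁ + a₁ * b₀, a₀ * b₂ + a₂ * b₀,
      a₀ * b₃ + a₁ * b₂ + a₂ * b₁ + a₃ * b₀, ?_⟩
    simp only [map_add, map_mul]
    linear_combination (j a₁ * j b₁ + (j a₁ * j b₃ + j a₃ * j b₁) * η₂ + j a₃ * j b₃ * η₂ ^ 2) * h₁ +
      (j a₂ * j b₂ + (j a₂ * j b₃ + j a₃ * j b₂) * η₁) * h₂
  add_mem' := by
    rintro _ _ ⟨a₀, a₁, a₂, a₃, rfl⟩ ⟨b₀, b₁, b₂, b₃, rfl⟩
    exact ⟨a₀ + b₀, a₁ + b₁, a₂ + b₂, a₃ + b₃, by simp only [map_add]; ring⟩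
  one_mem' := ⟨1, 0, 0, 0, by simp⟩
  zero_mem' := ⟨0, 0, 0, 0, by simp⟩
  neg_mem' := by
    rintro _ ⟨a₀, a₁, a₂, a₃, rfl⟩
    exact ⟨-a₀, -a₁, -a₂, -a₃, by simp only [map_neg]; ring⟩

theorem fin_ser {q ν : ℕ} (h0 : q ≠ 0) (hq : 256 ∣ q) {y w u : DD} (mυ : y ∈ OD) (mw : w ∈ OD)
    {μ₀ μ₁ μ₂ μ₃ a b β γ : S} (f₀ : μ₀ ∈ OS) (f₁ : μ₁ ∈ OS) (f₂ : μ₂ ∈ OS) (u₃ : UO μ₃)
    (uV : UO (cp 0 y)) (ub : UO b) {s c : Fin 4 → S} (r3 : Hs q (s 3)) (r0 : Zs q (s 0))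
    (r1 : Zs q (s 1)) (r2 : Zs q (s 2)) (mc : ∀ i, c i ∈ OS) (mγ : γ ∈ OS)
    (e : t ^ ν * (a * b) = t ^ ν * (cp 0 y * μ₃ * s 3 +
      ((cp 0 y * μ₀ + cp 1 y * μ₁ + cp 2 y * μ₂ + cp 3 y * μ₃) * s 0 +
        (cp 0 y * μ₁ + cp 2 y * μ₃) * s 1 + (cp 0 y * μ₂ + cp 1 y * μ₃) * s 2) +
      t ^ 7 * (β - cp 0 u * μ₀ - cp 1 u * μ₁ - cp 2 u * μ₂ - cp 3 u * μ₃)) +
      N L q * (t * γ + (cp 0 y * c 0 - t * cp 0 w) * μ₀ +
        (cp 0 y * c 1 + cp 1 y * c 0 - t * cp 1 w) * μ₁ +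
        (cp 0 y * c 2 + cp 2 y * c 0 - t * cp 2 w) * μ₂ +
        (cp 0 y * c 3 + cp 1 y * c 2 + cp 2 y * c 1 + cp 3 y * c 0 - t * cp 3 w) * μ₃)) :
    ph (r ^ 7 * a) - 1 / 2 ∈ O2 := by
  have f₃ := u₃.1
  have A := @OS.add_mem
  have M := @OS.mul_mem
  have B := @OS.sub_mem
  have z7 : ∀ b : S, Zs q (t ^ 7 * b) := fun b => Ng.zs ⟨t * b, 0, OS.zero_mem, by ring⟩
  have hs : Hs q (a * b) := hs_div h0 (((r3.mul (uV.mul u₃)).add
    (((r0.mul (A (A (A (M (mυ 0) f₀) (M (mυ 1) f₁)) (M (mυ 2) f₂)) (M (mυ 3) f₃))).add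
      (r1.mul (A (M (mυ 0) f₁) (M (mυ 2) f₃)))).add
      (r2.mul (A (M (mυ 0) f₂) (M (mυ 1) f₃))))).add (z7 _))
    (A (A (A (A (M t_mem mγ) (M (B (M (mυ 0) (mc 0)) (M t_mem (mw 0))) f₀))
      (M (B (A (M (mυ 0) (mc 1)) (M (mυ 1) (mc 0))) (M t_mem (mw 1))) f₁))
      (M (B (A (M (mυ 0) (mc 2)) (M (mυ 2) (mc 0))) (M t_mem (mw 2))) f₂))
      (M (B (A (A (A (M (mυ 0) (mc 3)) (M (mυ 1) (mc 2))) (M (mυ 2) (mc 1))) (M (mυ 3) (mc 0)))
        (M t_mem (mw 3))) f₃)) e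
  obtain ⟨mb, τ, mτ, eτ⟩ := ub
  have h7 : Hs q a := by
    convert hs.mul (a := τ) ⟨mτ, _, mb, by rw [mul_comm, eτ]⟩ using 1
    linear_combination -a * eτ
  exact (h7.mul (uo_r.pow 7)).ph hq

end Crest.Agent.N218.Al

namespace Crest.Agent.N218.D6
open Al

theorem lfa {A : Type} [CommRing A] (l : A) (p : Polynomial ℤ) :
    Lf l (Polynomial.aeval l p) (K.iS p) :=
  ⟨p, by rw [Polynomial.aeval_def]; rfl, by
    rw [K.iS, Polynomial.aeval_def, Subsingleton.elim (algebraMap ℤ S) (Int.castRingHom S)]⟩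

set_option maxHeartbeats 1000000 in
theorem algm : ALGM := by
  intro R₁ R A B C C₀ ι J _ _ _ _ _ _ _ _ q M m k a a' b b' l₁ i l₂ iA l π ρ l₀ j n x κ κ0 κw d υ Λ
    a₇ w p₁ p₂ n₁ n₂ pA pB pC p₀ hj hk h0 hq ha ha' hn hm hM uκ uw h1 h2 uυ hΛ uΛ uw' hd
  obtain ⟨ν, rfl⟩ : ∃ ν, m = ν + 7 := ⟨m - 7, by omega⟩
  rw [Nat.add_sub_cancel] at hd
  have z₁ : ρ (π (iA (i l₁ - 1))) ^ 2 = 0 := by
    rw [← map_pow, ← map_pow, ← map_pow, ← map_one i, ← map_sub, ← map_pow, ← neg_sub, neg_sq, n₁]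
    simp
  have z₂ : ρ (π (iA (l₂ - 1))) ^ 2 = 0 := by
    rw [← map_pow, ← map_pow, ← map_pow, ← neg_sub, neg_sq, n₂]; simp
  obtain ⟨a₀, a₁, a₂, a₃, dec⟩ : υ * ρ d ∈ sp4 j z₁ z₂ :=
    pC.mem (sp4 j z₁ z₂) (RingHom.id C) (fun y => p₂.mem (sp4 j z₁ z₂) (ρ.comp (π.comp iA)) (fun y =>
      p₁.mem (sp4 j z₁ z₂) ((ρ.comp (π.comp iA)).comp i) (fun n => by
        simp only [eq_intCast, map_intCast]; exact intCast_mem _ n) ⟨1, 1, 0, 0, by simp⟩ y)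
      ⟨1, 0, 1, 0, by simp⟩ y) ⟨l₀, 0, 0, 0, by simp [hj]⟩ _
  have hL : Λ (υ * ρ d) = a₀ * Λ 1 + a₁ * Λ (ρ (π (iA (i l₁ - 1)))) +
      a₂ * Λ (ρ (π (iA (l₂ - 1)))) + a₃ * Λ (ρ (π (iA (i l₁ - 1))) * ρ (π (iA (l₂ - 1)))) := by
    rw [dec, map_add, map_add, map_add, hΛ, hΛ, hΛ, ← hΛ a₀, mul_one]
  obtain ⟨g₁, -, g1⟩ := p₁.lift (Int.castRingHom DD) (1 + e1) (by apply ext4 <;> simp [pow_two])
    (pow_zero _)
  obtain ⟨g, g2, g3⟩ := p₂.lift g₁ (1 + e2) (by apply ext4 <;> simp [pow_two]) (pow_zero _)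
  have mg : ∀ y, g y ∈ Al.OD := p₂.mem Al.OD g (fun y => g2 y ▸ p₁.mem Al.OD g₁ (fun n => by
    simp only [eq_intCast, map_intCast]; exact intCast_mem Al.OD n)
    (g1 ▸ Al.OD.add_mem Al.OD.one_mem e1_mem) y) (g3 ▸ Al.OD.add_mem Al.OD.one_mem e2_mem)
  have s1 : g (i l₁ - 1) = e1 := by rw [map_sub, g2, g1, map_one, add_sub_cancel_left]
  have s2 : g (l₂ - 1) = e2 := by rw [map_sub, g3, map_one, add_sub_cancel_left]
  generalize i l₁ - 1 = η₁ at *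
  generalize l₂ - 1 = η₂ at *
  have mv := ev_mem Al.OD mg (sc_mem L_mem)
  have tT : 1 - sc L = sc t := by simp [L]
  let V := Polynomial.eval₂RingHom g (sc L)
  let vA := Polynomial.eval₂RingHom iA l
  let vB := Polynomial.eval₂RingHom (π.comp iA) (π l)
  let vC := Polynomial.eval₂RingHom (ρ.comp (π.comp iA)) (ρ (π l))
  have AB : ∀ p, π (vA p) = vB p := fun p => Polynomial.hom_eval₂ _ _ _ _
  have BC : ∀ p, ρ (vB p) = vC p := fun p => Polynomial.hom_eval₂ _ _ _ _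
  have dA : ∀ {p p'}, vA p = vA p' → ∃ u, V p = V p' + sc t ^ M * u := fun h =>
    let ⟨u, _, e⟩ := pA.diff g (sc L) h
    ⟨_, by rw [tT, pow_zero, sub_self, zero_mul, add_zero] at e; exact e⟩
  have dB : ∀ {p p'}, vB p = vB p' → ∃ u, ∃ w ∈ Al.OD,
      V p = V p' + (1 - sc L) ^ M * u + (1 - sc L ^ q) * w :=
    fun h => let ⟨_, w, e⟩ := pB.diff g (sc L) h; ⟨_, _, mv w, e⟩
  have sA : Function.Surjective vA := pA.1
  have sB : Function.Surjective vB := pB.1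
  have sC : Function.Surjective vC := pC.1
  obtain ⟨x, rfl⟩ := sA x
  obtain ⟨κ, rfl⟩ := sA κ
  obtain ⟨κ0, rfl⟩ := sA κ0
  obtain ⟨κw, rfl⟩ := sB κw
  obtain ⟨d, rfl⟩ := sB d
  obtain ⟨υ, rfl⟩ := sC υ
  have un : ∀ p, IsUnit (vB p) → UO (cp 0 (V p)) := fun p h => by
    obtain ⟨y, e⟩ := h.exists_right_inv
    obtain ⟨y, rfl⟩ := sB y
    obtain ⟨u, w, -, e⟩ := dB (p := p * y) (p' := 1) (by rw [map_mul, e, map_one])
    rw [map_mul, map_one] at e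
    exact lf_uo (mv p) (mv y) (by omega) e
  have uV : UO (cp 0 (V υ)) := by
    obtain ⟨y, e⟩ := uυ.exists_right_inv
    obtain ⟨y, rfl⟩ := sC y
    obtain ⟨u, w, e⟩ := pC.diff g (sc L) (p := υ * y) (p' := 1)
      (show vC _ = vC _ by rw [map_mul, e, map_one])
    change V _ = V _ + _ * V u + _ * V w at e
    rw [map_mul, map_one] at e
    exact lf_uo (mv υ) (mv y) (by omega) e
  have aE : ∀ a a' : J → ℤ, eu l (iA η₁) (iA η₂) k a a' =
      vA (eu Polynomial.X (Polynomial.C η₁) (Polynomial.C η₂) k a a') := fun a a' => by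
    simp [map_eu, vA]
  have vE : ∀ a a' : J → ℤ, V (eu Polynomial.X (Polynomial.C η₁) (Polynomial.C η₂) k a a') =
      eu (sc L) e1 e2 k a a' := fun a a' => by simp [map_eu, V, s1, s2]
  rw [aE, aE] at h1 h2
  have xA : l = vA Polynomial.X := by simp [vA]
  have xV : V Polynomial.X = sc L := by simp [V]
  obtain ⟨u1, k1⟩ := dA (p := x * (1 - Polynomial.X ^ q)) (p' := κ * _ - κ0 * _) (by
    simpa only [map_mul, map_sub, map_one, map_pow, ← xA] using h1)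
  obtain ⟨u2, u3, m3, k2⟩ := dB (p := _ * _ * d)
    (p' := (1 - Polynomial.X) ^ (ν + 7) * x * κw * _) (by
      simpa only [map_mul, map_sub, map_one, map_pow, ← AB Polynomial.X, ← xA, AB] using h2)
  simp only [map_mul, map_sub, map_one, map_pow, xV, vE, tT] at k1 k2
  obtain ⟨s, ⟨r3, r0, r1, r2⟩, rest⟩ := d6M hk h0 ((by norm_num : 2 ∣ 256).trans hq) ha ha' hn
    (by omega) (mv x) (mv κ0) m3 (un κ (AB κ ▸ uκ)) (un κw uw) k1 k2
  choose c mc ec using rest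
  obtain ⟨c₀, rfl⟩ := p₀.1 a₀
  obtain ⟨c₁, rfl⟩ := p₀.1 a₁
  obtain ⟨c₂, rfl⟩ := p₀.1 a₂
  obtain ⟨c₃, rfl⟩ := p₀.1 a₃
  have jv : ∀ c : Polynomial ℤ, j (c.eval₂ (Int.castRingHom C₀) l₀) =
      vC (c.map (Int.castRingHom R)) := fun c => by
    rw [Polynomial.hom_eval₂, hj, Polynomial.coe_eval₂RingHom, Polynomial.eval₂_map]
    exact congrArg (Polynomial.eval₂ · _ c) (Subsingleton.elim _ _)
  have Vv : ∀ c : Polynomial ℤ, V (c.map (Int.castRingHom R)) =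
      sc (c.eval₂ (Int.castRingHom S) L) := fun c => by
    rw [Polynomial.hom_eval₂, Polynomial.coe_eval₂RingHom, Polynomial.eval₂_map]
    exact congrArg (Polynomial.eval₂ · _ c) (Subsingleton.elim _ _)
  have cC : ∀ η, ρ (π (iA η)) = vC (Polynomial.C η) := fun η => by simp [vC]
  have cV : ∀ η, V (Polynomial.C η) = g η := fun η => by simp [V]
  simp only [jv, cC, BC, ← map_mul, ← map_add] at dec
  obtain ⟨u, w', e⟩ := pC.diff g (sc L) dec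
  change V _ = V _ + _ * V u + _ * V w' at e
  simp only [map_add, map_mul, Vv, cV, s1, s2, tT, ← map_pow, ← map_one sc, ← map_sub] at e
  rw [show 1 - L = t by simp [L], ← t_N] at e
  have e0 := congrArg (cp 0) e
  have e1' := congrArg (cp 1) e
  have e2' := congrArg (cp 2) e
  have e3 := congrArg (cp 3) e
  simp only [map_add, cp_sc, cp0_sc, cp1_sc, cp2_sc, cp3_sc, cp0_mul, cp1_mul, cp2_mul, cp3_mul,
    cp0_e1, cp1_e1, cp2_e1, cp3_e1, cp0_e2, cp1_e2, cp2_e2, cp3_e2, ec] at e0 e1' e2' e3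
  obtain ⟨μ₀, f₀⟩ := p₀.lf (Λ 1)
  obtain ⟨μ₁, f₁⟩ := p₀.lf (Λ (ρ (π (iA η₁))))
  obtain ⟨μ₂, f₂⟩ := p₀.lf (Λ (ρ (π (iA η₂))))
  obtain ⟨μ₃, f₃⟩ := p₀.lf (Λ (ρ (π (iA η₁)) * ρ (π (iA η₂))))
  have u₃ := f₃.uo p₀ (by omega) uΛ
  have uw₃ := (lfa l₀ w).uo p₀ (by omega) uw'
  have lf : ∀ c : Polynomial ℤ, Lf l₀ (c.eval₂ (Int.castRingHom C₀) l₀)
    (c.eval₂ (Int.castRingHom S) L) := fun c => ⟨c, rfl, rfl⟩
  obtain ⟨β, -, γ, mγ, fin⟩ := Lf.uniq p₀ (hd ▸ lfa l₀ _) (hL ▸ ((((lf c₀).mul f₀).add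
    ((lf c₁).mul f₁)).add ((lf c₂).mul f₂)).add ((lf c₃).mul f₃))
  have iX : K.iS (1 - Polynomial.X) = t := by simp [K.iS, L]
  rw [map_mul, map_mul, map_pow, iX, ← t_N] at fin
  have mυ := mv υ
  have mw := mv w'
  change V υ ∈ _ at mυ
  change V w' ∈ _ at mw
  generalize V υ = y at *
  generalize V w' = w'' at *
  generalize V u = u' at *
  generalize c₀.eval₂ (Int.castRingHom S) L = α₀ at *
  generalize c₁.eval₂ (Int.castRingHom S) L = α₁ at *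
  generalize c₂.eval₂ (Int.castRingHom S) L = α₂ at *
  generalize c₃.eval₂ (Int.castRingHom S) L = α₃ at *
  exact fin_ser (ν := ν) (u := u') (β := β) h0 hq mυ mw f₀.mem f₁.mem f₂.mem u₃ uV uw₃ r3 r0 r1 r2 mc mγ
    (by linear_combination fin - μ₀ * e0 - μ₁ * e1' - μ₂ * e2' - μ₃ * e3)

end Crest.Agent.N218.D6

end
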