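import Crest.Agent.N218.D6.Kit
import Crest.Agent.N218.D6.Uk
import Crest.Agent.N218.D6.Defs
import Crest.Agent.N218.D6.Df2
import Crest.Agent.N218.Pm.Loop0

-- ▼ part N218/D6/Kig
section

/-!
# Row 218, block D6 (helper34): the circle-level map `gm` with a real angle
-/

set_option autoImplicit false
set_option linter.unusedVariables false

open Topology Filter Set OnePoint
open scoped InnerProductSpace ComplexConjugate

noncomputable section

namespace Crest.Agent.N218.D6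

open K K.Cp Pm In
open Sk (Cn S2 S3 X22 hfv Frm Sat)

/-! ## angles -/

/-- the exponential with period one -/
def ex (r : ℝ) : Circle := Circle.exp (2 * Real.pi * r)
theorem ex_add (r s : ℝ) : ex (r + s) = ex r * ex s := by rw [ex, mul_add, Circle.exp_add]; rfl
theorem ex_rt (θ : Circle) : ex (rt θ) = θ := by
  rw [ex, rt, mul_div_cancel₀ _ Real.two_pi_pos.ne', Circle.exp_arg]
theorem ex_eq {r s : ℝ} (h : ex r = ex s) : ∃ m : ℤ, r = s + m := by
  obtain ⟨m, e⟩ := Circle.exp_eq_exp.1 h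
  exact ⟨m, mul_left_cancel₀ Real.two_pi_pos.ne' (by linear_combination e)⟩
theorem rt_ex (r : ℝ) : ∃ m : ℤ, rt (ex r) = r + m := ex_eq (ex_rt _)
theorem ex_q : IsOpenQuotientMap ex :=
  ⟨fun θ => ⟨_, ex_rt θ⟩, Circle.exp.continuous.comp (continuous_const_mul _),
    isLocalHomeomorph_circleExp.isOpenMap.comp
      (Homeomorph.mulLeft₀ _ Real.two_pi_pos.ne').isOpenMap⟩
theorem ex_pow (r : ℝ) {q : ℕ} (hq : q ≠ 0) : Circle.exp (2 * Real.pi * r / q) ^ q = ex r := by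
  have : (q : ℝ) ≠ 0 := Nat.cast_ne_zero.2 hq
  rw [← Circle.exp_nsmul, ex]; congr 1; rw [nsmul_eq_mul]; field_simp
theorem ex_root (z : Circle) {q : ℕ} (hq : q ≠ 0) : ∃ r : ℝ, Circle.exp (2 * Real.pi * r / q) = z := by
  have : (q : ℝ) ≠ 0 := Nat.cast_ne_zero.2 hq
  refine ⟨q * rt z, Eq.trans ?_ (ex_rt z)⟩
  rw [ex]; congr 1; field_simp

section fo
variable {q : ℕ} [NeZero q] {E : Type} [NormedAddCommGroup E] [NormedSpace ℂ E]
theorem g_zi (m : ℤ) (y : ZMod q → E) : Fo.g (m : ℝ) y = Fo.sh (m : ZMod q) y := by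
  induction m using Int.induction_on generalizing y with
  | zero => simp [Fo.g_zero, Fo.sh_zero]
  | succ n ih =>
    have := ih (Fo.sh 1 y)
    push_cast at this ⊢
    rw [Fo.g_add, Fo.g_one, this, Fo.sh_sh]
  | pred n ih =>
    have := ih (Fo.sh (-1) y)
    push_cast at this ⊢
    rw [sub_eq_add_neg, Fo.g_add, Fo.g_neg_one, this, Fo.sh_sh, sub_eq_add_neg]
variable (q E) in
theorem g_bd : ∃ C : ℝ, 0 < C ∧ ∀ (r : ℝ) (y : ZMod q → E), ‖Fo.g r y‖ ≤ C * ‖y‖ := by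
  obtain ⟨A, a, hA⟩ := (Fo.D q E).symm.toContinuousLinearMap.bound
  obtain ⟨B, b, hB⟩ := (Fo.D q E).toContinuousLinearMap.bound
  refine ⟨A * B, mul_pos a b, fun r y => (hA _).trans ?_⟩
  rw [mul_assoc]
  refine mul_le_mul_of_nonneg_left (le_trans ?_ (hB y)) a.le
  refine (pi_norm_le_iff_of_nonneg (norm_nonneg _)).2 fun j => ?_
  change ‖Fo.gs r j • Fo.D q E y j‖ ≤ _
  rw [norm_smul, Fo.norm_gs, one_mul]
  exact norm_le_pi_norm (Fo.D q E y) j
end fo

variable (k : ℕ) {n n₁ n₂ : ℕ} (D : Data X22 (Cn n₁) (Cn n₂))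
  (s₁ : Fin n → S3 × S3 → Cn n₁) (s₂ : Fin n → S3 × S3 → Cn n₂)

/-- the argument of `v` -/
def ar (r : ℝ) (y : US 2 × US 2) (c : CC k n) : V k (Cn n₁) := Fo.g (-r) (up s₁ y (fi c))
/-- the domain -/
def Og (r : ℝ) (y : US 2 × US 2) (c : CC k n) : Prop := ∀ i, (hx y, ar k s₁ r y c i) ∈ D.Ov
/-- `N v` of the argument -/
def nv (r : ℝ) (y : US 2 × US 2) (c : CC k n) : V k (Cn n₂) := fun i => D.v (hx y, ar k s₁ r y c i)
/-- the finite value -/
def fg (r : ℝ) (y : US 2 × US 2) (c : CC k n) : CC k n :=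
  fo (dn s₂ y (Fo.g r (nv k D s₁ r y c)))
open Classical in
/-- `gm` with a real angle -/
def gmr (r : ℝ) (y : US 2 × US 2) (c : CC k n) : OnePoint (CC k n) :=
  if Og k D s₁ r y c then OnePoint.some (fg k D s₁ s₂ r y c) else ∞

variable {k D s₁ s₂} {r : ℝ} {y : US 2 × US 2} {c : CC k n}

theorem gm_eq (θ : Circle) : gm k D s₁ s₂ y θ c = gmr k D s₁ s₂ (rt θ) y c := by
  unfold gm gmr
  exact @if_congr _ _ _ (_) (_) _ _ _ _ Iff.rfl rfl rfl
theorem gmr_in (h : Og k D s₁ r y c) : gmr k D s₁ s₂ r y c = fg k D s₁ s₂ r y c := if_pos h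
theorem gmr_out (h : ¬Og k D s₁ r y c) : gmr k D s₁ s₂ r y c = ∞ := if_neg h
theorem gmr_some {w : CC k n} (h : gmr k D s₁ s₂ r y c = w) :
    Og k D s₁ r y c ∧ fg k D s₁ s₂ r y c = w := by
  by_cases o : Og k D s₁ r y c
  · exact ⟨o, coe_injective ((gmr_in o).symm.trans h)⟩
  · exact absurd ((gmr_out o).symm.trans h) (infty_ne_coe _)
theorem gmr_ne : gmr k D s₁ s₂ r y c ≠ ∞ ↔ Og k D s₁ r y c :=
  ⟨fun h => by_contra fun o => h (gmr_out o), fun o => by rw [gmr_in o]; exact coe_ne_infty _⟩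

theorem ar_int (m : ℤ) : ar k s₁ (r + m) y c = Fo.sh (-m : Ix k) (ar k s₁ r y c) := by
  rw [ar, neg_add_rev, Fo.g_add, ← Int.cast_neg, g_zi, Int.cast_neg]; rfl
theorem Og_int (m : ℤ) : Og k D s₁ (r + m) y c ↔ Og k D s₁ r y c := by
  simp only [Og, ar_int]
  exact ⟨fun h i => by simpa [Fo.sh] using h (i + m), fun h i => h _⟩
theorem fg_int (m : ℤ) : fg k D s₁ s₂ (r + m) y c = fg k D s₁ s₂ r y c := by
  have : nv k D s₁ (r + m) y c = Fo.sh (-m : Ix k) (nv k D s₁ r y c) := by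
    funext i; simp only [nv, ar_int]; rfl
  rw [fg, this, Fo.g_add, g_zi, Fo.sh_sh, add_neg_cancel, Fo.sh_zero]; rfl
/-- **period one** -/
theorem gmr_int (m : ℤ) : gmr k D s₁ s₂ (r + m) y c = gmr k D s₁ s₂ r y c :=
  @if_congr _ _ _ (_) (_) _ _ _ _ (Og_int m) (congrArg _ (fg_int m)) rfl
theorem gm_ex : gm k D s₁ s₂ y (ex r) c = gmr k D s₁ s₂ r y c := by
  obtain ⟨m, e⟩ := rt_ex r
  rw [gm_eq, e, gmr_int]
/-- the even part is kept -/
theorem fg_snd (w : Ev k × Fin n → ℂ) : (fg k D s₁ s₂ r y (w, 0)).2 = 0 :=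
  fo_dn0 _ _ (mn_g (mn_nl (fun e => D.v (hx y, e)) (mn_g (mn_up0 _ _ _))))

variable {a a' b b' : Fin n → ℤ} (h₁ : Frm D.π₁ a a' s₁) (h₂ : Frm D.π₂ b b' s₂)

include h₁ in
theorem pi_ar (i : Ix k) : D.π₁ (hx y) (ar k s₁ r y c i) = ar k s₁ r y c i :=
  pi_g y h₁ _ (pi_up y h₁ _) i
include h₁ in
theorem ar_inv : fo (dn s₁ y (Fo.g r (ar k s₁ r y c))) = c := by
  rw [ar, Fo.g_neg', dn_up y h₁, fo_fi]
include h₁ in
theorem ct_ar {T : Type*} [TopologicalSpace T] {r : T → ℝ} {y : T → US 2 × US 2} {c : T → CC k n}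
    (hr : Continuous r) (hy : Continuous y) (hc : Continuous c) :
    Continuous fun t => ar k s₁ (r t) (y t) (c t) :=
  Fo.cont_g hr.neg (ct_up h₁ hy (ct_fi.comp hc))
include h₁ in
theorem ar_ay (g : GT) {ρ : ℝ} (e : Circle.exp (2 * Real.pi * ρ / (2 ^ (k + 1) : ℕ)) = c1 g) :
    ar k s₁ (ρ + r) (ay g y) (aw a a' g c) = ar k s₁ r y c := by
  rw [ar, up_ay h₁, ← e, ci_exp, neg_add_rev, Fo.g_add, Fo.g_neg]; rfl
include h₁ h₂ in
theorem gmr_ay (g : GT) {ρ : ℝ} (e : Circle.exp (2 * Real.pi * ρ / (2 ^ (k + 1) : ℕ)) = c1 g) :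
    gmr k D s₁ s₂ (ρ + r) (ay g y) (aw a a' g c) =
      OnePoint.map (aw b b' g) (gmr k D s₁ s₂ r y c) := by
  have o : Og k D s₁ (ρ + r) (ay g y) (aw a a' g c) ↔ Og k D s₁ r y c := by
    simp only [Og, ar_ay h₁ g e, hx_ay]
  by_cases p : Og k D s₁ r y c
  · have : nv k D s₁ (ρ + r) (ay g y) (aw a a' g c) = nv k D s₁ r y c := by
      funext i; simp only [nv, ar_ay h₁ g e, hx_ay]
    rw [gmr_in p, gmr_in (o.2 p), map_some, fg, fg, ← dn_ay h₂, ← e, ci_exp, Fo.g_add, this]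
  · rw [gmr_out p, gmr_out (mt o.1 p)]; rfl
include h₁ h₂ in
/-- **equivariance** -/
theorem gm_ay (g : GT) (θ : Circle) :
    gm k D s₁ s₂ (ay g y) (c1 g ^ 2 ^ (k + 1) * θ) (aw a a' g c) =
      OnePoint.map (aw b b' g) (gm k D s₁ s₂ y θ c) := by
  obtain ⟨ρ, e⟩ := ex_root (c1 g) (q := 2 ^ (k + 1)) (by positivity)
  rw [gm_eq θ, ← gmr_ay h₁ h₂ g e, ← gm_ex, ex_add, ex_rt, ← e, ex_pow _ (by positivity)]

variable {c₀ κ R₀ M : ℝ} (o : D.Ok c₀ κ R₀ M)

include o h₂ in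
theorem up_fg (p : Og k D s₁ r y c) :
    up s₂ y (fi (fg k D s₁ s₂ r y c)) = Fo.g r (nv k D s₁ r y c) := by
  rw [fg, fi_fo]
  exact up_dn' y h₂ (pi_g y h₂ r fun i => o.vp _ (p i))
include o h₁ in
theorem ar_bd (p : Og k D s₁ r y c) (i : Ix k) : ‖ar k s₁ r y c i‖ ≤ R₀ := by
  have := o.vb _ (p i)
  rwa [pi_ar h₁] at this
include o h₁ in
/-- the domain is bounded -/
theorem Og_bd : ∃ R : ℝ, ∀ r y c, Og k D s₁ r y c → ‖c‖ ≤ R := by
  obtain ⟨A, a, hA⟩ := fo_bd (k := k) (n := n)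
  obtain ⟨B, b, hB⟩ := g_bd (2 ^ (k + 1)) (Cn n₁)
  refine ⟨A * (B * R₀), fun r y c p => ?_⟩
  rw [← ar_inv h₁ (c := c) (r := r) (y := y)]
  refine (hA _).trans (mul_le_mul_of_nonneg_left ((norm_dn y h₁ _).trans ((hB _ _).trans
    (mul_le_mul_of_nonneg_left ?_ b.le))) a.le)
  exact (pi_norm_le_iff_of_nonneg ((norm_nonneg _).trans (ar_bd h₁ o p 0))).2 (ar_bd h₁ o p)
include o h₂ in
theorem nv_bd : ∃ C : ℝ, 0 ≤ C ∧ ∀ r y c, Og k D s₁ r y c →
    ‖nv k D s₁ r y c‖ ≤ C * ‖fg k D s₁ s₂ r y c‖ := by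
  obtain ⟨A, a, hA⟩ := fi_bd (k := k) (n := n)
  obtain ⟨B, b, hB⟩ := g_bd (2 ^ (k + 1)) (Cn n₂)
  refine ⟨B * (n * A), by positivity, fun r y c p => ?_⟩
  rw [← Fo.g_neg r (nv k D s₁ r y c), ← up_fg h₂ o p, mul_assoc, mul_assoc]
  exact (hB _ _).trans (mul_le_mul_of_nonneg_left ((norm_up y h₂ _).trans
    (mul_le_mul_of_nonneg_left (hA _) n.cast_nonneg)) b.le)

section ct
variable {T : Type} [TopologicalSpace T] {r : T → ℝ} {y : T → US 2 × US 2} {c : T → CC k n}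
  (hr : Continuous r) (hy : Continuous y) (hc : Continuous c)
include o h₁ hr hy hc

theorem Og_op : IsOpen {t | Og k D s₁ (r t) (y t) (c t)} := by
  simp only [Og, ofPred_forall]
  exact isOpen_iInter_of_finite fun i => o.vo.preimage
    ((ct_hx.comp hy).prodMk ((continuous_apply i).comp (ct_ar h₁ hr hy hc)))
theorem ct_nv : ContinuousOn (fun t => nv k D s₁ (r t) (y t) (c t))
    {t | Og k D s₁ (r t) (y t) (c t)} :=
  continuousOn_pi.2 fun i => o.vc.comp ((ct_hx.comp hy).prodMk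
    ((continuous_apply i).comp (ct_ar h₁ hr hy hc))).continuousOn fun t p => p i
include h₂
theorem ct_fg : ContinuousOn (fun t => fg k D s₁ s₂ (r t) (y t) (c t))
    {t | Og k D s₁ (r t) (y t) (c t)} := by
  have : Continuous fun x : T × V k (Cn n₂) => fo (dn s₂ (y x.1) (Fo.g (r x.1) x.2)) :=
    ct_fo.comp (ct_dn h₂ (hy.comp continuous_fst) (Fo.cont_g (hr.comp continuous_fst) continuous_snd))
  exact Continuous.comp_continuousOn (f := fun t => (t, nv k D s₁ (r t) (y t) (c t))) this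
    (continuousOn_id.prodMk (ct_nv h₁ o hr hy hc))
theorem ct_gmr : Continuous fun t => gmr k D s₁ s₂ (r t) (y t) (c t) := by
  obtain ⟨C, c0, hC⟩ := nv_bd (k := k) (s₁ := s₁) h₂ o
  refine Uk.pe_ct (Og_op h₁ o hr hy hc) (ct_fg h₁ h₂ o hr hy hc) fun R => ?_
  refine ⟨⋂ i, (fun t => (hx (y t), ar k s₁ (r t) (y t) (c t) i)) ⁻¹'
    {w ∈ D.Ov | ‖D.v w‖ ≤ max (C * R) R₀ ∧ ‖w.2‖ ≤ max (C * R) R₀},
    isClosed_iInter fun i => (o.vk _).isClosed.preimage
      ((ct_hx.comp hy).prodMk ((continuous_apply i).comp (ct_ar h₁ hr hy hc))),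
    fun t p i => (mem_iInter.1 p i).1, fun t p l => mem_iInter.2 fun i =>
      ⟨p i, le_max_of_le_left ?_, le_max_of_le_right (ar_bd h₁ o p i)⟩⟩
  exact ((norm_le_pi_norm (nv k D s₁ (r t) (y t) (c t)) i).trans (hC _ _ _ p)).trans
    (mul_le_mul_of_nonneg_left l c0)
end ct

include o h₁ h₂ in
/-- **continuity of `gm`** -/
theorem ct_gm {T : Type} [TopologicalSpace T] {θ : T → Circle} {y : T → US 2 × US 2}
    {c : T → CC k n} (hθ : Continuous θ) (hy : Continuous y) (hc : Continuous c) :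
    Continuous fun t => gm k D s₁ s₂ (y t) (θ t) (c t) := by
  have : Continuous fun x : Circle × (US 2 × US 2) × CC k n => gm k D s₁ s₂ x.2.1 x.1 x.2.2 := by
    rw [← (ex_q.prodMap .id).continuous_comp_iff]
    exact (ct_gmr h₁ h₂ o continuous_fst continuous_snd.fst continuous_snd.snd).congr
      fun x => gm_ex.symm
  exact Continuous.comp (f := fun t => (θ t, y t, c t)) this (hθ.prodMk (hy.prodMk hc))

end Crest.Agent.N218.D6

end
end

-- ▼ part N218/D6/Inst1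
section

/-!
# Row 218, block D6 (helper34): the circle-level maps are pointed, proper and equivariant
-/

set_option autoImplicit false
set_option linter.unusedVariables false

open Topology Filter Set OnePoint

noncomputable section

namespace Crest.Agent.N218.D6.I1

open K K.Cp Pm In
open Sk (Cn S2 S3 X22 hfv Frm Sat)

/-- `a ↦ (a, 0)` on the one-point compactifications is an embedding -/
theorem emb0 {A B : Type} [NormedAddCommGroup A] [NormedAddCommGroup B] [LocallyCompactSpace A]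
    [LocallyCompactSpace B] : IsClosedEmbedding fun a : OnePoint A => wdg (a, ((0 : B) : OnePoint B)) :=
  (continuous_wdg.comp (continuous_id.prodMk continuous_const)).isClosedEmbedding fun a a' e => by
    induction a using OnePoint.rec <;> induction a' using OnePoint.rec <;> simp_all

variable {k n n₁ n₂ : ℕ} {D : Data X22 (Cn n₁) (Cn n₂)} {c κ R₀ M : ℝ} {a a' b b' : Fin n → ℤ}
  {s₁ : Fin n → S3 × S3 → Cn n₁} {s₂ : Fin n → S3 × S3 → Cn n₂} {m : ℕ} (p : ℕ)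
  {kV : V k (Cn n₁ × Cn n₂) → Fin m → ℂ}

theorem gm0 (y : US 2 × US 2) (θ : Circle) (w : Ev k × Fin n → ℂ) :
    gm k D s₁ s₂ y θ (w, 0) = wdg (OnePoint.map Prod.fst (gm k D s₁ s₂ y θ (w, 0)),
      ((0 : Od k × Fin n → ℂ) : OnePoint (Od k × Fin n → ℂ))) := by
  rw [gm_eq]
  by_cases o : Og k D s₁ (rt θ) y (w, 0)
  · rw [gmr_in o]
    exact congrArg OnePoint.some (Prod.ext rfl (fg_snd w))
  · rw [gmr_out o]; rfl

theorem e0 (x : (ld k D s₁ s₂ a a' b b' p kV).Y.Z × Circle) (w : (ld k D s₁ s₂ a a' b b' p kV).W0.W) :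
    (ld k D s₁ s₂ a a' b b' p kV).γ (x, (w, 0)) = wdg ((ld k D s₁ s₂ a a' b b' p kV).γ0 (x, w),
      ((0 : (ld k D s₁ s₂ a a' b b' p kV).Z1.W) : OnePoint (ld k D s₁ s₂ a a' b b' p kV).Z1.W)) :=
  gm0 x.1.1 x.2 w

theorem map_sph {Γ : Type} [Group Γ] [TopologicalSpace Γ] [CompactSpace Γ] (L : LS Γ) (g : Γ)
    (z : OnePoint L.Z) : OnePoint.map (L.act g) z = L.sph.act g z := by
  induction z using OnePoint.rec <;> rfl

variable (o : D.Ok c κ R₀ M) (h₁ : Frm D.π₁ a a' s₁) (h₂ : Frm D.π₂ b b' s₂)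
include o h₁ h₂

theorem pγ : let d := ld k D s₁ s₂ a a' b b' p kV
    Pm d.YC d.W.ls d.Z.ls d.γ := by
  intro d
  obtain ⟨R, hR⟩ := Og_bd (k := k) h₁ o
  refine ⟨?_, fun K' _ => ⟨(Metric.closedBall 0 R : Set (CC k n)),
    isCompact_closedBall (0 : CC k n) R,
    fun x w w' nw e _ => nw ((mem_closedBall_zero_iff (E := CC k n)).2 (hR _ _ _ (gmr_some
      ((gm_eq x.2).symm.trans e)).1))⟩, fun g x w => ?_⟩
  · exact ct_gm (T := (((US 2 × US 2) × US (m + p)) × Circle) × CC k n) h₁ h₂ o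
      continuous_fst.snd continuous_fst.fst.fst continuous_snd
  · exact (gm_ay (y := x.1.1) (c := w) h₁ h₂ g x.2).trans (map_sph d.Z.ls g _)

theorem pγ0 : let d := ld k D s₁ s₂ a a' b b' p kV
    Pm d.YC d.W0.ls d.Z0.ls d.γ0 := by
  intro d
  obtain ⟨R, hR⟩ := Og_bd (k := k) h₁ o
  refine ⟨?_, fun K' _ => ⟨(Metric.closedBall 0 R : Set (Ev k × Fin n → ℂ)),
    isCompact_closedBall (0 : Ev k × Fin n → ℂ) R,
    fun x w w' nw e _ => nw ((mem_closedBall_zero_iff (E := Ev k × Fin n → ℂ)).2 ?_)⟩, fun g x w => ?_⟩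
  · refine (emb0 (A := Ev k × Fin n → ℂ) (B := Od k × Fin n → ℂ)).isInducing.continuous_iff.2 ?_
    exact (ct_gm (T := (((US 2 × US 2) × US (m + p)) × Circle) × (Ev k × Fin n → ℂ)) h₁ h₂ o
      continuous_fst.snd continuous_fst.fst.fst (continuous_snd.prodMk continuous_const)).congr
      fun x => gm0 x.1.1.1 x.1.2 x.2
  · have q : Og k D s₁ (rt x.2) x.1.1 (w, 0) := gmr_ne.1 fun i =>
      infty_ne_coe _ ((congrArg (OnePoint.map Prod.fst) ((gm_eq x.2).trans i)).symm.trans e)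
    exact (norm_fst_le ((w, 0) : CC k n)).trans (hR _ _ _ q)
  · have := gm_ay (y := x.1.1) (c := ((w, 0) : CC k n)) h₁ h₂ g x.2
    rw [aw_inl] at this
    refine (congrArg (OnePoint.map Prod.fst) this).trans ?_
    change _ = d.Z0.ls.sph.act g (OnePoint.map Prod.fst (gm k D s₁ s₂ x.1.1 x.2 (w, 0)))
    induction gm k D s₁ s₂ x.1.1 x.2 (w, 0) using OnePoint.rec <;> rfl

end Crest.Agent.N218.D6.I1

end
end

-- ▼ part N218/D6/Pms
section

/-!
# Row 218, block D6 (helper79): the pieces are pointed proper equivariant families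
-/

set_option autoImplicit false
set_option linter.unusedVariables false
set_option linter.unusedSectionVars false

open Topology Filter Set OnePoint Metric

noncomputable section

namespace Crest.Agent.N218.D6

open K

namespace Ps
variable {P A B : Type} [NormedAddCommGroup A] [NormedAddCommGroup B]

/-- properness by bounds -/
def Bf (g : P × A → OnePoint B) : Prop :=
  ∀ R : ℝ, ∃ R' : ℝ, ∀ p w (w' : B), g (p, w) = w' → ‖w'‖ ≤ R → ‖w‖ ≤ R'

theorem Bf.prp [ProperSpace A] {g : P × A → OnePoint B} (h : Bf g) : Prp g := fun K' hK' => by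
  obtain ⟨R, hR⟩ := hK'.isBounded.exists_norm_le
  obtain ⟨R', h'⟩ := h R
  exact ⟨_, isCompact_closedBall 0 R', fun p w w' n e m =>
    n (mem_closedBall_zero_iff.2 (h' p w w' e (hR _ m)))⟩

theorem bf_of [ProperSpace B] {g : P × A → OnePoint B} (h : Prp g) : Bf g := fun R => by
  obtain ⟨K, hK, h'⟩ := h _ (isCompact_closedBall (0 : B) R)
  obtain ⟨R', hR⟩ := hK.isBounded.exists_norm_le
  exact ⟨R', fun p w w' e n => hR _ (by_contra fun m => h' p w w' m e (mem_closedBall_zero_iff.2 n))⟩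

theorem bdd [TopologicalSpace P] [CompactSpace P] [ProperSpace A] {f : P × A → B}
    (h : Continuous f) (R : ℝ) : ∃ C, ∀ p v, ‖v‖ ≤ R → ‖f (p, v)‖ ≤ C := by
  obtain ⟨C, hC⟩ := (isCompact_univ.prod (isCompact_closedBall (0 : A) R)).exists_bound_of_continuousOn
    h.continuousOn
  exact ⟨C, fun p v n => hC (p, v) ⟨trivial, mem_closedBall_zero_iff.2 n⟩⟩

theorem map_eq {f : A → B} {p : OnePoint A} {w : B} (h : OnePoint.map f p = w) :
    ∃ v : A, p = v ∧ f v = w := by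
  induction p using OnePoint.rec with
  | infty => exact absurd h (infty_ne_coe _)
  | coe v => exact ⟨v, rfl, coe_injective h⟩

/-- translations act continuously on the compactification -/
theorem cont_shift [ProperSpace A] :
    Continuous fun z : A × OnePoint A => OnePoint.map (fun e => e - z.1) z.2 := by
  rw [continuous_iff_continuousAt]
  rintro ⟨c, w⟩
  induction w using OnePoint.rec with
  | coe w =>
    have e : IsOpenEmbedding (Prod.map id (↑) : A × A → A × OnePoint A) :=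
      IsOpenEmbedding.id.prodMap isOpenEmbedding_coe
    exact (e.continuousAt_iff (x := (c, w))).1
      (continuous_coe.comp (continuous_snd.sub continuous_fst)).continuousAt
  | infty =>
    change Tendsto _ _ (𝓝 ∞)
    rw [hasBasis_nhds_infty.tendsto_right_iff]
    rintro K ⟨-, hK⟩
    have k : IsCompact ((fun p : A × A => p.1 + p.2) '' K ×ˢ closedBall c 1) :=
      (hK.prod (isCompact_closedBall c 1)).image (by fun_prop)
    have a : ∀ᶠ z : A × OnePoint A in 𝓝 (c, ∞), z.2 ∈ (↑) ''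
        ((fun p : A × A => p.1 + p.2) '' K ×ˢ closedBall c 1)ᶜ ∪ {∞} :=
      continuous_snd.continuousAt.eventually (hasBasis_nhds_infty.mem_of_mem ⟨k.isClosed, k⟩)
    have b : ∀ᶠ z : A × OnePoint A in 𝓝 (c, ∞), z.1 ∈ closedBall c 1 :=
      continuous_fst.continuousAt.eventually (closedBall_mem_nhds c one_pos)
    filter_upwards [a, b]
    rintro ⟨q, z⟩ (⟨w, hw, e⟩ | e) m
    · obtain rfl : (w : OnePoint A) = z := e
      exact .inl ⟨w - q, fun n => hw ⟨(w - q, q), ⟨n, m⟩, sub_add_cancel _ _⟩, rfl⟩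
    · obtain rfl : z = ∞ := e
      exact .inr rfl

theorem cont_of_coe {T : Type} [TopologicalSpace T] {f : T → A}
    (h : Continuous fun x => (f x : OnePoint A)) : Continuous f :=
  isOpenEmbedding_coe.isInducing.continuous_iff.2 h

theorem bf_coe {f : P × A → B} (h : Bf fun x => (f x : OnePoint B)) (R : ℝ) :
    ∃ R', ∀ p w, ‖f (p, w)‖ ≤ R → ‖w‖ ≤ R' :=
  (h R).imp fun _ a p w => a p w _ rfl

theorem nle {a : A} {b : B} {R : ℝ} : ‖(a, b)‖ ≤ R ↔ ‖a‖ ≤ R ∧ ‖b‖ ≤ R := norm_prod_le_iff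

end Ps
open Ps

theorem pms : PMS := by
  intro Γ Γ' _ _ _ _ _ _ d h
  have cγ : Continuous d.γ := h.pγ.ct
  have cγ0 : Continuous d.γ0 := h.pγ0.ct
  have bγ : Bf d.γ := bf_of h.pγ.pr
  have bγ0 : Bf d.γ0 := bf_of h.pγ0.pr
  have cμ : Continuous d.μ := cont_of_coe h.pμ.ct
  have cμ0 : Continuous d.μ0 := cont_of_coe h.pμ0.ct
  have ck : Continuous d.k := cont_of_coe h.pk.ct
  have bμ := bf_coe (f := d.μ) (bf_of h.pμ.pr)
  have bμ0 := bf_coe (f := d.μ0) (bf_of h.pμ0.pr)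
  have bk := bf_coe (f := d.k) (bf_of h.pk.pr)
  have eμ : ∀ g y (z0 : d.Z0.W) (z1 : d.Z1.W), d.μ (d.Y.act (d.φ g) y,
      (d.Z0.ρ (d.φ g) z0, d.Z1.ρ (d.φ g) z1)) = (d.W0.ρ (d.φ g) (d.μ (y, (z0, z1))).1,
        d.W1.ρ (d.φ g) (d.μ (y, (z0, z1))).2) := fun g y z0 z1 =>
    coe_injective (h.pμ.eq g y (z0, z1))
  have eμ0 : ∀ g y (z0 : d.Z0.W), d.μ0 (d.Y.act (d.φ g) y, d.Z0.ρ (d.φ g) z0) =
      d.W0.ρ (d.φ g) (d.μ0 (y, z0)) := fun g y z0 => coe_injective (h.pμ0.eq g y z0)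
  have ek : ∀ g y (w1 : d.W1.W) (z1 : d.Z1.W), d.k (d.Y.act (d.φ g) y,
      (d.W1.ρ (d.φ g) w1, d.Z1.ρ (d.φ g) z1)) = d.U.ρ (d.φ g) (d.k (y, (w1, z1))) :=
    fun g y w1 z1 => coe_injective (h.pk.eq g y (w1, z1))
  refine ⟨⟨?_, ?_, ?_⟩, ⟨?_, ?_, ?_⟩, ⟨?_, ?_, ?_⟩, ⟨?_, ?_, ?_⟩, ?_, ?_, ?_, ?_⟩
  · exact continuous_wdg.comp ((cγ.comp (continuous_fst.prodMk continuous_snd.fst)).prodMk
      (continuous_coe.comp continuous_snd.snd))
  · refine Bf.prp (A := d.M1.W) (B := d.T.W) fun R => ?_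
    obtain ⟨R', a⟩ := bγ R
    refine ⟨max R' R, fun p ⟨w, r⟩ ⟨z, r'⟩ e n => ?_⟩
    obtain ⟨e1, e2⟩ := wdg_eq_coe e
    obtain rfl : r = r' := coe_injective e2
    exact nle.2 ⟨le_max_of_le_left (a p w z e1 (nle.1 n).1), le_max_of_le_right (nle.1 n).2⟩
  · intro g y w
    exact (congrArg (fun t => wdg (t, _)) (h.pγ.eq g y w.1)).trans
      (wdg_act2 d.Z.ls d.R.ls g _ (w.2 : OnePoint d.R.W)).symm
  · exact continuous_wdg.comp ((continuous_wdg.comp ((cγ0.comp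
      (continuous_fst.prodMk continuous_snd.fst.fst)).prodMk
      (continuous_coe.comp continuous_snd.fst.snd))).prodMk (continuous_coe.comp continuous_snd.snd))
  · refine Bf.prp (A := d.M3.W) (B := d.T.W) fun R => ?_
    obtain ⟨R', a⟩ := bγ0 R
    refine ⟨max R' R, fun p ⟨⟨w, z1⟩, r⟩ ⟨⟨z0, z1'⟩, r'⟩ e n => ?_⟩
    obtain ⟨e1, e2⟩ := wdg_eq_coe e
    obtain ⟨e3, e4⟩ := wdg_eq_coe e1
    obtain rfl : r = r' := coe_injective e2
    obtain rfl : z1 = z1' := coe_injective e4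
    obtain ⟨n1, n2⟩ := nle.1 n
    exact nle.2 ⟨nle.2 ⟨le_max_of_le_left (a p w z0 e3 (nle.1 n1).1),
      le_max_of_le_right (nle.1 n1).2⟩, le_max_of_le_right n2⟩
  · intro g y w
    refine Eq.trans ?_ (wdg_act2 d.Z.ls d.R.ls g _ (w.2 : OnePoint d.R.W)).symm
    refine congrArg (fun t => wdg (t, _)) ?_
    exact (congrArg (fun t => wdg (t, _)) (h.pγ0.eq g y w.1.1)).trans
      (wdg_act2 d.Z0.ls d.Z1.ls g _ (w.1.2 : OnePoint d.Z1.W)).symm
  · refine continuous_coe.comp (f := fun x : d.Y.Z × (d.U.W × ((d.W0.W × d.W1.W) × (d.Z0.W × d.Z1.W))) =>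
      ((x.2.2.1, (d.μ (x.1, x.2.2.2), d.k (x.1, (x.2.2.1.2, x.2.2.2.2)) - x.2.1)) :
        (d.W0.W × d.W1.W) × ((d.W0.W × d.W1.W) × d.U.W))) ?_
    fun_prop
  · refine Bf.prp (A := (d.U.prod d.S).W) (B := d.M1.W) fun R => ?_
    obtain ⟨R', a⟩ := bμ R
    obtain ⟨C, b⟩ := bdd ck (max R R')
    refine ⟨max (C + R) (max R R'), fun y ⟨η, ⟨w0, w1⟩, z0, z1⟩ r e n => ?_⟩
    obtain rfl := coe_injective e
    obtain ⟨n1, n2⟩ := nle.1 n
    obtain ⟨n2, n3⟩ := nle.1 n2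
    have n4 := a _ _ n2
    have n5 := b y (w1, z1) (nle.2 ⟨le_max_of_le_left (nle.1 n1).2, le_max_of_le_right (nle.1 n4).2⟩)
    refine nle.2 ⟨le_max_of_le_left ?_, le_max_of_le_right
      (nle.2 ⟨le_max_of_le_left n1, le_max_of_le_right n4⟩)⟩
    have := norm_sub_le (d.k (y, (w1, z1))) (d.k (y, (w1, z1)) - η)
    rw [sub_sub_cancel] at this
    exact this.trans (add_le_add n5 n3)
  · rintro g y ⟨η, ⟨w0, w1⟩, z0, z1⟩
    refine congrArg OnePoint.some (Prod.ext rfl (Prod.ext (eμ g y z0 z1) ?_))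
    exact (congrArg (· - d.U.ρ (d.φ g) η) (ek g y w1 z1)).trans (map_sub _ _ _).symm
  · refine continuous_coe.comp (f := fun x : d.Y.Z × (d.U.W × ((d.W0.W × d.W1.W) × (d.Z0.W × d.Z1.W))) =>
      (((x.2.2.1.1, -x.2.2.2.2), ((d.μ0 (x.1, x.2.2.2.1), -x.2.2.1.2),
        d.k (x.1, (x.2.2.1.2, x.2.2.2.2)) - x.2.1)) :
        (d.W0.W × d.Z1.W) × ((d.W0.W × d.W1.W) × d.U.W))) ?_
    fun_prop
  · refine Bf.prp (A := (d.U.prod d.S).W) (B := d.M3.W) fun R => ?_
    obtain ⟨R', a⟩ := bμ0 R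
    obtain ⟨C, b⟩ := bdd ck R
    refine ⟨max (C + R) (max R R'), fun y ⟨η, ⟨w0, w1⟩, z0, z1⟩ r e n => ?_⟩
    obtain rfl := coe_injective e
    obtain ⟨n1, n2⟩ := nle.1 n
    obtain ⟨n2, n3⟩ := nle.1 n2
    obtain ⟨m1, m2⟩ := nle.1 n1
    obtain ⟨m3, m4⟩ := nle.1 n2
    rw [norm_neg] at m2 m4
    have n5 := b y (w1, z1) (nle.2 ⟨m4, m2⟩)
    refine nle.2 ⟨le_max_of_le_left ?_, le_max_of_le_right (nle.2 ⟨le_max_of_le_left
      (nle.2 ⟨m1, m4⟩), nle.2 ⟨le_max_of_le_right (a _ _ m3), le_max_of_le_left m2⟩⟩)⟩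
    have := norm_sub_le (d.k (y, (w1, z1))) (d.k (y, (w1, z1)) - η)
    rw [sub_sub_cancel] at this
    exact this.trans (add_le_add n5 n3)
  · rintro g y ⟨η, ⟨w0, w1⟩, z0, z1⟩
    refine congrArg OnePoint.some (Prod.ext (Prod.ext rfl (map_neg (d.Z1.ρ (d.φ g)) z1).symm)
      (Prod.ext (Prod.ext (eμ0 g y z0) (map_neg (d.W1.ρ (d.φ g)) w1).symm) ?_))
    exact (congrArg (· - d.U.ρ (d.φ g) η) (ek g y w1 z1)).trans (map_sub _ _ _).symm
  · rintro y θ η ⟨⟨w0, w1⟩, z0, z1⟩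
    simp only [LD.hh, LD.g1, LD.b1, sub_self, zero_smul, one_smul, Prod.mk_zero_zero]
    refine congrArg₂ (fun s t => wdg (s, t)) ?_
      (congrArg OnePoint.some (Prod.ext (sub_zero (d.μ (y, (z0, z1)))) rfl))
    induction d.γ ((y, θ), (w0, w1)) using OnePoint.rec with
    | infty => rfl
    | coe a => exact congrArg OnePoint.some (sub_zero a)
  · rintro y θ η ⟨⟨w0, w1⟩, z0, z1⟩
    simp only [LD.hh, LD.g3, LD.b3, sub_zero, zero_smul, one_smul, h.e0, h.m0]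
    refine congrArg₂ (fun s t => wdg (s, t)) ?_ (congrArg OnePoint.some
      (Prod.ext (Prod.ext (sub_zero (d.μ0 (y, z0))) (zero_sub w1)) rfl))
    induction d.γ0 ((y, θ), w0) using OnePoint.rec with
    | infty => rfl
    | coe a => exact congrArg OnePoint.some (Prod.ext (sub_zero a) (zero_sub z1))
  · rintro g y θ t η ⟨⟨w0, w1⟩, z0, z1⟩
    have e1 : d.γ ((d.Y.act (d.φ g) y, θ), (d.W0.ρ (d.φ g) w0, t • d.W1.ρ (d.φ g) w1)) =
        d.Z.ls.sph.act (d.φ g) (d.γ ((y, θ), (w0, t • w1))) := by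
      refine Eq.trans ?_ (h.pγ.eq (d.φ g) (y, θ) (w0, t • w1))
      rw [← _root_.map_smul]
      exact congrArg (fun s => d.γ ((d.Y.act (d.φ g) y, s), _))
        (show θ = d.χ (d.φ g) * θ by rw [(h.ker _).2 ⟨g, rfl⟩, one_mul])
    refine Eq.trans ?_ (wdg_act2 d.Z.ls d.R.ls (d.φ g) _ _).symm
    refine congrArg₂ (fun s t => wdg (s, t)) ?_ (congrArg OnePoint.some (Prod.ext ?_ ?_))
    · refine (congrArg (OnePoint.map _) e1).trans ?_
      induction d.γ ((y, θ), (w0, t • w1)) using OnePoint.rec with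
      | infty => rfl
      | coe a =>
        refine congrArg OnePoint.some (Prod.ext ?_ ?_)
        · change d.Z0.ρ _ a.1 - 0 = d.Z0.ρ _ (a.1 - 0)
          rw [sub_zero, sub_zero]
        · change d.Z1.ρ _ a.2 - (1 - t) • d.Z1.ρ _ z1 = d.Z1.ρ _ (a.2 - (1 - t) • z1)
          rw [map_sub, _root_.map_smul]
    · change d.μ (_, (d.Z0.ρ _ z0, t • d.Z1.ρ _ z1)) - (0, (1 - t) • d.W1.ρ _ w1) =
        (d.W0.ρ _ ((d.μ (y, (z0, t • z1))).1 - 0),
          d.W1.ρ _ ((d.μ (y, (z0, t • z1))).2 - (1 - t) • w1))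
      rw [← _root_.map_smul, eμ, Prod.mk_sub_mk, map_sub, map_sub, map_zero, _root_.map_smul]
    · exact (congrArg (· - d.U.ρ (d.φ g) η) (ek g y w1 z1)).trans (map_sub _ _ _).symm
  · intro P _ _ y θ t η
    constructor
    · refine continuous_wdg.comp (Continuous.prodMk (cont_shift.comp
        (f := fun x : P × ((d.W0.W × d.W1.W) × (d.Z0.W × d.Z1.W)) =>
          (((0 : d.Z0.W), (1 - t x.1) • x.2.2.2), d.γ ((y x.1, θ x.1), (x.2.1.1, t x.1 • x.2.1.2))))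
        (by fun_prop)) (continuous_coe.comp
        (f := fun x : P × ((d.W0.W × d.W1.W) × (d.Z0.W × d.Z1.W)) =>
          ((d.μ (y x.1, (x.2.2.1, t x.1 • x.2.2.2)) - (0, (1 - t x.1) • x.2.1.2),
            d.k (y x.1, (x.2.1.2, x.2.2.2)) - η x.1) : (d.W0.W × d.W1.W) × d.U.W)) (by fun_prop)))
    · refine Bf.prp (A := d.S.W) (B := d.T.W) fun R => ?_
      obtain ⟨C, hC⟩ := isCompact_univ.exists_bound_of_continuousOn η.continuous.continuousOn
      obtain ⟨D, hD⟩ := isCompact_univ.exists_bound_of_continuousOn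
        (f := fun p => 1 - t p) (Continuous.continuousOn (by fun_prop))
      obtain ⟨R1, a1⟩ := bk (R + C)
      obtain ⟨R2, a2⟩ := bγ (R + D * R1)
      obtain ⟨R3, a3⟩ := bμ (R + D * R1)
      refine ⟨max R1 (max R2 R3), fun p ⟨⟨w0, w1⟩, z0, z1⟩ ⟨z, r⟩ e n => ?_⟩
      obtain ⟨e1, e2⟩ := wdg_eq_coe e
      obtain ⟨v, e3, rfl⟩ := map_eq e1
      obtain rfl := coe_injective e2
      obtain ⟨n1, n2⟩ := nle.1 n
      obtain ⟨n2, n3⟩ := nle.1 n2
      have up : ∀ {E : Type} [NormedAddCommGroup E] {u v : E} {a b : ℝ}, ‖u - v‖ ≤ a → ‖v‖ ≤ b →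
          ‖u‖ ≤ a + b := fun {E} _ u v a b p q => by
        simpa using (norm_add_le (u - v) v).trans (add_le_add p q)
      obtain ⟨m1, m2⟩ := nle.1 (a1 _ _ (up n3 (hC p trivial)))
      have D0 : 0 ≤ D := (norm_nonneg _).trans (hD p trivial)
      have sm : ∀ {E E' : Type} [NormedAddCommGroup E] [NormedAddCommGroup E'] [NormedSpace ℝ E']
          {v : E'}, ‖v‖ ≤ R1 → ‖((0 : E), (1 - t p) • v)‖ ≤ D * R1 := fun {E E'} _ _ _ v q =>
        nle.2 ⟨by rw [norm_zero]; exact mul_nonneg D0 ((norm_nonneg _).trans q), by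
          rw [norm_smul]; exact mul_le_mul (hD p trivial) q (norm_nonneg _) D0⟩
      exact nle.2 ⟨nle.2 ⟨le_max_of_le_right (le_max_of_le_left
          (nle.1 (a2 _ _ v e3 (up n1 (sm m2)))).1), le_max_of_le_left m1⟩,
        nle.2 ⟨le_max_of_le_right (le_max_of_le_right (nle.1 (a3 _ _ (up n2 (sm m1)))).1),
          le_max_of_le_left m2⟩⟩

end Crest.Agent.N218.D6

end
end

-- ▼ part N218/D6/Inst2

/-!
# Row 218, block D6 (helper50): the second half of INST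
-/

set_option autoImplicit false
set_option linter.unusedVariables false

open Topology Filter Set OnePoint
open scoped InnerProductSpace ComplexConjugate

noncomputable section

namespace Crest.Agent.N218.D6

open K K.Cp Pm In Ps
open Sk (Cn S2 S3 X22 hfv Frm Wt Pcd Sat Val half)

namespace I2

variable {k n : ℕ}

/-- Fourier coordinates -/
abbrev CC (k n : ℕ) : Type := (Ev k × Fin n → ℂ) × (Od k × Fin n → ℂ)

theorem fo_fi (c : CC k n) : fo (fi c) = c :=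
  Prod.ext (funext fun p => by
      simp only [fo, fi, ContinuousLinearEquiv.apply_symm_apply, dif_pos p.1.2])
    (funext fun p => by
      simp only [fo, fi, ContinuousLinearEquiv.apply_symm_apply,
        dif_neg (Nat.not_even_iff_odd.2 p.1.2)])

theorem fi_fo (y : V k (Fin n → ℂ)) : fi (fo y) = y := by
  rw [fi, ContinuousLinearEquiv.symm_apply_eq]
  funext p; simp only [fo]; split_ifs <;> rfl

theorem fo_zero : fo (0 : V k (Fin n → ℂ)) = 0 := by simp [fo]; exact ⟨rfl, rfl⟩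
theorem fi_zero : fi (0 : CC k n) = 0 := by rw [← fo_zero, fi_fo]

theorem fo_ct : Continuous (fo : V k (Fin n → ℂ) → CC k n) :=
  (continuous_pi fun p => (continuous_apply _).comp (Fo.co _ _).continuous).prodMk
    (continuous_pi fun p => (continuous_apply _).comp (Fo.co _ _).continuous)

theorem fi_ct : Continuous (fi : CC k n → V k (Fin n → ℂ)) :=
  (Fo.co _ _).symm.continuous.comp (continuous_pi fun p => by
    split_ifs
    · exact (continuous_apply _).comp continuous_fst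
    · exact (continuous_apply _).comp continuous_snd)

theorem fo_mn (y : V k (Fin n → ℂ)) : fo (mn y) = (0, (fo y).2) := by
  have e : mn y = Yk.mn (Equiv.addRight ((2 ^ k : ℕ) : Ix k)) y := by
    funext i; simp [mn, Yk.mn]
  have h := Fo.D_mn (q := 2 ^ (k + 1)) (m := 2 ^ k) (by ring) y
  rw [e]
  exact Prod.ext (funext fun p => (congrFun (h p.1.1) p.2).trans (by
      rw [if_neg (Nat.not_odd_iff_even.2 p.1.2)]; rfl))
    (funext fun p => (congrFun (h p.1.1) p.2).trans (by rw [if_pos p.1.2]; rfl))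

theorem mn_fi (c : CC k n) : mn (fi c) = fi (0, c.2) := by
  rw [← fi_fo (mn (fi c)), fo_mn, fo_fi]

theorem s3_ct : Continuous s3 :=
  Continuous.subtype_mk ((PiLp.continuous_toLp 2 _).comp continuous_subtype_val) _
theorem ys_ct : Continuous ys := (s3_ct.comp continuous_fst).prodMk (s3_ct.comp continuous_snd)
theorem hp_ct : Continuous hp := by
  refine Continuous.subtype_mk ?_ _
  refine (PiLp.continuous_toLp 2 _).comp (continuous_pi fun i => ?_)
  have h0 : Continuous fun u : US 2 => u.1 0 := (continuous_apply 0).comp continuous_subtype_val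
  have h1 : Continuous fun u : US 2 => u.1 1 := (continuous_apply 1).comp continuous_subtype_val
  have h2 := (Complex.continuous_conj.comp h0).mul h1
  fin_cases i
  · exact continuous_const.mul (Complex.continuous_re.comp h2)
  · exact continuous_const.mul (Complex.continuous_im.comp h2)
  · exact (h0.norm.pow 2).sub (h1.norm.pow 2)
theorem hx_ct : Continuous hx := (hp_ct.comp continuous_fst).prodMk (hp_ct.comp continuous_snd)

/-- a phase -/
def tw (t : Circle) (u : US 2) : US 2 := ⟨fun i => t * u.1 i, u.2.smul _⟩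


theorem hp_tw (t : Circle) (u : US 2) : hp (tw t u) = hp u := by
  refine Subtype.ext ?_
  have h : (t : ℂ) * conj (t : ℂ) = 1 := by rw [Complex.mul_conj, Circle.normSq_coe]; simp
  have e : conj ((t : ℂ) * u.1 0) * (t * u.1 1) = conj (u.1 0) * u.1 1 := by
    rw [map_mul]; linear_combination (conj (u.1 0) * u.1 1) * h
  show hfv _ = hfv _
  simp only [hfv, s3, tw, e, norm_mul, Circle.norm_coe, one_mul]

section fr
variable {E : Type} [NormedAddCommGroup E] [InnerProductSpace ℂ E] {π : X22 → E →L[ℂ] E}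
  {a a' : Fin n → ℤ} {s : Fin n → S3 × S3 → E}

theorem dn_up (h : Frm π a a' s) (y : US 2 × US 2) (c : V k (Fin n → ℂ)) :
    dn s y (up s y c) = c := by
  funext i j; simp [dn, up, h.on]

theorem up_dn (h : Frm π a a' s) (y : US 2 × US 2) (e : V k E) (i : Ix k) :
    up s y (dn s y e) i = π (hx y) (e i) := (h.sp (hx y) (ys y) rfl rfl _).symm

theorem pi_up (h : Frm π a a' s) (y : US 2 × US 2) (c : V k (Fin n → ℂ)) (i : Ix k) :
    π (hx y) (up s y c i) = up s y c i := by rw [← up_dn h, dn_up h]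

theorem up_zero (y : US 2 × US 2) : up s y (0 : V k (Fin n → ℂ)) = 0 := by
  funext i; simp [up]

theorem mn_up (y : US 2 × US 2) (c : V k (Fin n → ℂ)) : mn (up s y c) = up s y (mn c) := by
  funext i
  simp only [mn, up, ← Finset.sum_sub_distrib, Finset.smul_sum, Pi.smul_apply, Pi.sub_apply,
    ← sub_smul, smul_assoc]

theorem mn_dn (y : US 2 × US 2) (e : V k E) : mn (dn s y e) = dn s y (mn e) := by
  funext i j
  simp only [mn, dn, Pi.smul_apply, Pi.sub_apply, ← inner_sub_right]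
  rw [← Complex.coe_smul, ← Complex.coe_smul, inner_smul_right, smul_eq_mul]

theorem U_ct (h : Frm π a a' s) :
    Continuous fun x : (US 2 × US 2) × CC k n => up s x.1 (fi x.2) :=
  continuous_pi fun i => continuous_finsetSum _ fun j _ =>
    ((continuous_apply j).comp ((continuous_apply i).comp (fi_ct.comp continuous_snd))).smul
      ((h.ct j).comp (ys_ct.comp continuous_fst))

theorem D_ct (h : Frm π a a' s) :
    Continuous fun x : (US 2 × US 2) × V k E => fo (dn s x.1 x.2) :=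
  fo_ct.comp (continuous_pi fun i => continuous_pi fun j =>
    ((h.ct j).comp (ys_ct.comp continuous_fst)).inner ((continuous_apply i).comp continuous_snd))

theorem U_ct' (h : Frm π a a' s) {T : Type} [TopologicalSpace T] {y : T → US 2 × US 2}
    {c : T → CC k n} (hy : Continuous y) (hc : Continuous c) (i : Ix k) :
    Continuous fun t => up s (y t) (fi (c t)) i :=
  continuous_finsetSum _ fun j _ =>
    ((continuous_apply j).comp ((continuous_apply i).comp (fi_ct.comp hc))).smul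
      ((h.ct j).comp (ys_ct.comp hy))

theorem D_ct' (h : Frm π a a' s) {T : Type} [TopologicalSpace T] {y : T → US 2 × US 2}
    {e : T → V k E} (hy : Continuous y) (he : ∀ i, Continuous fun t => e t i) :
    Continuous fun t => fo (dn s (y t) (e t)) :=
  fo_ct.comp (continuous_pi fun i => continuous_pi fun j =>
    ((h.ct j).comp (ys_ct.comp hy)).inner (he i))

theorem U_bd (h : Frm π a a' s) (R : ℝ) :
    ∃ C, ∀ y (c : CC k n), ‖c‖ ≤ R → ‖up s y (fi c)‖ ≤ C := bdd (U_ct h) R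

theorem D_bd [ProperSpace E] (h : Frm π a a' s) (R : ℝ) :
    ∃ C, ∀ y (e : V k E), ‖e‖ ≤ R → ‖fo (dn s y e)‖ ≤ C :=
  bdd (f := fun x : (US 2 × US 2) × V k E => fo (dn s x.1 x.2)) (D_ct h) R

theorem D_U (h : Frm π a a' s) (y : US 2 × US 2) (c : CC k n) :
    fo (dn s y (up s y (fi c))) = c := by rw [dn_up h, fo_fi]

theorem U_D (h : Frm π a a' s) (y : US 2 × US 2) (e : V k E) (i : Ix k) :
    up s y (fi (fo (dn s y e))) i = π (hx y) (e i) := by rw [fi_fo, up_dn h]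

/-- the action on the coordinates -/
def ac (a a' : Fin n → ℤ) (g : GG k) (c : CC k n) : CC k n :=
  ((WE k a a').prod (WO k a a')).ρ (ph k g) c
/-- the action on the base -/
def ay (g : GG k) (y : US 2 × US 2) : US 2 × US 2 := (tw g.2.1 y.1, tw g.2.2 y.2)

theorem hx_ay (g : GG k) (y : US 2 × US 2) : hx (ay g y) = hx y :=
  Prod.ext (hp_tw _ _) (hp_tw _ _)

theorem D_eq (h : Frm π a a' s) (g : GG k) (y : US 2 × US 2) (e : V k E) :
    fo (dn s (ay g y) fun i => e (i + g.1.toAdd)) = ac a a' g (fo (dn s y e)) := by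
  have key : ∀ (l : Ix k) (j : Fin n),
      Fo.co _ _ (dn s (ay g y) fun i => e (i + g.1.toAdd)) (l, j) =
        (wc l.val (a j) (a' j) (ph k g) : ℂ) * Fo.co _ _ (dn s y e) (l, j) := fun l j => by
    have c : ∀ (t : Circle) (m : ℤ), conj ((t : ℂ) ^ m) = (t : ℂ) ^ (-m) := fun t m => by
      rw [map_zpow₀, ← Circle.coe_inv_eq_conj, Circle.coe_inv, inv_zpow']
    have e1 : ∀ i, dn s (ay g y) (fun i => e (i + g.1.toAdd)) i j =
        ((g.2.1 : ℂ) ^ (-a j) * (g.2.2 : ℂ) ^ (-a' j)) * Fo.sh g.1.toAdd (dn s y e) i j :=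
      fun i => by
        simp only [dn, Fo.sh]
        rw [h.eq j (ys y) (ys (ay g y)) g.2.1 g.2.2 rfl rfl, inner_smul_left, map_mul, c, c]
    have e2 := congrFun (Fo.D_sh g.1.toAdd (dn s y e) l) j
    have e3 : (wc l.val (a j) (a' j) (ph k g) : ℂ) =
        Fo.ch (g.1.toAdd * l) * ((g.2.1 : ℂ) ^ (-a j) * (g.2.2 : ℂ) ^ (-a' j)) := by
      rw [Fo.ch_mul, ← Fo.inc_apply]
      simp [wc, c1, ca, cb, ph]
    rw [Fo.co_apply, Fo.co_apply, e3, mul_comm (Fo.ch _), mul_assoc, ← smul_eq_mul (Fo.ch _),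
      ← Pi.smul_apply, ← e2, Fo.D_apply, Fo.D_apply, Finset.sum_apply, Finset.sum_apply,
      Finset.mul_sum]
    exact Finset.sum_congr rfl fun i _ => by
      rw [Pi.smul_apply, Pi.smul_apply, e1, smul_eq_mul, smul_eq_mul]; ring
  exact Prod.ext (funext fun p => key _ _) (funext fun p => key _ _)

theorem U_eq (h : Frm π a a' s) (g : GG k) (y : US 2 × US 2) (c : CC k n) (i : Ix k) :
    up s (ay g y) (fi (ac a a' g c)) i = up s y (fi c) (i + g.1.toAdd) := by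
  rw [← D_U h y c, ← D_eq h, U_D h, hx_ay, D_U h, pi_up h]

theorem ac_l (g : GG k) (z : Ev k × Fin n → ℂ) :
    ac a a' g (z, 0) = ((WE k a a').ρ (ph k g) z, 0) := Prod.ext rfl (map_zero ((WO k a a').ρ (ph k g)))
theorem ac_r (g : GG k) (z : Od k × Fin n → ℂ) :
    ac a a' g (0, z) = (0, (WO k a a').ρ (ph k g) z) := Prod.ext (map_zero ((WE k a a').ρ (ph k g))) rfl
end fr

theorem mn_pr {E E' : Type} [NormedAddCommGroup E] [NormedSpace ℝ E] [NormedAddCommGroup E']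
    [NormedSpace ℝ E'] (y : V k E) (z : V k E') : mn (pr y z) = pr (mn y) (mn z) := by
  funext i; simp [mn, Pm.pr]

variable {n₁ n₂ : ℕ} {D : Data X22 (Cn n₁) (Cn n₂)} {c κ R₀ M : ℝ} {a a' b b' : Fin n → ℤ}
  {s₁ : Fin n → S3 × S3 → Cn n₁} {s₂ : Fin n → S3 × S3 → Cn n₂} {m : ℕ} (p : ℕ)
  {kV : V k (Cn n₁ × Cn n₂) → Fin m → ℂ}

theorem mm_ct (o : D.Ok c κ R₀ M) (h₁ : Frm D.π₁ a a' s₁) (h₂ : Frm D.π₂ b b' s₂) {T : Type}
    [TopologicalSpace T] {y : T → US 2 × US 2} {z : T → CC k n} (hy : Continuous y)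
    (hz : Continuous z) : Continuous fun t => mm k D s₁ s₂ (y t) (z t) :=
  D_ct' h₁ (e := fun t i => D.u (hx (y t), up s₂ (y t) (fi (z t)) i)) hy fun i =>
    o.uc.comp ((hx_ct.comp hy).prodMk (U_ct' h₂ hy hz i))

theorem mm_bd (o : D.Ok c κ R₀ M) (h₁ : Frm D.π₁ a a' s₁) (h₂ : Frm D.π₂ b b' s₂) (R : ℝ) :
    ∃ R', ∀ y (z : CC k n), ‖mm k D s₁ s₂ y z‖ ≤ R → ‖z‖ ≤ R' := by
  obtain ⟨C, hC⟩ := U_bd (k := k) h₁ R
  obtain ⟨C', hC'⟩ := D_bd (k := k) h₂ (max (max R₀ C) 0)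
  refine ⟨C', fun y z e => ?_⟩
  rw [← D_U h₂ y z]
  refine hC' y _ ((pi_norm_le_iff_of_nonneg (le_max_right _ _)).2 fun i => le_max_of_le_left ?_)
  have h1 := (norm_le_pi_norm _ i).trans (hC y _ e)
  rw [mm, U_D h₁] at h1
  rcases le_total R₀ ‖up s₂ y (fi z) i‖ with r | r
  · have h2 := o.ux (hx y) (up s₂ y (fi z) i) (by rwa [pi_up h₂])
    rw [pi_up h₂] at h2
    refine le_max_of_le_right ?_
    nlinarith [mul_nonneg o.hκ.le (norm_nonneg (up s₂ y (fi z) i))]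
  · exact le_max_of_le_left r

theorem mm_eq (h₁ : Frm D.π₁ a a' s₁) (h₂ : Frm D.π₂ b b' s₂) (g : GG k) (y : US 2 × US 2)
    (z : CC k n) : mm k D s₁ s₂ (ay g y) (ac b b' g z) = ac a a' g (mm k D s₁ s₂ y z) := by
  rw [mm, mm, ← D_eq h₁]
  simp only [U_eq h₂, hx_ay]

theorem mm_ev (y : US 2 × US 2) (z : Ev k × Fin n → ℂ) : (mm k D s₁ s₂ y (z, 0)).2 = 0 := by
  have h1 : mn (up s₂ y (fi (z, 0))) = 0 := by
    rw [mn_up, mn_fi]; exact (congrArg _ fi_zero).trans (up_zero y)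
  have h2 : mn (fun i => D.u (hx y, up s₂ y (fi (z, 0)) i)) = 0 := funext fun i => by
    have := congrFun h1 i
    simp only [mn, Pi.zero_apply, smul_eq_zero, sub_eq_zero] at this ⊢
    exact this.imp id fun e => by rw [e]
  have h3 := fo_mn (dn s₁ y fun i => D.u (hx y, up s₂ y (fi (z, 0)) i))
  rw [mn_dn, h2, show dn s₁ y (0 : V k (Cn n₁)) = 0 by funext i j; simp [dn], fo_zero] at h3
  exact (congrArg Prod.snd h3).symm

theorem m0 (y : (ld k D s₁ s₂ a a' b b' p kV).Y.Z) (z : (ld k D s₁ s₂ a a' b b' p kV).Z0.W) :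
    (ld k D s₁ s₂ a a' b b' p kV).μ (y, (z, 0)) = ((ld k D s₁ s₂ a a' b b' p kV).μ0 (y, z), 0) :=
  Prod.ext rfl (mm_ev y.1 z)

theorem pμ (o : D.Ok c κ R₀ M) (h₁ : Frm D.π₁ a a' s₁) (h₂ : Frm D.π₂ b b' s₂) :
    let d := ld k D s₁ s₂ a a' b b' p kV
    Pm d.Y' (d.rs d.Z).ls (d.rs d.W).ls fun x => (d.μ x : OnePoint (d.W0.W × d.W1.W)) :=
  ⟨continuous_coe.comp (mm_ct o h₁ h₂ (T := ((US 2 × US 2) × US (m + p)) × CC k n)
      continuous_fst.fst continuous_snd),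
    Bf.prp (A := CC k n) (B := CC k n) fun R => (mm_bd o h₁ h₂ R).imp fun _ h y z w e r =>
      h y.1 z (by rw [← coe_injective e] at r; exact r),
    fun g y z => congrArg _ (mm_eq h₁ h₂ g y.1 z)⟩

theorem pμ0 (o : D.Ok c κ R₀ M) (h₁ : Frm D.π₁ a a' s₁) (h₂ : Frm D.π₂ b b' s₂) :
    let d := ld k D s₁ s₂ a a' b b' p kV
    Pm d.Y' (d.rs d.Z0).ls (d.rs d.W0).ls fun x => (d.μ0 x : OnePoint d.W0.W) :=
  ⟨continuous_coe.comp (mm_ct o h₁ h₂ (T := ((US 2 × US 2) × US (m + p)) × (Ev k × Fin n → ℂ))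
      continuous_fst.fst (continuous_snd.prodMk continuous_const)).fst,
    Bf.prp (A := Ev k × Fin n → ℂ) (B := Ev k × Fin n → ℂ) fun R =>
      (mm_bd o h₁ h₂ R).imp fun _ h y z w e r => (norm_fst_le ((z, 0) : CC k n)).trans
        (h y.1 (z, 0) (by
          rw [← coe_injective e] at r
          exact norm_prod_le_iff.2 ⟨r, by rw [mm_ev, norm_zero]; exact (norm_nonneg _).trans r⟩)),
    fun g y z => congrArg (fun w : CC k n => OnePoint.some w.1)
      ((congrArg _ (ac_l g z).symm).trans (mm_eq h₁ h₂ g y.1 (z, 0)))⟩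

/-- the odd vector -/
def ov (s₁ : Fin n → S3 × S3 → Cn n₁) (s₂ : Fin n → S3 × S3 → Cn n₂) (y : US 2 × US 2)
    (w : (Od k × Fin n → ℂ) × (Od k × Fin n → ℂ)) : V k (Cn n₁ × Cn n₂) :=
  pr (up s₁ y (fi (0, w.1))) (up s₂ y (fi (0, w.2)))

theorem mn_ov (y : US 2 × US 2) (w z : CC k n) :
    mn (pr (up s₁ y (fi w)) (up s₂ y (fi z))) = ov s₁ s₂ y (w.2, z.2) := by
  rw [mn_pr, mn_up, mn_up, mn_fi, mn_fi]; rfl

theorem k0 (h₁ : Frm D.π₁ a a' s₁) (h₂ : Frm D.π₂ b b' s₂) (hk : KV k D kV)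
    (y : (ld k D s₁ s₂ a a' b b' p kV).Y.Z)
    (v : (ld k D s₁ s₂ a a' b b' p kV).W1.W × (ld k D s₁ s₂ a a' b b' p kV).Z1.W) :
    (ld k D s₁ s₂ a a' b b' p kV).k (y, v) = 0 ↔ v = 0 := by
  refine (hk.z _).trans ((mn_ov y.1 (0, v.1) (0, v.2)).congr_left.trans ⟨fun e => ?_, fun e => ?_⟩)
  · have e1 : up s₁ y.1 (fi (0, v.1)) = 0 := funext fun i => congrArg Prod.fst (congrFun e i)
    have e2 : up s₂ y.1 (fi (0, v.2)) = 0 := funext fun i => congrArg Prod.snd (congrFun e i)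
    have f1 := D_U h₁ y.1 ((0, v.1) : CC k n)
    have f2 := D_U h₂ y.1 ((0, v.2) : CC k n)
    rw [e1, ← up_zero (s := s₁) y.1, dn_up h₁, fo_zero] at f1
    rw [e2, ← up_zero (s := s₂) y.1, dn_up h₂, fo_zero] at f2
    exact Prod.ext (congrArg Prod.snd f1).symm (congrArg Prod.snd f2).symm
  · subst e
    exact congrArg₂ pr ((congrArg _ fi_zero).trans (up_zero _))
      ((congrArg _ fi_zero).trans (up_zero _))

theorem pk (h₁ : Frm D.π₁ a a' s₁) (h₂ : Frm D.π₂ b b' s₂) (hk : KV k D kV) :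
    let d := ld k D s₁ s₂ a a' b b' p kV
    Pm d.Y' (d.rs (d.W1.prod d.Z1)).ls (d.rs d.U).ls fun x => (d.k x : OnePoint d.U.W) := by
  have ct : Continuous fun x : ((US 2 × US 2) × US (m + p)) ×
      (Od k × Fin n → ℂ) × (Od k × Fin n → ℂ) => ov s₁ s₂ x.1.1 x.2 :=
    continuous_pi fun i => Continuous.prodMk
      (U_ct' h₁ continuous_fst.fst (continuous_const.prodMk continuous_snd.fst) i)
      (U_ct' h₂ continuous_fst.fst (continuous_const.prodMk continuous_snd.snd) i)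
  refine ⟨continuous_coe.comp (hk.ct.comp ct),
    Bf.prp (A := (Od k × Fin n → ℂ) × (Od k × Fin n → ℂ)) (B := Fin m → ℂ) fun R => ?_,
    fun g y z => congrArg _ (Eq.trans (congrArg kV (funext fun i => ?_))
      (hk.eq g.1 (ov s₁ s₂ y.1 z)))⟩
  · obtain ⟨R', h⟩ := hk.pr R
    obtain ⟨C, hC⟩ := D_bd (k := k) h₁ R'
    obtain ⟨C', hC'⟩ := D_bd (k := k) h₂ R'
    refine ⟨max C C', fun y z w e r => ?_⟩
    rw [← coe_injective e] at r
    have h1 := h _ r
    have R0 := (norm_nonneg _).trans h1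
    rw [show mn _ = _ from mn_ov y.1 (0, z.1) (0, z.2)] at h1
    have h2 := hC y.1 (up s₁ y.1 (fi (0, z.1))) ((pi_norm_le_iff_of_nonneg R0).2 fun i =>
      (norm_fst_le (ov s₁ s₂ y.1 z i)).trans ((norm_le_pi_norm _ i).trans h1))
    have h3 := hC' y.1 (up s₂ y.1 (fi (0, z.2))) ((pi_norm_le_iff_of_nonneg R0).2 fun i =>
      (norm_snd_le (ov s₁ s₂ y.1 z i)).trans ((norm_le_pi_norm _ i).trans h1))
    rw [D_U h₁] at h2
    rw [D_U h₂] at h3
    exact max_le_max ((norm_snd_le ((0, z.1) : CC k n)).trans h2)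
      ((norm_snd_le ((0, z.2) : CC k n)).trans h3)
  · exact Prod.ext ((congrArg (fun c => up s₁ (ay g y.1) (fi c) i) (ac_r g z.1).symm).trans
      (U_eq h₁ g y.1 _ i)) ((congrArg (fun c => up s₂ (ay g y.1) (fi c) i) (ac_r g z.2).symm).trans
      (U_eq h₂ g y.1 _ i))

theorem sj : Function.Surjective (ld k D s₁ s₂ a a' b b' p kV).χ := fun z => by
  obtain ⟨t, rfl⟩ := Circle.exp_surjective z
  refine ⟨(Circle.exp (t / (2 ^ (k + 1) : ℕ)), 1, 1), ?_⟩
  show Circle.exp (t / (2 ^ (k + 1) : ℕ)) ^ 2 ^ (k + 1) = _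
  rw [← Circle.exp_nsmul, nsmul_eq_mul, mul_div_cancel₀ _ (by positivity)]

theorem ker (g : GT) :
    (ld k D s₁ s₂ a a' b b' p kV).χ g = 1 ↔ g ∈ (ld k D s₁ s₂ a a' b b' p kV).φ.range := by
  refine ⟨fun h => ?_, fun ⟨x, h⟩ => ?_⟩
  · have h1 : (g.1 : ℂ) ^ 2 ^ (k + 1) = 1 := by
      rw [← Circle.coe_pow]; exact congrArg _ h
    obtain ⟨j, -, e⟩ := (Complex.isPrimitiveRoot_exp (2 ^ (k + 1))
      (by positivity)).eq_pow_of_pow_eq_one h1
    refine ⟨(Multiplicative.ofAdd (j : Ix k), g.2), Prod.ext (Circle.ext ?_) rfl⟩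
    show ((ZMod.toCircle (j : Ix k) : Circle) : ℂ) = g.1
    rw [ZMod.toCircle_natCast, ← e, ← Complex.exp_nat_mul]
    congr 1; ring
  · subst h
    show ck k x.1 ^ 2 ^ (k + 1) = 1
    rw [← map_pow, show x.1 ^ 2 ^ (k + 1) = 1 from by
      apply Multiplicative.toAdd.injective
      rw [toAdd_pow, toAdd_one, nsmul_eq_mul, ZMod.natCast_self, zero_mul], map_one]

theorem hi : Eqv (ld k D s₁ s₂ a a' b b' p kV).φ (ld k D s₁ s₂ a a' b b' p kV).i := fun g y =>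
  Prod.ext rfl (Subtype.ext (funext fun i => by
    show Fin.append (fun i => (ck k g.1 : ℂ) * y.2.1 i) 0 i = (ck k g.1 : ℂ) * Fin.append y.2.1 0 i
    refine Fin.addCases (fun i => ?_) (fun i => ?_) i <;> simp))

theorem hu (g : GG k) (y : (ld k D s₁ s₂ a a' b b' p kV).Ym.Z) :
    (ld k D s₁ s₂ a a' b b' p kV).u ((ld k D s₁ s₂ a a' b b' p kV).Ym.act g y) =
      (ld k D s₁ s₂ a a' b b' p kV).U.ρ ((ld k D s₁ s₂ a a' b b' p kV).φ g)
        ((ld k D s₁ s₂ a a' b b' p kV).u y) := rfl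

theorem u0 (y : (ld k D s₁ s₂ a a' b b' p kV).Ym.Z) : (ld k D s₁ s₂ a a' b b' p kV).u y ≠ 0 :=
  fun h => by
    have h1 : Un1 y.2.1 := y.2.2
    rw [show y.2.1 = 0 from h] at h1
    simp [Un1] at h1

theorem g_shift {E : Type} [NormedAddCommGroup E] [NormedSpace ℂ E] (r : ℝ) (j : ℤ) (y : V k E)
    (i : Ix k) : Fo.g (-(r + j)) y i = Fo.g (-r) y (i - j) := by
  rw [neg_add_rev, Fo.g_add, ← Int.cast_neg, Lo.g_int, Int.cast_neg, sub_eq_add_neg]; rfl

theorem sm (o : D.Ok c κ R₀ M) (st : Sat D) (h₁ : Frm D.π₁ a a' s₁) (h₂ : Frm D.π₂ b b' s₂)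
    (hk : KV k D kV) :
    let d := ld k D s₁ s₂ a a' b b' p kV
    ∀ y θ (ρ : ℝ) v, 1 ≤ ρ → d.hh (d.i y) θ 1 (ρ • d.u y) v ≠ ((0 : d.T.W) : OnePoint d.T.W) := by
  intro d y θ ρ v hρ h
  obtain ⟨e1, e2⟩ := wdg_eq_coe h
  obtain ⟨w, e3, e4⟩ := map_eq e1
  have e5 := coe_injective e2
  simp only [one_smul, sub_self, zero_smul] at e3 e4 e5
  have e6 : mm k D s₁ s₂ y.1 v.2 = 0 := (sub_zero _).symm.trans (congrArg Prod.fst e5)
  have e7 : kV (ov s₁ s₂ y.1 (v.1.2, v.2.2)) = ρ • y.2.1 := sub_eq_zero.1 (congrArg Prod.snd e5)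
  obtain rfl : w = 0 := (sub_zero _).symm.trans e4
  have e8 : gm k D s₁ s₂ y.1 θ v.1 = OnePoint.some 0 := e3
  rw [gm] at e8
  split_ifs at e8 with hO
  swap
  · exact infty_ne_coe _ e8
  have e9 := coe_injective e8
  set Y := up s₁ y.1 (fi v.1) with hY
  set r := rt θ
  have hv : Fo.g r (fun i => D.v (hx y.1, Fo.g (-r) Y i)) = 0 := funext fun i => by
    have k1 := U_D h₂ y.1 (Fo.g r fun i => D.v (hx y.1, Fo.g (-r) Y i)) i
    rw [e9, fi_zero, up_zero, Lo.g_N r (D.π₂ (hx y.1))] at k1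
    simp only [fun i => o.vp _ (hO i)] at k1
    exact k1.symm
  refine hk.sm ((hx y.1, (r : UnitAddCircle)), pr Y (up s₂ y.1 (fi v.2))) (fun i => ?_) ?_ y.2 ρ hρ
    (by rw [← hk.od, hY, mn_ov]; exact e7)
  · show (hx y.1, Fo.g (-rep (r : UnitAddCircle)) Y i) ∈ D.Ov
    rw [Lo.rep_coe, g_shift]; exact hO _
  · show pr (fun i => Y i - D.π₁ (hx y.1) (Y i) - D.u (hx y.1, up s₂ y.1 (fi v.2) i))
      ((fun i => up s₂ y.1 (fi v.2) i - D.π₂ (hx y.1) (up s₂ y.1 (fi v.2) i)) -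
        Fo.g (rep (r : UnitAddCircle)) fun i =>
          D.v (hx y.1, Fo.g (-rep (r : UnitAddCircle)) Y i)) = 0
    have k1 : (Fo.g (rep (r : UnitAddCircle)) fun i =>
        D.v (hx y.1, Fo.g (-rep (r : UnitAddCircle)) Y i)) = 0 := by
      simp only [Lo.rep_coe, g_shift]
      rw [Fo.g_add, Lo.g_int, ← hv]
      exact congrArg _ (funext fun i => by simp only [Fo.sh, add_sub_cancel_right])
    rw [k1]
    funext i
    have k2 := U_D h₁ y.1 (fun i => D.u (hx y.1, up s₂ y.1 (fi v.2) i)) i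
    rw [show fo _ = 0 from e6, fi_zero, up_zero, st.u] at k2
    simp only [Pm.pr, hY, pi_up h₁, pi_up h₂, ← k2, sub_self, Pi.zero_apply, Pi.sub_apply]
    rfl

end I2

end Crest.Agent.N218.D6

end
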