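import Crest.Agent.N218.D6.Defs
import Crest.Agent.N218.K.Stb
import Crest.Agent.N218.D7.OrbK
import Crest.Agent.N218.K.K1

-- ▼ part N218/D6/Lj0
section

/-! Row 218, block D6 (helper32): double pushouts, products of fibrewise maps, the two discs. -/

set_option autoImplicit false
set_option linter.unusedVariables false

open Crest.Agent.R204.K357 Crest.Agent.R204.Ex837 unitInterval Topology Filter Set OnePoint

noncomputable section

namespace Crest.Agent.N218.D6.Lj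

open K

/-- two spaces glued to `X0` -/
structure T3 (X0 X1 X3 C1 C3 : Type) [TopologicalSpace X0] [TopologicalSpace X1]
    [TopologicalSpace X3] [TopologicalSpace C1] [TopologicalSpace C3] where
  j1 : C(C1, X1)
  g1 : C(C1, X0)
  j3 : C(C3, X3)
  g3 : C(C3, X0)

namespace T3
variable {X0 X1 X3 C1 C3 : Type} [TopologicalSpace X0] [TopologicalSpace X1]
  [TopologicalSpace X3] [TopologicalSpace C1] [TopologicalSpace C3] (D : T3 X0 X1 X3 C1 C3)

/-- functions on the first pushout -/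
def S1 : Subalgebra ℂ (C(X0, ℂ) × C(X1, ℂ)) :=
  AlgHom.equalizer ((cR D.j1).comp (AlgHom.snd ℂ _ _)) ((cR D.g1).comp (AlgHom.fst ℂ _ _))
/-- functions on the double pushout -/
def S3 : Subalgebra ℂ (C(X0, ℂ) × C(X1, ℂ) × C(X3, ℂ)) where
  carrier := {u | (∀ c, u.2.1 (D.j1 c) = u.1 (D.g1 c)) ∧ ∀ c, u.2.2 (D.j3 c) = u.1 (D.g3 c)}
  mul_mem' a b := ⟨fun c => congrArg₂ (· * ·) (a.1 c) (b.1 c),
    fun c => congrArg₂ (· * ·) (a.2 c) (b.2 c)⟩
  add_mem' a b := ⟨fun c => congrArg₂ (· + ·) (a.1 c) (b.1 c),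
    fun c => congrArg₂ (· + ·) (a.2 c) (b.2 c)⟩
  algebraMap_mem' _ := ⟨fun _ => rfl, fun _ => rfl⟩
/-- as a type -/
def W1 : Type := D.S1
/-- as a type -/
def W : Type := D.S3
instance : CommRing D.W1 := D.S1.toCommRing
instance : Algebra ℂ D.W1 := D.S1.algebra
instance : CommRing D.W := D.S3.toCommRing
instance : Algebra ℂ D.W := D.S3.algebra
/-- restriction -/
def q0 : D.W1 →ₐ[ℂ] C(X0, ℂ) := (AlgHom.fst ℂ _ _).comp D.S1.val
/-- restriction -/
def q1 : D.W1 →ₐ[ℂ] C(X1, ℂ) := (AlgHom.snd ℂ _ _).comp D.S1.val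
/-- restriction -/
def p0 : D.W →ₐ[ℂ] C(X0, ℂ) := (AlgHom.fst ℂ _ _).comp D.S3.val
/-- restriction -/
def p1 : D.W →ₐ[ℂ] C(X1, ℂ) := (AlgHom.fst ℂ _ _).comp ((AlgHom.snd ℂ _ _).comp D.S3.val)
/-- restriction -/
def p3 : D.W →ₐ[ℂ] C(X3, ℂ) := (AlgHom.snd ℂ _ _).comp ((AlgHom.snd ℂ _ _).comp D.S3.val)
/-- restriction -/
def pw : D.W →ₐ[ℂ] D.W1 := (D.p0.prod D.p1).codRestrict D.S1 fun u => ContinuousMap.ext u.2.1

theorem c1 (u : D.W) (c : C1) : D.p1 u (D.j1 c) = D.p0 u (D.g1 c) := u.2.1 c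
theorem c3 (u : D.W) (c : C3) : D.p3 u (D.j3 c) = D.p0 u (D.g3 c) := u.2.2 c

theorem mv {P A B C : Type} [CommRing P] [CommRing A] [CommRing B] [CommRing C] [Algebra ℂ P]
    [Algebra ℂ A] [Algebra ℂ B] [Algebra ℂ C] (p1 : P →ₐ[ℂ] A) (p2 : P →ₐ[ℂ] B) (al : A →ₐ[ℂ] C)
    (be : B →ₐ[ℂ] C) (comm : ∀ x, al (p1 x) = be (p2 x))
    (lift : ∀ a b, al a = be b → ∃ x, p1 x = a ∧ p2 x = b)
    (inj : ∀ x y, p1 x = p1 y → p2 x = p2 y → x = y) (h : Function.Surjective al) {a : KC A}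
    {b : KC B} (e : KA al a = KA be b) : ∃ x : KC P, KA p1 x = a ∧ KA p2 x = b :=
  Sq.K0_mid (P := P) (A := A) (B := B) (C := C)
    { p1 := p1, p2 := p2, al := al, be := be, comm := comm, lift := lift, inj := inj } h e

theorem m1 (b : D.W1) (c : C1) : b.1.2 (D.j1 c) = b.1.1 (D.g1 c) :=
  DFunLike.congr_fun (show cR D.j1 b.1.2 = cR D.g1 b.1.1 from b.2) c

theorem patch [CompactSpace X1] [T2Space X1] [CompactSpace C1] [CompactSpace X3] [T2Space X3]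
    [CompactSpace C3] (i1 : Function.Injective D.j1) (i3 : Function.Injective D.j3) {x0 : KX X0}
    {x1 : KX X1} {x3 : KX X3} (h1 : pull D.j1 x1 = pull D.g1 x0)
    (h3 : pull D.j3 x3 = pull D.g3 x0) :
    ∃ w : KC D.W, KA D.p0 w = x0 ∧ KA D.p1 w = x1 ∧ KA D.p3 w = x3 := by
  obtain ⟨v, a, b⟩ := mv (P := D.W1) (A := C(X1, ℂ)) (B := C(X0, ℂ)) (C := C(C1, ℂ))
    D.q1 D.q0 (cR D.j1) (cR D.g1)
    (fun x => ContinuousMap.ext (D.m1 x)) (fun a b h => ⟨⟨(b, a), h⟩, rfl, rfl⟩)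
    (fun _ _ h h' => Subtype.ext (Prod.ext h' h)) (cr_surj i1) h1
  obtain ⟨w, c, e⟩ := mv (P := D.W) (A := C(X3, ℂ)) (B := D.W1) (C := C(C3, ℂ))
    D.p3 D.pw (cR D.j3) ((cR D.g3).comp D.q0) (fun x => ContinuousMap.ext x.2.2)
    (fun a b h => ⟨⟨(b.1.1, b.1.2, a), D.m1 b, fun c =>
      DFunLike.congr_fun (show cR D.j3 a = cR D.g3 b.1.1 from h) c⟩, rfl, Subtype.ext rfl⟩)
    (fun _ _ h h' => Subtype.ext (Prod.ext (congrArg D.q0 h') (Prod.ext (congrArg D.q1 h') h)))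
    (cr_surj i3) (a := x3) (b := v)
    (h3.trans ((congrArg (pull D.g3) b.symm).trans (ka_comp (cR D.g3) D.q0 v).symm))
  exact ⟨w, (ka_comp D.q0 D.pw w).trans ((congrArg _ e).trans b),
    (ka_comp D.q1 D.pw w).trans ((congrArg _ e).trans a), c⟩

/-- compatible self-maps -/
def en (r0 : C(X0, X0)) (r1 : C(X1, X1)) (r3 : C(X3, X3))
    (h1 : ∀ c, ∃ c', r1 (D.j1 c) = D.j1 c' ∧ r0 (D.g1 c) = D.g1 c')
    (h3 : ∀ c, ∃ c', r3 (D.j3 c) = D.j3 c' ∧ r0 (D.g3 c) = D.g3 c') : D.W →ₐ[ℂ] D.W :=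
  (((cR r0).comp D.p0).prod (((cR r1).comp D.p1).prod ((cR r3).comp D.p3))).codRestrict D.S3
    fun u => ⟨fun c => by
      obtain ⟨c', a, b⟩ := h1 c
      change D.p1 u (r1 (D.j1 c)) = D.p0 u (r0 (D.g1 c))
      rw [a, b, c1], fun c => by
      obtain ⟨c', a, b⟩ := h3 c
      change D.p3 u (r3 (D.j3 c)) = D.p0 u (r0 (D.g3 c))
      rw [a, b, c3]⟩

open Classical in
/-- evaluation in three pieces -/
def ev (n : ℝ) (a : X3) (b : X0) (c : X1) : D.W →ₐ[ℂ] ℂ :=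
  if n ≤ 5 / 4 then (ContinuousMap.evalAlgHom ℂ ℂ a).comp D.p3 else
    if n ≤ 3 / 2 then (ContinuousMap.evalAlgHom ℂ ℂ b).comp D.p0 else
      (ContinuousMap.evalAlgHom ℂ ℂ c).comp D.p1

open Classical in
theorem ev_eq (n : ℝ) (a : X3) (b : X0) (c : X1) (u : D.W) : D.ev n a b c u =
    if n ≤ 5 / 4 then D.p3 u a else if n ≤ 3 / 2 then D.p0 u b else D.p1 u c := by
  unfold ev; split_ifs <;> rfl

theorem ev_cont {Z : Type} [TopologicalSpace Z] {n : Z → ℝ} {a : Z → X3} {b : Z → X0} {c : Z → X1}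
    (hn : Continuous n) (ha : Continuous a) (hb : ContinuousOn b {z | 5 / 4 ≤ n z ∧ n z ≤ 3 / 2})
    (hc : Continuous c) (h3 : ∀ z, n z = 5 / 4 → ∃ e, a z = D.j3 e ∧ b z = D.g3 e)
    (h1 : ∀ z, n z = 3 / 2 → ∃ e, c z = D.j1 e ∧ b z = D.g1 e) (u : D.W) :
    Continuous fun z => D.ev (n z) (a z) (b z) (c z) u := by
  classical
  simp only [ev_eq]
  refine continuous_if_le hn continuous_const ((D.p3 u).continuous.comp ha).continuousOn ?_
    fun z e => ?_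
  · refine (ContinuousOn.union_of_isClosed (s := {z | 5 / 4 ≤ n z ∧ n z ≤ 3 / 2})
      (t := {z | 3 / 2 ≤ n z}) (((D.p0 u).continuous.comp_continuousOn hb).congr fun z h => if_pos h.2)
      (((D.p1 u).continuous.comp hc).continuousOn.congr fun z h => ?_)
      ((isClosed_le continuous_const hn).inter (isClosed_le hn continuous_const))
      (isClosed_le continuous_const hn)).mono fun z h => (le_total (n z) (3 / 2)).imp (⟨h, ·⟩) id
    by_cases k : n z ≤ 3 / 2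
    · obtain ⟨e, a1, a2⟩ := h1 z (le_antisymm k h)
      refine (if_pos k).trans (show D.p0 u (b z) = D.p1 u (c z) from ?_)
      rw [a1, a2, c1]
    · exact if_neg k
  · obtain ⟨e', a1, a2⟩ := h3 z e
    rw [if_pos (by rw [e]; norm_num), a1, a2, c3]

end T3

theorem dec {X : Type} [TopologicalSpace X] {A : Ex X} {β : KX A.E} (h : A.Th β) (ν : KX A.E) :
    ∃ a, ν = pull A.p (pull A.s ν) + A.sm a β := by
  obtain ⟨a, e⟩ := h.ex (x := ν - pull A.p (pull A.s ν)) (by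
    unfold Ex.Rd; rw [map_sub, A.pull_sp, sub_self])
  exact ⟨a, by rw [← e]; ring⟩

theorem dec_inj {X : Type} [TopologicalSpace X] {A : Ex X} {β : KX A.E} (h : A.Th β)
    {a a' b b' : KX X} (e : pull A.p b + A.sm a β = pull A.p b' + A.sm a' β) : a = a' := by
  have k := congrArg (pull A.s) e
  rw [map_add, map_add, A.pull_sp, A.pull_sp, show pull A.s _ = 0 from h.1.sm a,
    show pull A.s _ = 0 from h.1.sm a', add_zero, add_zero] at k
  rw [k, add_right_inj] at e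
  exact h.inj e

variable {Γ Γ' : Type} [Group Γ] [TopologicalSpace Γ] [Group Γ'] [TopologicalSpace Γ']
  [CompactSpace Γ] [CompactSpace Γ']

section eqm
variable {Y : GS Γ} {V U W : LS Γ} {Y' : GS Γ'} {V' U' : LS Γ'} {φ : Γ → Γ'} {g : C(Y.Z, Y'.Z)}

theorem exists_pr (E : EqM Y V Y' V' φ g) (E' : EqM Y U Y' U' φ g) :
    ∃ F : EqM Y (V.prod U) Y' (V'.prod U') φ g,
      (∀ y a b, F.f (y, wdg (a, b)) = wdg (E.f (y, a), E'.f (y, b))) ∧ ∀ x z, (Sb Y' V').Rd x →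
        (Sb Y' U').Rd z → pull F.hm.f (xm x z) = xm (pull E.hm.f x) (pull E'.hm.f z) := by
  obtain ⟨G, hG⟩ := exists_desc
    (⟨fun z => (z.1, wdg z.2), continuous_fst.prodMk (continuous_wdg.comp continuous_snd)⟩ :
      C(Y.Z × OnePoint V.Z × OnePoint U.Z, Y.Z × OnePoint (V.Z × U.Z)))
    (fun z => let ⟨w, e⟩ := wdg_surj z.2; ⟨(z.1, w), Prod.ext rfl e⟩)
    (⟨fun z => wdg (E.f (z.1, z.2.1), E'.f (z.1, z.2.2)), continuous_wdg.comp (by fun_prop)⟩ :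
      C(Y.Z × OnePoint V.Z × OnePoint U.Z, OnePoint (V'.Z × U'.Z))) (by
    rintro ⟨y, a, b⟩ ⟨y', a', b'⟩ h
    obtain ⟨rfl, e⟩ : y = y' ∧ wdg (a, b) = wdg (a', b') := Prod.ext_iff.1 h
    have k : ∀ a b, a = ∞ ∨ b = ∞ → wdg (E.f (y, a), E'.f (y, b)) = ∞ := by
      rintro a b (rfl | rfl)
      · rw [E.hi]; rfl
      · rw [E'.hi]; exact wdg_r _
    rcases wdg_eq e with ⟨rfl, rfl⟩ | ⟨h1, h2⟩
    · rfl
    · exact (k _ _ h1).trans (k _ _ h2).symm)
  have hG : ∀ y a b, G (y, wdg (a, b)) = wdg (E.f (y, a), E'.f (y, b)) := fun y a b => hG (y, a, b)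
  refine ⟨⟨G, E.hg, fun γ y w => ?_, fun y => ?_⟩, hG, fun x z hx hz =>
    E.xm_nat E' _ (fun y w u => congrArg (pt Y' (V'.prod U') (g y)) (hG y w u)) hx hz⟩
  · obtain ⟨⟨a, b⟩, rfl⟩ := wdg_surj w
    refine (congrArg (fun w => G (_, w)) (wdg_act2 V U γ a b)).trans ((hG _ _ _).trans ?_)
    exact (congrArg₂ (fun p q => wdg (p, q)) (E.hf γ y a) (E'.hf γ y b)).trans
      ((wdg_act2 V' U' (φ γ) _ _).symm.trans (congrArg _ (hG y a b).symm))
  · exact (hG y ∞ ∞).trans (by rw [E.hi]; rfl)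

/-- over the identity -/
def h1 (E : EqM Y V Y W id (.id _)) : H1 (Sb Y V) (Sb Y W) where
  f := E.hm.f
  hp e := by obtain ⟨y, w, rfl⟩ := pt_surj e; rfl
  hs x := by
    obtain ⟨y, rfl⟩ := Y.pr_surj x
    exact congrArg (pt Y W y) (E.hi y)

/-- base change -/
def eB {Y₂ : GS Γ} (b : C(Y₂.Z, Y.Z)) (hb : ∀ γ y, b (Y₂.act γ y) = Y.act γ (b y)) (W : LS Γ) :
    EqM Y₂ W Y W id b := ⟨.snd, hb, fun _ _ _ => rfl, fun _ => rfl⟩

/-- the identity -/
abbrev eI (Y : GS Γ) (W : LS Γ) : EqM Y W Y W id (.id _) := eB (.id _) (fun _ _ => rfl) W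

theorem pull_eI (l : KS Y W) : pull (eI Y W).hm.f l = l := by
  rw [pull_congr (g := .id _) fun e => by obtain ⟨y, w, rfl⟩ := pt_surj e; rfl, pull_id]

/-- inclusion of the first factor -/
def eZ (Y : GS Γ) (V : LS Γ) (U : Rep Γ) : EqM Y V Y (V.prod U.ls) id (.id _) where
  f := ⟨fun z => wdg (z.2, ((0 : U.W) : OnePoint U.W)), continuous_wdg.comp (by fun_prop)⟩
  hg _ _ := rfl
  hf γ y w := ((wdg_act2 V U.ls γ w ((0 : U.W) : OnePoint U.W)).trans
    (congrArg (fun a : U.W => wdg (V.sph.act γ w, (a : OnePoint U.W))) (map_zero (U.ρ γ)))).symm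
  hi _ := rfl

theorem pull_eZ (U : Rep Γ) {l : KS Y V} {m : KS Y U.ls} (hl : (Sb Y V).Rd l)
    (hm : (Sb Y U.ls).Rd m) : pull (eZ Y V U).hm.f (xm l m) = (Sb Y V).sm (pull (z0 Y U) m) l := by
  let G := (eB (Y := Y.prod U.ls.sph) (Y₂ := Y) ⟨fun y => (y, ((0 : U.W) : OnePoint U.W)), by fun_prop⟩
    (fun γ y => Prod.ext rfl (congrArg OnePoint.some (map_zero (U.ρ γ)).symm)) V).hm.f
  refine (pull_pull G (smd Y V U.ls).c _ (fun e => by
    obtain ⟨y, w, rfl⟩ := pt_surj e; rfl) _).symm.trans ?_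
  refine (congrArg (pull G) ((smd Y V U.ls).c_mul hl hm)).trans ((map_mul _ _ _).trans ?_)
  exact (congrArg₂ (· * ·) (pull_pull_id G _ (fun e => by obtain ⟨y, w, rfl⟩ := pt_surj e; rfl) l)
    (pull_sq G _ (Sb Y V).p (z0 Y U) (fun e => by obtain ⟨y, w, rfl⟩ := pt_surj e; rfl) m)).trans
    (mul_comm _ _)

theorem sm_xm (a : KX Y.Q) (l : KS Y V) (m : KS Y U) :
    xm ((Sb Y V).sm a l) m = (Sb Y _).sm a (xm l m) := (smd Y V U).sm_mul a l m
theorem xm_sm (a : KX Y.Q) (l : KS Y V) (m : KS Y U) :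
    xm l ((Sb Y U).sm a m) = (Sb Y _).sm a (xm l m) := (smd Y V U).mul_sm a l m

end eqm

/-! ### the two discs -/

/-- the truncated norm -/
def nr : C(OnePoint ℂ, ℝ) :=
  OnePoint.continuousMapMk ⟨fun v => min ‖v‖ 2, by fun_prop⟩ 2 (by
    rw [coclosedCompact_eq_cocompact, ← Metric.cobounded_eq_cocompact]
    refine tendsto_const_nhds.congr' ?_
    filter_upwards [(tendsto_norm_cobounded_atTop (E := ℂ)).eventually_ge_atTop 2] with v hv
    exact (min_eq_right hv).symm)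

theorem nr_inf : nr ∞ = 2 := rfl
theorem nr_coe (v : ℂ) : nr v = min ‖v‖ 2 := rfl

/-- the folding of the sphere onto the disc -/
def dk : C(OnePoint ℂ, Cp.UD) :=
  ⟨fun v => ⟨be v / (max ‖be v‖ (2 / 5) : ℝ), mem_closedBall_zero_iff.2 (by
      have : 0 < max ‖be v‖ (2 / 5) := lt_max_of_lt_right (by norm_num)
      rw [norm_div, Complex.norm_real, Real.norm_of_nonneg this.le, div_le_one this]
      exact le_max_left _ _)⟩,
    Continuous.subtype_mk (be.continuous.div (by fun_prop) fun v =>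
      Complex.ofReal_ne_zero.2 (lt_max_of_lt_right (by norm_num)).ne') _⟩

theorem dk_inf : dk ∞ = ⟨0, by simp⟩ := Subtype.ext (zero_div _)
theorem dk_zero : dk ((0 : ℂ) : OnePoint ℂ) = ⟨0, by simp⟩ :=
  Subtype.ext (by change be _ / _ = 0; rw [be_zero, zero_div])

theorem dk_an {v : ℂ} (h1 : 1 ≤ ‖v‖) (h2 : ‖v‖ ≤ 2) : (dk v : ℂ) = an v := by
  have h0 : v ≠ 0 := norm_pos_iff.1 (by linarith)
  have p := nsq_pos v
  have n : ‖be v‖ = ‖v‖ * (1 + ‖v‖ ^ 2)⁻¹ := by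
    rw [be_coe, al_coe, norm_mul, Complex.norm_real, Real.norm_of_nonneg (inv_pos.2 p).le]
  have m : max ‖be v‖ (2 / 5) = ‖be v‖ :=
    max_eq_left (by rw [n, ← div_eq_mul_inv, le_div_iff₀ p]; nlinarith)
  change be v / (max ‖be v‖ (2 / 5) : ℝ) = _
  rw [m, n, show (an v : ℂ) = v / ‖v‖ from congrArg Subtype.val (dif_neg h0), be_coe, al_coe,
    Complex.ofReal_mul]
  exact mul_div_mul_right _ _ (Complex.ofReal_ne_zero.2 (inv_pos.2 p).ne')

/-- the phase -/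
def ph (ζ : OnePoint ℂ) : Circle := an (vl ζ)

theorem mid {ζ : OnePoint ℂ} (h1 : 1 ≤ nr ζ) (h2 : nr ζ < 2) :
    ∃ v : ℂ, ζ = v ∧ nr ζ = ‖v‖ ∧ (dk ζ : ℂ) = ph ζ := by
  induction ζ using OnePoint.rec with
  | infty => exact absurd h2 (lt_irrefl _)
  | coe v =>
    rw [nr_coe] at h1 h2 ⊢
    have k : ‖v‖ < 2 := (min_lt_iff.1 h2).resolve_right (lt_irrefl _)
    exact ⟨v, rfl, min_eq_left k.le, dk_an (le_min_iff.1 h1).1 k.le⟩

theorem ph_cont : ContinuousOn ph {ζ | 5 / 4 ≤ nr ζ ∧ nr ζ ≤ 3 / 2} :=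
  IsInducing.subtypeVal.continuousOn_iff.2
    ((continuous_subtype_val.comp dk.continuous).continuousOn.congr fun ζ h =>
      let ⟨_, _, _, e⟩ := mid (ζ := ζ) (by linarith [h.1]) (by linarith [h.2]); e.symm)

theorem nr_act (χ : Γ →* Circle) (hχ : Continuous χ) (g : Γ) (ζ : OnePoint ℂ) :
    nr ((ch χ hχ).sph.act g ζ) = nr ζ := by
  induction ζ using OnePoint.rec with
  | infty => rfl
  | coe v =>
    change min ‖(χ g : ℂ) * v‖ 2 = min ‖v‖ 2
    rw [norm_mul, Circle.norm_coe, one_mul]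

theorem dk_act (χ : Γ →* Circle) (hχ : Continuous χ) (g : Γ) (ζ : OnePoint ℂ) :
    dk ((ch χ hχ).sph.act g ζ) = (Cp.Dk χ hχ).act g (dk ζ) := Subtype.ext (by
  change be _ / (max ‖be _‖ (2 / 5) : ℝ) = χ g * (be ζ / _)
  rw [be_act, norm_mul, Circle.norm_coe, one_mul, mul_div_assoc])

end Crest.Agent.N218.D6.Lj

end
end

-- ▼ part N218/D6/Lj1
section

/-! Row 218, block D6 (helper32): the cut of `LOCA` (definitions and leaves). -/

set_option autoImplicit false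
set_option linter.unusedVariables false
set_option linter.unusedSectionVars false

open Crest.Agent.R204.K357 unitInterval Topology Filter Set OnePoint

noncomputable section

namespace Crest.Agent.N218.D6.Lj

open K

variable {Γ Γ' : Type} [Group Γ] [TopologicalSpace Γ] [Group Γ'] [TopologicalSpace Γ']
  [CompactSpace Γ] [CompactSpace Γ'] (d : LD Γ Γ')

/-- the external product for representations -/
def xr {Y : GS Γ} {V U : Rep Γ} (l : KS Y V.ls) (m : KS Y U.ls) : KS Y (V.prod U).ls :=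
  xm (V := V.ls) (U := U.ls) l m
theorem ut_xr {Y : GS Γ} {V U : Rep Γ} {l : KS Y V.ls} {m : KS Y U.ls} (a : UT Y V.ls l)
    (b : UT Y U.ls m) : UT Y (V.prod U).ls (xr l m) :=
  show UT Y (V.ls.prod U.ls) (xm (V := V.ls) (U := U.ls) l m) from UT.xm a b

/-- the disc bundle -/
abbrev YD : GS Γ := d.Y.prod (Cp.Dk d.χ d.hχ)
/-- the boundary of the disc -/
def jD : C(d.YC.Z, (YD d).Z) :=
  ⟨fun z : d.Y.Z × Circle => (z.1, (⟨z.2, mem_closedBall_zero_iff.2 (Circle.norm_coe _).le⟩ : Cp.UD)),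
    continuous_fst.prodMk (Continuous.subtype_mk (continuous_subtype_val.comp continuous_snd) _)⟩
/-- inclusion of sphere bundles -/
def jE (M : LS Γ) : EqM d.YC M (YD d) M id (jD d) := eB (jD d) (fun _ _ => rfl) M
/-- base change to the disc bundle -/
def bD (M : LS Γ) : EqM (YD d) M d.Y M id .fst := eB (Y₂ := YD d) .fst (fun _ _ => rfl) M
/-- a gluing map -/
def gE {M : LS Γ} {g : d.YC.Z × M.Z → OnePoint d.T.W} (p : Pm d.YC M d.T.ls g) :
    EqM d.YC M d.Y d.T.ls id .fst := ⟨p.eqm.f, fun _ _ => rfl, p.eqm.hf, p.eqm.hi⟩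
/-- restriction of a class to the small group -/
def rs {V : Rep Γ} (l : KS d.Y V.ls) : KS d.Y' (d.rs V).ls :=
  pull (Eqv.eqm (Y := d.Y) (Y' := d.Y') d.hφ (g := .id _) (fun _ _ => rfl) V.ls).hm.f l
/-- the fixed part -/
abbrev N : Rep Γ := d.W0.prod d.R
/-- the line -/
abbrev L : LS Γ := ch d.χ d.hχ
/-- the line for the small group -/
abbrev L' : LS Γ' := LS.triv Γ' ℂ
/-- inclusion of the fixed part -/
def I1 (n : (N d).W) : d.M1.W := ((n.1, 0), n.2)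
/-- inclusion of the fixed part -/
def I3 (n : (N d).W) : d.M3.W := ((n.1, 0), n.2)
/-- the cylinder -/
def hz (x : (d.Y.Z × OnePoint ℂ) × (d.U.W × d.S.W)) : OnePoint d.T.W :=
  d.hh x.1.1 (ph x.1.2) (tt (nr x.1.2)) x.2.1 x.2.2

/-- the Thom classes -/
structure Cl where
  W0 : KS d.Y d.W0.ls
  W1 : KS d.Y d.W1.ls
  Z0 : KS d.Y d.Z0.ls
  Z1 : KS d.Y d.Z1.ls
  U : KS d.Y d.U.ls
  q : KS d.Y (L d)
  uW0 : UT d.Y d.W0.ls W0
  uW1 : UT d.Y d.W1.ls W1
  uZ0 : UT d.Y d.Z0.ls Z0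
  uZ1 : UT d.Y d.Z1.ls Z1
  uU : UT d.Y d.U.ls U
  uq : UT d.Y (L d) q

variable {d}
namespace Cl
variable (c : Cl d)
def W : KS d.Y d.W.ls := xr c.W0 c.W1
def Z : KS d.Y d.Z.ls := xr c.Z0 c.Z1
def R : KS d.Y d.R.ls := xr c.W c.U
def T : KS d.Y d.T.ls := xr c.Z c.R
def M1 : KS d.Y d.M1.ls := xr c.W c.R
def M3 : KS d.Y d.M3.ls := xr (xr c.W0 c.Z1) c.R
def N : KS d.Y (N d).ls := xr c.W0 c.R
def S : KS d.Y d.S.ls := xr c.W c.Z
theorem uW : UT d.Y d.W.ls c.W := ut_xr c.uW0 c.uW1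
theorem uZ : UT d.Y d.Z.ls c.Z := ut_xr c.uZ0 c.uZ1
theorem uR : UT d.Y d.R.ls c.R := ut_xr c.uW c.uU
theorem uT : UT d.Y d.T.ls c.T := ut_xr c.uZ c.uR
theorem uM1 : UT d.Y d.M1.ls c.M1 := ut_xr c.uW c.uR
theorem uM3 : UT d.Y d.M3.ls c.M3 := ut_xr (ut_xr c.uW0 c.uZ1) c.uR
theorem uN : UT d.Y (Lj.N d).ls c.N := ut_xr c.uW0 c.uR
theorem uS : UT d.Y d.S.ls c.S := ut_xr c.uW c.uZ
/-- Euler classes -/
def eW : KX d.Y.Q := pull (z0 d.Y d.W1) c.W1
def eZ : KX d.Y.Q := pull (z0 d.Y d.Z1) c.Z1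
def eU : KX d.Y.Q := pull (z0 d.Y d.U) c.U
def eq : KX d.Y.Q := pull (z0 d.Y (Rep.ch d.χ d.hχ)) c.q
end Cl

theorem ut_rs {V : Rep Γ} {l : KS d.Y V.ls} (u : UT d.Y V.ls l) : UT d.Y' (d.rs V).ls (rs d l) :=
  u.pull d.hφ (Y' := d.Y') (g := .id _) (fun _ _ => rfl) (Eqv.mp d.hφ _ _)

/-- the trivialisation of the line over the small group -/
def bL (h : d.Ok) : EqM d.Y' (L' (Γ' := Γ')) d.Y (L d) d.φ (.id _) where
  f := .snd
  hg _ _ := rfl
  hf g y w := by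
    induction w using OnePoint.rec with
    | infty => rfl
    | coe w =>
      refine congrArg OnePoint.some (show w = (L d).act (d.φ g) w from ?_)
      exact ((ch_act _ _ _ w).trans (by rw [(h.ker _).2 ⟨g, rfl⟩]; exact one_mul (show ℂ from w))).symm
  hi _ := rfl

variable (H : PMS) (h : d.Ok)

/-- the gluing data -/
def D3 : T3 (Sb d.Y d.T.ls).E (Sb (YD d) d.M1.ls).E (Sb (YD d) d.M3.ls).E (Sb d.YC d.M1.ls).E
    (Sb d.YC d.M3.ls).E where
  j1 := (jE d _).hm.f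
  g1 := (gE d (H d h).1).hm.f
  j3 := (jE d _).hm.f
  g3 := (gE d (H d h).2.1).hm.f

/-- evaluation over a point of the sphere -/
def ev3 (y : d.Y.Z) (ζ : OnePoint ℂ) (a : OnePoint d.M3.W) (b : OnePoint d.T.W)
    (c : OnePoint d.M1.W) : (D3 H h).W →ₐ[ℂ] ℂ :=
  (D3 H h).ev (nr ζ) (pt (YD d) d.M3.ls (y, dk ζ) a) (pt d.Y d.T.ls y b)
    (pt (YD d) d.M1.ls (y, dk ζ) c)
/-- evaluation on the fixed part -/
def evN (y : d.Y.Z) (ζ : OnePoint ℂ) (n : OnePoint (N d).W) : (D3 H h).W →ₐ[ℂ] ℂ :=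
  ev3 H h y ζ (OnePoint.map (I3 d) n) (opx d.g1 ((y, ph ζ), OnePoint.map (I1 d) n))
    (OnePoint.map (I1 d) n)
/-- evaluation on the source -/
def evS (y : d.Y.Z) (ζ : OnePoint ℂ) (e : OnePoint (d.U.W × d.S.W)) : (D3 H h).W →ₐ[ℂ] ℂ :=
  ev3 H h y ζ (opx (fun x => (d.b3 x : OnePoint d.M3.W)) (y, e)) (opx (hz d) ((y, ζ), e))
    (opx (fun x => (d.b1 x : OnePoint d.M1.W)) (y, e))

/-- the map on the fixed part -/
def IsN (ι : (D3 H h).W →ₐ[ℂ] C((smd d.Y (N d).ls (L d)).P.E, ℂ)) : Prop :=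
  ∀ u y ζ n, ι u (pt (d.Y.prod (L d).sph) (N d).ls (y, ζ) n) = evN H h y ζ n u
/-- the map on the source -/
def IsS (ι : (D3 H h).W →ₐ[ℂ] C((smd d.Y' (d.rs d.S).ls L').P.E, ℂ)) : Prop :=
  ∀ u y ζ (v : OnePoint d.S.W), ι u (pt (d.Y'.prod L'.sph) (d.rs d.S).ls (y, ζ) v) =
    evS H h y ζ (wdg (((0 : d.U.W) : OnePoint d.U.W), v)) u

/-- the patched class -/
structure Pat (c : Cl d) (w : KC (D3 H h).W) (κ1 κ3 : KX d.Y.Q) : Prop where
  p0 : KA (D3 H h).p0 w = c.T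
  p1 : KA (D3 H h).p1 w = pull (bD d d.M1.ls).hm.f ((Sb d.Y d.M1.ls).sm κ1 c.M1)
  p3 : KA (D3 H h).p3 w = pull (bD d d.M3.ls).hm.f ((Sb d.Y d.M3.ls).sm κ3 c.M3)
  /-- `w` is reduced -/
  rd : ∀ (B : Type) [TopologicalSpace B] (f : (D3 H h).W →ₐ[ℂ] C(B, ℂ)),
    (∀ b, ∃ y ζ, ∀ u, f u b = ev3 H h y ζ ∞ ∞ ∞ u) → KA f w = 0
  k3 : ∀ G : EqM d.Y' (d.rs d.W0).ls d.Y d.Z0.ls d.φ (.id _),
    (∀ y (v : d.W0.W), G.f (y, (v : OnePoint d.W0.W)) = d.γ0 ((y, 1), v)) →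
    pull G.hm.f c.Z0 = (Sb d.Y' _).sm (pull d.π κ3) (rs d c.W0)

set_option hygiene false in
/-- quantify -/
local macro "∀L " t:term : term =>
  `(∀ {Γ Γ' : Type} [Group Γ] [TopologicalSpace Γ] [CompactSpace Γ] [Group Γ'] [TopologicalSpace Γ']
    [CompactSpace Γ'] (d : LD Γ Γ') (H : PMS) (h : d.Ok), $t)

/-- leaf GN -/
def GN : Prop := ∀L ∃ ι, IsN H h ι
/-- leaf GS -/
def GS' : Prop := ∀L
  (∀ g y ζ e u, evS H h (d.Y.act (d.φ g) y) ζ ((d.U.prod d.S).ls.sph.act (d.φ g) e) u =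
    evS H h y ζ e u) ∧
  ∀ (Q : Type) [TopologicalSpace Q] [CompactSpace Q] (y : Q → d.Y.Z) (ζ : Q → OnePoint ℂ)
    (η : Q → OnePoint d.U.W), Continuous y → Continuous ζ → Continuous η →
    (∀ q, 5 / 4 ≤ nr (ζ q) → nr (ζ q) ≤ 3 / 2 → η q ≠ ∞) → ∀ u,
    Continuous fun x : Q × OnePoint d.S.W => evS H h (y x.1) (ζ x.1) (wdg (η x.1, x.2)) u
/-- leaf PAT -/
def PAT : Prop := ∀L Function.Surjective (pull d.π) → ∀ c : Cl d, ∃ w κ1 κ3, Pat H h c w κ1 κ3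
/-- leaf POL -/
def POL : Prop := ∀L ∀ (c : Cl d) w κ1 κ3 ι, Pat H h c w κ1 κ3 → IsN H h ι → ∃ x,
  x * c.eq = κ3 * c.eZ - κ1 * c.eW ∧ KA ι w = (smd d.Y (N d).ls (L d)).P.sm
    (pull (Sb d.Y (L d)).p (κ1 * c.eW) + (Sb d.Y (L d)).sm x c.q) (pull (smd d.Y (N d).ls (L d)).q c.N)
/-- the degree on the source -/
def Dg (c : Cl d) (ω : KX (smd d.Y' (d.rs d.S).ls L').P.E) (a : KX d.Y'.Q) : Prop :=
  ∃ al, ω = (smd d.Y' (d.rs d.S).ls L').P.sm
    (pull (Sb d.Y' L').p al + (Sb d.Y' L').sm a (pull (bL h).hm.f c.q))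
    (pull (smd d.Y' (d.rs d.S).ls L').q (rs d c.S))
/-- leaf ZER -/
def ZER : Prop := ∀L d.Uni → ∀ (c : Cl d) w κ1 κ3 ι ι' x b a, Pat H h c w κ1 κ3 → IsN H h ι →
  IsS H h ι' → KA ι w = (smd d.Y (N d).ls (L d)).P.sm
    (pull (Sb d.Y (L d)).p b + (Sb d.Y (L d)).sm x c.q) (pull (smd d.Y (N d).ls (L d)).q c.N) →
  Dg h c (KA ι' w) a → ∃ κw, IsUnit (pull d.π κ3) ∧ IsUnit κw ∧
    pull d.π c.eZ * pull d.π c.eW * a = pull d.π c.eU * pull d.π x * κw * pull d.π c.eW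
/-- leaf END -/
def END : Prop := ∀L ∀ (c : Cl d) w κ1 κ3 ι' a, Pat H h c w κ1 κ3 → IsS H h ι' →
  Dg h c (KA ι' w) a → d.Th.Ok ∧ ∃ lT lS, UT d.Ym (d.rs d.T).ls lT ∧ UT d.Ym d.SC lS ∧
    d.Th.pb lT = (Sb _ _).sm (pull (d.ρ h) a) lS

end Crest.Agent.N218.D6.Lj

end
end

-- ▼ part N218/D6/Lj2
section

/-! Row 218, block D6 (helper32): assembly of `LOCA` from its leaves. -/

set_option autoImplicit false
set_option linter.unusedVariables false
set_option linter.unusedSectionVars false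

open Crest.Agent.R204.K357 unitInterval Topology Filter Set OnePoint

noncomputable section

namespace Crest.Agent.N218.D6.Lj

open K

variable {Γ Γ' : Type} [Group Γ] [TopologicalSpace Γ] [Group Γ'] [TopologicalSpace Γ']
  [CompactSpace Γ] [CompactSpace Γ'] {d : LD Γ Γ'}

/-- the line is trivial for the small group -/
def iL (h : d.Ok) : (L' (Γ' := Γ')).Iso ((L d).res d.φ d.hφ) :=
  ⟨Homeomorph.refl ℂ, fun g w => ((ch_act d.χ d.hχ (d.φ g) w).trans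
    (by rw [(h.ker _).2 ⟨g, rfl⟩]; exact one_mul (show ℂ from w))).symm⟩

theorem ut_bL (h : d.Ok) {l : KS d.Y (L d)} (u : UT d.Y (L d) l) :
    UT d.Y' L' (pull (bL h).hm.f l) := by
  have e : Eqv (Y := d.Y) (Y' := d.Y') d.φ (.id _) := fun _ _ => rfl
  have a := (u.pull d.hφ e (Eqv.mp d.hφ e _)).iso (iL h) ((iL h).mp _)
  rwa [pull_pull _ _ (bL h).hm.f fun e => by
    obtain ⟨y, w, rfl⟩ := pt_surj e
    induction w using OnePoint.rec <;> rfl] at a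

theorem act_L (g : Γ') (ζ : OnePoint ℂ) : (L' (Γ' := Γ')).sph.act g ζ = ζ := by
  induction ζ using OnePoint.rec <;> rfl

theorem act_0 (g : Γ') (v : OnePoint d.S.W) :
    wdg (((0 : d.U.W) : OnePoint d.U.W), (show OnePoint d.S.W from (d.rs d.S).ls.sph.act g v)) =
      (d.U.prod d.S).ls.sph.act (d.φ g) (wdg (((0 : d.U.W) : OnePoint d.U.W), v)) := by
  induction v using OnePoint.rec with
  | infty => rfl
  | coe v => exact congrArg OnePoint.some (Prod.ext (map_zero (d.U.ρ (d.φ g))).symm rfl)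

theorem gs0 (gs : GS') (H : PMS) (h : d.Ok) : ∃ ι, IsS H h ι := by
  obtain ⟨a, b⟩ := gs d H h
  have c := b (d.Y.Z × OnePoint ℂ) Prod.fst Prod.snd (fun _ => ((0 : d.U.W) : OnePoint d.U.W))
    continuous_fst continuous_snd continuous_const fun _ _ _ => coe_ne_infty _
  let ev : ((d.Y'.prod L'.sph).prod (d.rs d.S).ls.sph).Z → (D3 H h).W →ₐ[ℂ] ℂ :=
    fun z : (d.Y.Z × OnePoint ℂ) × OnePoint d.S.W =>
      evS H h z.1.1 z.1.2 (wdg (((0 : d.U.W) : OnePoint d.U.W), z.2))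
  have i : ∀ g z u, ev (((d.Y'.prod L'.sph).prod (d.rs d.S).ls.sph).act g z) u = ev z u :=
    fun g z u => (congrArg₂ (fun a b => evS H h (d.Y.act (d.φ g) z.1.1) a b u) (act_L g z.1.2)
      (act_0 g z.2)).trans (a g z.1.1 z.1.2 _ u)
  exact ⟨Orb.mkH _ ev c i, fun u y ζ v => rfl⟩

theorem ex_dg {H : PMS} {h : d.Ok} {c : Cl d} {w κ1 κ3 ι} (P : Pat H h c w κ1 κ3)
    (hι : IsS H h ι) : ∃ a, Dg h c (KA ι w) a := by
  have rd : (smd d.Y' (d.rs d.S).ls L').P.Rd (KA ι w) :=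
    (Orb.KA_comp ι (cR (smd d.Y' (d.rs d.S).ls L').P.s) w).trans (P.rd _ _ fun b => by
      obtain ⟨y, ζ, rfl⟩ := pt_surj b
      exact ⟨y, ζ, fun u => hι u y ζ ∞⟩)
  obtain ⟨ν, e⟩ := ((ut_rs c.uS).thq L').ex rd
  obtain ⟨a, k⟩ := dec (ut_bL h c.uq).th ν
  exact ⟨a, _, k ▸ e⟩

/-- **assembly** -/
theorem loca0 (gn : GN) (gs : GS') (pat : PAT) (pol : POL) (zer : ZER) (en : END) (H : PMS) :
    LOCA := by
  intro Γ Γ' _ _ _ _ _ _ d h hU hs lW0 lW1 lZ0 lZ1 lU lq u1 u2 u3 u4 u5 u6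
  let c : Cl d := ⟨lW0, lW1, lZ0, lZ1, lU, lq, u1, u2, u3, u4, u5, u6⟩
  obtain ⟨w, κ1, κ3, P⟩ := pat d H h hs c
  obtain ⟨ι, hι⟩ := gn d H h
  obtain ⟨ι', hι'⟩ := gs0 gs H h
  obtain ⟨x, hx, hν⟩ := pol d H h c w κ1 κ3 ι P hι
  obtain ⟨a, ha⟩ := ex_dg P hι'
  obtain ⟨κw, k1, k2, k3⟩ := zer d H h hU c w κ1 κ3 ι ι' x _ a P hι hι' hν ha
  exact ⟨x, κ3, κ1, κw, a, k1, k2, hx, k3, en d H h c w κ1 κ3 ι' a P hι' ha⟩

end Crest.Agent.N218.D6.Lj

end
end

-- ▼ part N218/D6/LjGn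
section

/-! Row 218, block D6 (helper56): the map on the fixed part (leaf GN). -/

set_option autoImplicit false
set_option linter.unusedVariables false
set_option linter.unusedSectionVars false
set_option maxHeartbeats 400000

open Crest.Agent.R204.K357 unitInterval Topology Filter Set OnePoint

noncomputable section

namespace Crest.Agent.N218.D6.Lj

open K

namespace Gn

theorem map_ct {A B : Type} [TopologicalSpace A] [TopologicalSpace B] [T2Space A] [T2Space B]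
    {f : A → B} {r : B → A} (hf : Continuous f) (hr : Continuous r) (e : ∀ a, r (f a) = a) :
    Continuous (OnePoint.map f) :=
  OnePoint.continuous_map hf (by
    rw [coclosedCompact_eq_cocompact, coclosedCompact_eq_cocompact]
    exact (Function.LeftInverse.isClosedEmbedding e hr hf).tendsto_cocompact)

variable {Γ Γ' : Type} [Group Γ] [TopologicalSpace Γ] [Group Γ'] [TopologicalSpace Γ']
  [CompactSpace Γ] [CompactSpace Γ'] {d : LD Γ Γ'}

theorem I1_ct : Continuous (OnePoint.map (I1 d)) :=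
  map_ct (r := fun m : d.M1.W => ((m.1.1, m.2) : (N d).W))
    ((continuous_fst.prodMk continuous_const).prodMk continuous_snd)
    (continuous_fst.fst.prodMk continuous_snd) fun _ => rfl
theorem I3_ct : Continuous (OnePoint.map (I3 d)) :=
  map_ct (r := fun m : d.M3.W => ((m.1.1, m.2) : (N d).W))
    ((continuous_fst.prodMk continuous_const).prodMk continuous_snd)
    (continuous_fst.fst.prodMk continuous_snd) fun _ => rfl

theorem I1_act (g : Γ) (n : OnePoint (N d).W) : OnePoint.map (I1 d) ((N d).ls.sph.act g n) =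
    d.M1.ls.sph.act g (OnePoint.map (I1 d) n) := by
  induction n using OnePoint.rec with
  | infty => rfl
  | coe n =>
    exact congrArg OnePoint.some (Prod.ext (Prod.ext rfl (map_zero (d.W1.ρ g)).symm) rfl)
theorem I3_act (g : Γ) (n : OnePoint (N d).W) : OnePoint.map (I3 d) ((N d).ls.sph.act g n) =
    d.M3.ls.sph.act g (OnePoint.map (I3 d) n) := by
  induction n using OnePoint.rec with
  | infty => rfl
  | coe n =>
    exact congrArg OnePoint.some (Prod.ext (Prod.ext rfl (map_zero (d.Z1.ρ g)).symm) rfl)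

theorem g13 (h : d.Ok) (p : d.Y.Z × Circle) (n : OnePoint (N d).W) :
    opx d.g1 (p, OnePoint.map (I1 d) n) = opx d.g3 (p, OnePoint.map (I3 d) n) := by
  induction n using OnePoint.rec with
  | infty => rfl
  | coe n => exact congrArg (fun a => wdg (a, (n.2 : OnePoint d.R.W))) (h.e0 p n.1)

theorem dk_jD (y : d.Y.Z) {ζ : OnePoint ℂ} (h1 : 1 ≤ nr ζ) (h2 : nr ζ < 2) :
    ((y, dk ζ) : (YD d).Z) = jD d (y, ph ζ) :=
  let ⟨_, _, _, e⟩ := mid h1 h2; Prod.ext rfl (Subtype.ext e)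

theorem ph_act (g : Γ) {ζ : OnePoint ℂ} (h1 : 1 ≤ nr ζ) (h2 : nr ζ < 2) :
    ph ((L d).sph.act g ζ) = d.χ g * ph ζ := by
  obtain ⟨_, _, _, e⟩ := mid h1 h2
  obtain ⟨_, _, _, e'⟩ := mid (ζ := (L d).sph.act g ζ) ((nr_act _ _ g ζ).symm ▸ h1)
    ((nr_act _ _ g ζ).symm ▸ h2)
  refine Circle.ext (e'.symm.trans ((congrArg Subtype.val (dk_act _ _ g ζ)).trans ?_))
  exact congrArg (fun a : ℂ => (d.χ g : ℂ) * a) e

variable (H : PMS) (h : d.Ok)

theorem ev_ct (u : (D3 H h).W) : Continuous fun z : (d.Y.Z × OnePoint ℂ) × OnePoint (N d).W =>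
    evN H h z.1.1 z.1.2 z.2 u := by
  have p := (H d h).1
  have c : Continuous fun z : (d.Y.Z × OnePoint ℂ) × OnePoint (N d).W =>
      ((z.1.1, dk z.1.2) : (YD d).Z) :=
    continuous_fst.fst.prodMk (dk.continuous.comp continuous_fst.snd)
  refine (D3 H h).ev_cont (nr.continuous.comp continuous_fst.snd)
    (cont_pt.comp (c.prodMk (I3_ct.comp continuous_snd))) ?_
    (cont_pt.comp (c.prodMk (I1_ct.comp continuous_snd))) (fun z e => ?_) (fun z e => ?_) u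
  · exact cont_pt.comp_continuousOn (continuous_fst.fst.continuousOn.prodMk
      (p.eqm.f.continuous.comp_continuousOn ((continuous_fst.fst.continuousOn.prodMk
        (ph_cont.comp continuous_fst.snd.continuousOn fun _ a => a)).prodMk
          (I1_ct.comp continuous_snd).continuousOn)))
  · have e' : nr z.1.2 = 5 / 4 := e
    exact ⟨pt d.YC d.M3.ls (z.1.1, ph z.1.2) (OnePoint.map (I3 d) z.2),
      congrArg (fun a => pt (YD d) d.M3.ls a _) (dk_jD z.1.1 (by linarith) (by linarith)),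
      congrArg (pt d.Y d.T.ls z.1.1) (g13 h _ _)⟩
  · have e' : nr z.1.2 = 3 / 2 := e
    exact ⟨pt d.YC d.M1.ls (z.1.1, ph z.1.2) (OnePoint.map (I1 d) z.2),
      congrArg (fun a => pt (YD d) d.M1.ls a _) (dk_jD z.1.1 (by linarith) (by linarith)), rfl⟩

theorem ev_act (g : Γ) (y : d.Y.Z) (ζ : OnePoint ℂ) (n : OnePoint (N d).W) (u : (D3 H h).W) :
    evN H h (d.Y.act g y) ((L d).sph.act g ζ) ((N d).ls.sph.act g n) u = evN H h y ζ n u := by
  have a : nr ((L d).sph.act g ζ) = nr ζ := nr_act _ _ g ζ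
  have b : ((d.Y.act g y, dk ((L d).sph.act g ζ)) : (YD d).Z) = (YD d).act g (y, dk ζ) :=
    Prod.ext rfl (dk_act _ _ g ζ)
  simp only [evN, ev3, T3.ev_eq, a, b, I1_act, I3_act]
  split_ifs with h1 h2
  · exact congrArg _ (pt_act (Y := YD d) (M := d.M3.ls) g (y, dk ζ) _)
  · rw [ph_act g (by linarith) (by linarith)]
    refine congrArg _ (Eq.trans (congrArg _ ?_) (pt_act g y _))
    exact (H d h).1.eqm.hf g (y, ph ζ) (OnePoint.map (I1 d) n)
  · exact congrArg _ (pt_act (Y := YD d) (M := d.M1.ls) g (y, dk ζ) _)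

end Gn
open Gn

/-- **leaf GN** -/
theorem gn : GN := fun d H h =>
  ⟨Orb.mkH ((d.Y.prod (L d).sph).prod (N d).ls.sph) (fun z => evN H h z.1.1 z.1.2 z.2)
    (ev_ct H h) fun g z u => ev_act H h g z.1.1 z.1.2 z.2 u, fun _ _ _ _ => rfl⟩

end Crest.Agent.N218.D6.Lj

end
end

-- ▼ part N218/D6/LjGs
section

/-! Row 218, block D6 (helper21): invariance and continuity of the evaluation on the source. -/

set_option autoImplicit false
set_option linter.unusedVariables false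
set_option linter.unusedSectionVars false

open unitInterval Topology Filter Set OnePoint

noncomputable section

namespace Crest.Agent.N218.D6.Lj

open K

theorem gs : GS' := by
  intro Γ Γ' _ _ _ _ _ _ d H h
  obtain ⟨-, -, p1, p3, e1, e0, eq, ct⟩ := id (H d h)
  refine ⟨fun g y ζ e u => ?_, fun Q _ _ y ζ η cy cζ cη hη u => ?_⟩
  · have a : ∀ (M : LS Γ) (w : OnePoint M.Z), pt (YD d) M (d.Y.act (d.φ g) y, dk ζ)
        (M.sph.act (d.φ g) w) = pt (YD d) M (y, dk ζ) w := fun M w => by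
      refine Eq.trans (congrArg (fun z => pt (YD d) M (_, z) _) (Subtype.ext ?_))
        (pt_act (Y := YD d) (d.φ g) (y, dk ζ) w)
      change _ = (d.χ (d.φ g) : ℂ) * _
      rw [(h.ker _).2 ⟨g, rfl⟩, Circle.coe_one, one_mul]
    refine congrArg (· u) (congr (congr (congrArg ((D3 H h).ev _)
      (Eq.trans (congrArg _ ?_) (a _ _))) (Eq.trans (congrArg _ ?_) (pt_act (d.φ g) y _)))
      (Eq.trans (congrArg _ ?_) (a _ _))) <;> induction e using OnePoint.rec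
    exacts [rfl, p3.eq g y _, rfl, eq g y (ph ζ) (tt (nr ζ)) _ _, rfl, p1.eq g y _]
  have cw : Continuous fun x : Q × OnePoint d.S.W => (y x.1, wdg (η x.1, x.2)) :=
    (cy.comp continuous_fst).prodMk (continuous_wdg.comp (by fun_prop))
  have cd : Continuous fun x : Q × OnePoint d.S.W => (y x.1, dk (ζ x.1)) := by fun_prop
  have md : ∀ ζ, 1 ≤ nr ζ → nr ζ < 2 → ∀ y, (y, dk ζ) = jD d (y, ph ζ) := fun ζ a b y =>
    let ⟨_, _, _, e⟩ := mid a b; Prod.ext rfl (Subtype.ext e)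
  refine (D3 H h).ev_cont (n := fun x : Q × OnePoint d.S.W => nr (ζ x.1)) (by fun_prop)
    ((cont_pt (Y := YD d) (M := d.M3.ls)).comp (cd.prodMk ((continuous_opx p3.ct p3.pr).comp cw))) ?_
    ((cont_pt (Y := YD d) (M := d.M1.ls)).comp (cd.prodMk ((continuous_opx p1.ct p1.pr).comp cw)))
    (fun z e => ⟨pt d.YC d.M3.ls (y z.1, ph (ζ z.1)) (opx (fun x => (d.b3 x : OnePoint d.M3.W))
      (y z.1, wdg (η z.1, z.2))), congrArg (pt (YD d) d.M3.ls · _)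
      (md _ (by linarith) (by linarith) _), congrArg (pt d.Y d.T.ls _) ?_⟩)
    (fun z e => ⟨pt d.YC d.M1.ls (y z.1, ph (ζ z.1)) (opx (fun x => (d.b1 x : OnePoint d.M1.W))
      (y z.1, wdg (η z.1, z.2))), congrArg (pt (YD d) d.M1.ls · _)
      (md _ (by linarith) (by linarith) _), congrArg (pt d.Y d.T.ls _) ?_⟩) u
  · let P := {q : Q // 5 / 4 ≤ nr (ζ q) ∧ nr (ζ q) ≤ 3 / 2}
    have cn : Continuous fun q => nr (ζ q) := by fun_prop
    have : CompactSpace P := isCompact_iff_compactSpace.1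
      ((isClosed_le continuous_const cn).inter (isClosed_le cn continuous_const)).isCompact
    have v : ∀ q : P, ((vl (η q.1) : d.U.W) : OnePoint d.U.W) = η q.1 := fun q => by
      have := hη q.1 q.2.1 q.2.2
      induction e : η q.1 using OnePoint.rec with
      | infty => exact absurd e this
      | coe a => rfl
    obtain ⟨c, p⟩ := ct P ⟨fun q => y q.1, cy.comp continuous_subtype_val⟩
      ⟨fun q => ph (ζ q.1), ph_cont.comp_continuous (cζ.comp continuous_subtype_val) fun q => q.2⟩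
      ⟨fun q => tt (nr (ζ q.1)), Continuous.comp (g := fun q => tt (nr (ζ q)))
        (by unfold tt; fun_prop) continuous_subtype_val⟩
      ⟨fun q => vl (η q.1), isOpenEmbedding_coe.isInducing.continuous_iff.2
        ((cη.comp continuous_subtype_val).congr fun q => (v q).symm)⟩
    rw [continuousOn_iff_continuous_domRestrict]
    refine ((cont_pt (Y := d.Y) (M := d.T.ls)).comp ((cy.comp continuous_subtype_val.fst).prodMk
      ((continuous_opx c p).comp (f := fun z => ((⟨z.1.1, z.2⟩ : P), z.1.2))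
        ((continuous_subtype_val.fst.subtype_mk _).prodMk continuous_subtype_val.snd)))).congr ?_
    rintro ⟨⟨q, w⟩, m⟩
    refine congrArg (pt d.Y d.T.ls _) ?_
    change _ = opx (hz d) (_, wdg (η q, w))
    rw [← v ⟨q, m⟩]
    induction w using OnePoint.rec <;> rfl
  · change opx (hz d) (_, wdg (η z.1, z.2)) = opx d.g3 (_, opx _ (_, wdg (η z.1, z.2)))
    induction wdg (η z.1, z.2) using OnePoint.rec with
    | infty => rfl
    | coe w => exact (congrArg (d.hh _ _ · _ _) (by rw [e]; norm_num [tt])).trans (e0 _ _ w.1 w.2)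
  · change opx (hz d) (_, wdg (η z.1, z.2)) = opx d.g1 (_, opx _ (_, wdg (η z.1, z.2)))
    induction wdg (η z.1, z.2) using OnePoint.rec with
    | infty => rfl
    | coe w => exact (congrArg (d.hh _ _ · _ _) (by rw [e]; norm_num [tt])).trans (e1 _ _ w.1 w.2)

end Crest.Agent.N218.D6.Lj

end
end

-- ▼ part N218/D6/LjPat2
section

/-! Row 218, block D6 (helper39): leaf PAT. -/

set_option autoImplicit false
set_option linter.unusedVariables false
set_option linter.unusedSectionVars false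

open Crest.Agent.R204.K357 unitInterval Topology Filter Set OnePoint

noncomputable section

namespace Crest.Agent.N218.D6.Lj

open K

namespace P2

variable {Γ Γ' : Type} [Group Γ] [TopologicalSpace Γ] [Group Γ'] [TopologicalSpace Γ']
  [CompactSpace Γ] [CompactSpace Γ'] {d : LD Γ Γ'}

/-- base change to the circle bundle -/
def bC (d : LD Γ Γ') (M : LS Γ) : EqM d.YC M d.Y M id .fst := eB (Y₂ := d.YC) .fst (fun _ _ => rfl) M

/-- the slice -/
def sg (h : d.Ok) (M : LS Γ) : EqM d.Y' (M.res d.φ d.hφ) d.YC M d.φ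
    ⟨fun y : d.Y.Z => ((y, 1) : d.Y.Z × Circle), by fun_prop⟩ where
  f := .snd
  hg g y := Prod.ext rfl (show (1 : Circle) = d.χ (d.φ g) * 1 by rw [(h.ker _).2 ⟨g, rfl⟩, one_mul])
  hf g y w := by induction w using OnePoint.rec <;> rfl
  hi _ := rfl

theorem sg_bij (h : d.Ok) (M : LS Γ) : Function.Bijective (sg h M).b := by
  refine ⟨fun a b e => ?_, fun a => ?_⟩
  · obtain ⟨y, rfl⟩ := d.Y'.pr_surj a
    obtain ⟨y', rfl⟩ := d.Y'.pr_surj b
    obtain ⟨g, e⟩ := d.YC.pr_eq.1 (show d.YC.pr (y, (1 : Circle)) = d.YC.pr (y', (1 : Circle)) from e)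
    obtain ⟨g', rfl⟩ := (h.ker g).1 ((mul_one _).symm.trans (congrArg Prod.snd e))
    exact d.Y'.pr_eq.2 ⟨g', congrArg Prod.fst e⟩
  · obtain ⟨⟨y, θ⟩, rfl⟩ := d.YC.pr_surj a
    obtain ⟨g, e⟩ := h.sj (show Circle from θ)⁻¹
    have k : d.YC.act g (y, θ) = (d.Y.act g y, (1 : Circle)) :=
      Prod.ext rfl ((congrArg (· * (show Circle from θ)) e).trans (inv_mul_cancel _))
    exact ⟨d.Y'.pr (d.Y.act g y), (d.YC.pr_eq.2 ⟨g, k⟩).symm⟩

theorem lift (h : d.Ok) (s : Function.Surjective (pull d.π)) (M : LS Γ) (k : KX d.YC.Q) :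
    ∃ κ, pull (bC d M).b κ = k ∧ pull d.π κ = pull (sg h M).b k := by
  obtain ⟨κ, e⟩ := s (pull (sg h M).b k)
  refine ⟨κ, (pull_bij _ (sg_bij h M)).1 (Eq.trans (pull_pull _ _ d.π (fun x => ?_) κ) e), e⟩
  obtain ⟨y, rfl⟩ := d.Y'.pr_surj x; rfl

theorem th_bC {M : LS Γ} {l : KS d.Y M} (u : UT d.Y M l) : (Sb d.YC M).Th (pull (bC d M).hm.f l) :=
  u.base (Y' := d.YC) .fst (fun _ _ => rfl) fun _ _ => rfl

theorem j_bD (M : LS Γ) (κ : KX d.Y.Q) (l : KS d.Y M) :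
    pull (jE d M).hm.f (pull (bD d M).hm.f ((Sb d.Y M).sm κ l)) =
      (Sb d.YC M).sm (pull (bC d M).b κ) (pull (bC d M).hm.f l) :=
  (pull_pull _ _ (bC d M).hm.f (fun e => by obtain ⟨y, w, rfl⟩ := pt_surj e; rfl) _).trans
    ((bC d M).hm.pull_sm κ l)

theorem bC_xm {V U : LS Γ} {l : KS d.Y V} {m : KS d.Y U} (a : (Sb _ _).Rd l) (b : (Sb _ _).Rd m) :
    pull (bC d (V.prod U)).hm.f (xm l m) = xm (pull (bC d V).hm.f l) (pull (bC d U).hm.f m) :=
  (bC d V).xm_nat (bC d U) _ (fun _ _ _ => rfl) a b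

theorem jE_inj (M : LS Γ) : Function.Injective (jE d M).hm.f := fun a b e => by
  obtain ⟨y, w, rfl⟩ := pt_surj a
  obtain ⟨y', w', rfl⟩ := pt_surj b
  obtain ⟨g, e1, e2⟩ := pt_iff.1 (show pt (YD d) M (jD d y) w = pt (YD d) M (jD d y') w' from e)
  exact pt_iff.2 ⟨g, Prod.ext (congrArg (fun z : (YD d).Z => z.1) e1)
    (Circle.ext (congrArg (fun z : (YD d).Z => (show Cp.UD from z.2).1) e1)), e2⟩

theorem sp_rd {X : Type} [TopologicalSpace X] {A : Ex X} {x : KX A.E} (r : A.Rd x) :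
    KA (cR (A.s.comp A.p)) x = 0 :=
  (pull_cm A.p A.s x).trans (by rw [show pull A.s x = 0 from r, map_zero])

variable (H : PMS) (h : d.Ok)

/-- the retraction to the base -/
def rt : (D3 H h).W →ₐ[ℂ] (D3 H h).W :=
  (D3 H h).en ((Sb _ _).s.comp (Sb _ _).p) ((Sb _ _).s.comp (Sb _ _).p) ((Sb _ _).s.comp (Sb _ _).p)
    (fun c => ⟨(Sb _ _).s ((Sb _ _).p c), by
      obtain ⟨y, w, rfl⟩ := pt_surj c; exact ⟨rfl, rfl⟩⟩)
    fun c => ⟨(Sb _ _).s ((Sb _ _).p c), by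
      obtain ⟨y, w, rfl⟩ := pt_surj c; exact ⟨rfl, rfl⟩⟩

theorem ev_rt (y : d.Y.Z) (ζ : OnePoint ℂ) (u : (D3 H h).W) :
    ev3 H h y ζ ∞ ∞ ∞ (rt H h u) = ev3 H h y ζ ∞ ∞ ∞ u := by
  unfold ev3
  rw [T3.ev_eq, T3.ev_eq]
  rfl

theorem g3 (c : Cl d) {k : KX d.YC.Q} (G : EqM d.YC d.W0.ls d.Y d.Z0.ls id .fst)
    (hG : ∀ y (v : d.W0.W), G.f (y, (v : OnePoint d.W0.W)) = d.γ0 (y, v))
    (e : pull G.hm.f c.Z0 = (Sb _ _).sm k (pull (bC d _).hm.f c.W0)) :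
    pull (D3 H h).g3 c.T = (Sb _ _).sm k (pull (bC d d.M3.ls).hm.f c.M3) := by
  obtain ⟨F, f1, f2⟩ := exists_pr G (bC d d.Z1.ls)
  have a := F.xm_nat (bC d d.R.ls) (D3 H h).g3 (fun y w u => ?_) c.uZ.1 c.uR.1
  · have b := f2 _ _ c.uZ0.1 c.uZ1.1
    have b' := bC_xm (V := d.W0.ls.prod d.Z1.ls) (U := d.R.ls) (rd_xm c.W0 c.Z1) c.uR.1
    rw [e, sm_xm, ← bC_xm c.uW0.1 c.uZ1.1] at b
    exact a.trans ((congrArg (xm · _) b).trans ((sm_xm _ _ _).trans (congrArg _ b'.symm)))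
  · refine congrArg (pt d.Y d.T.ls y.1) ?_
    induction w using OnePoint.rec with
    | infty => exact congrArg (fun a => wdg (a, u)) (F.hi y).symm
    | coe w =>
      induction u using OnePoint.rec with
      | infty => exact (wdg_r _).symm
      | coe u =>
        exact congrArg (fun a => wdg (a, OnePoint.some u))
          ((congrArg (fun a => wdg (a, OnePoint.some w.2)) (hG y w.1).symm).trans
            (f1 y w.1 w.2).symm)

end P2

open P2 in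
/-- **PAT** -/
theorem pat2 : PAT := by
  intro Γ Γ' _ _ _ _ _ _ d H h s c
  let G0 : EqM d.YC d.W0.ls d.Y d.Z0.ls id .fst :=
    ⟨h.pγ0.eqm.f, fun _ _ => rfl, h.pγ0.eqm.hf, h.pγ0.eqm.hi⟩
  obtain ⟨k1, e1⟩ := (th_bC c.uM1).ex (c.uT.1.hm (gE d (H d h).1).hm)
  obtain ⟨k3, e3⟩ := (th_bC c.uW0).ex (c.uZ0.1.hm G0.hm)
  obtain ⟨κ1, rfl, -⟩ := lift h s d.M1.ls k1
  obtain ⟨κ3, a3, b3⟩ := lift h s d.M3.ls k3
  have e4 := g3 H h c G0 (fun _ _ => rfl) e3
  obtain ⟨w, w0, w1, w3⟩ := (D3 H h).patch (jE_inj _) (jE_inj _)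
    ((j_bD _ κ1 c.M1).trans e1.symm) ((j_bD _ κ3 c.M3).trans ((congrArg ((Sb _ _).sm · _) a3).trans e4.symm))
  · refine ⟨w - KA (rt H h) w, κ1, κ3, ?_, ?_, ?_, fun B _ f hf => ?_, fun G hG => ?_⟩
    · rw [map_sub, ← ka_comp, show (D3 H h).p0.comp (rt H h) =
        (cR ((Sb _ _).s.comp (Sb _ _).p)).comp (D3 H h).p0 from rfl, ka_comp, w0, sp_rd c.uT.1, sub_zero]
    · rw [map_sub, ← ka_comp, show (D3 H h).p1.comp (rt H h) =
        (cR ((Sb _ _).s.comp (Sb _ _).p)).comp (D3 H h).p1 from rfl, ka_comp, w1,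
        sp_rd ((c.uM1.1.sm κ1).hm (bD d _).hm), sub_zero]
    · rw [map_sub, ← ka_comp, show (D3 H h).p3.comp (rt H h) =
        (cR ((Sb _ _).s.comp (Sb _ _).p)).comp (D3 H h).p3 from rfl, ka_comp, w3,
        sp_rd ((c.uM3.1.sm κ3).hm (bD d _).hm), sub_zero]
    · rw [map_sub, ← ka_comp, show f.comp (rt H h) = f from AlgHom.ext fun u =>
        ContinuousMap.ext fun b => let ⟨y, ζ, e⟩ := hf b
          (e _).trans ((ev_rt H h y ζ u).trans (e u).symm), sub_self]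
    · have k := congrArg (pull (sg h d.W0.ls).hm.f) e3
      rw [(sg h d.W0.ls).hm.pull_sm] at k
      refine ((pull_pull (sg h d.W0.ls).hm.f G0.hm.f G.hm.f (fun e => ?_) _).symm.trans k).trans
        (congrArg₂ (Sb _ _).sm b3.symm (pull_pull _ _ _ (fun e => ?_) _))
      · induction e using sb_ind with
        | h0 y => exact congrArg (pt d.Y d.Z0.ls y) (G.hi y).symm
        | h1 y v => exact congrArg (pt d.Y d.Z0.ls y) (hG y v).symm
      · obtain ⟨y, w, rfl⟩ := pt_surj e; rfl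

end Crest.Agent.N218.D6.Lj

end
end

-- ▼ part N218/D6/LjPol
section

/-! Row 218, block D6 (helper34): leaf `POL`, the two poles. -/

set_option autoImplicit false
set_option linter.unusedVariables false
set_option linter.unusedSectionVars false

open Crest.Agent.R204.K357 unitInterval Topology Filter Set OnePoint

noncomputable section

namespace Crest.Agent.N218.D6.Lj

open K

variable {Γ : Type} [Group Γ] [TopologicalSpace Γ] [CompactSpace Γ]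

/-- evaluation at a fixed point of the parameter space -/
theorem pole {Y : GS Γ} {A R : LS Γ} {U : Rep Γ} {K K' : GS Γ} (a : K.Z) (ha : ∀ g, K.act g a = a)
    (a' : K'.Z) (ha' : ∀ g, K'.act g a' = a') {lA : KS Y A} {lU : KS Y U.ls} {lR : KS Y R}
    (rA : (Sb Y A).Rd lA) (rU : (Sb Y U.ls).Rd lU) (rR : (Sb Y R).Rd lR)
    (t : (Sb Y _).Th (xm lA lR)) {W : Type} [CommRing W] [Algebra ℂ W]
    (ι : W →ₐ[ℂ] C((Sb (Y.prod K) (A.prod R)).E, ℂ))
    (p : W →ₐ[ℂ] C((Sb (Y.prod K') ((A.prod U.ls).prod R)).E, ℂ))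
    (hι : ∀ u y n, ι u (pt (Y.prod K) (A.prod R) (y, a) n) = p u (pt (Y.prod K') _ (y, a')
      (OnePoint.map (fun n : A.Z × R.Z => ((n.1, (0 : U.W)), n.2)) n)))
    (q : C((Sb (Y.prod K) (A.prod R)).E, (Sb Y (A.prod R)).E))
    (hq : ∀ y n, q (pt (Y.prod K) _ (y, a) n) = pt Y _ y n)
    (b : C((Sb (Y.prod K') ((A.prod U.ls).prod R)).E, (Sb Y ((A.prod U.ls).prod R)).E))
    (hb : ∀ y n, b (pt (Y.prod K') _ (y, a') n) = pt Y _ y n)
    (z : C(Y.Q, (Y.prod K).Q)) (hz : ∀ y, z (Y.pr y) = (Y.prod K).pr (y, a))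
    {w : KC W} {κ : KX Y.Q} {ν : KX (Y.prod K).Q}
    (h1 : KA p w = pull b ((Sb Y _).sm κ (xm (xm lA lU) lR)))
    (h2 : KA ι w = (Sb (Y.prod K) _).sm ν (pull q (xm lA lR))) :
    pull z ν = κ * pull (z0 Y U) lU := by
  obtain ⟨F, hF, nat⟩ := exists_pr (eZ Y A U) (eI Y R)
  have hF' : ∀ y n, F.f (y, n) = OnePoint.map (fun n : A.Z × R.Z => ((n.1, (0 : U.W)), n.2)) n :=
    fun y n => by
      induction n using OnePoint.rec with
      | infty => exact F.hi y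
      | coe n => exact hF y (n.1 : OnePoint A.Z) (n.2 : OnePoint R.Z)
  let J := (eB (Y := Y.prod K) (Y₂ := Y) ⟨fun y => (y, a), by fun_prop⟩
    (fun g y => Prod.ext rfl (ha g).symm) (A.prod R)).hm
  let J' := (eB (Y := Y.prod K') (Y₂ := Y) ⟨fun y => (y, a'), by fun_prop⟩
    (fun g y => Prod.ext rfl (ha' g).symm) ((A.prod U.ls).prod R)).hm
  have e : pull J.f (KA ι w) = pull (J'.f.comp F.hm.f) (KA p w) :=
    ka_sq (cR J.f) ι (cR (J'.f.comp F.hm.f)) p (fun u => ContinuousMap.ext fun x => by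
      obtain ⟨y, n, rfl⟩ := pt_surj x
      exact (hι u y n).trans (congrArg (fun v => p u (pt (Y.prod K') _ (y, a') v)) (hF' y n).symm)) w
  rw [h1, h2, J.pull_sm, pull_pull_id J.f q (fun x => by obtain ⟨y, n, rfl⟩ := pt_surj x; exact hq y n),
    pull_pull _ b (Lj.h1 F).f (fun x => by obtain ⟨y, n, rfl⟩ := pt_surj x; exact hb y _),
    (Lj.h1 F).pull_sm, N218.K.pull_id] at e
  have e2 : pull (Lj.h1 F).f (xm (xm lA lU) lR) = (Sb Y _).sm (pull (z0 Y U) lU) (xm lA lR) :=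
    (nat (xm lA lU) lR ((smd Y A U.ls).rd_mul _ _) rR).trans (by rw [pull_eZ U rA rU, pull_eI, sm_xm])
  rw [e2, Ex.sm_sm] at e
  refine Eq.trans (pull_congr (fun x => ?_) ν) (t.inj e)
  obtain ⟨y, rfl⟩ := Y.pr_surj x
  exact hz y

section ev
variable {Γ' : Type} [Group Γ'] [TopologicalSpace Γ'] [CompactSpace Γ'] {d : LD Γ Γ'} (H : PMS)
  (h : d.Ok) (y : d.Y.Z) (a : OnePoint d.M3.W) (b : OnePoint d.T.W) (c : OnePoint d.M1.W)
  (u : (D3 H h).W)
theorem ev_inf : ev3 H h y ∞ a b c u = (D3 H h).p1 u (pt (YD d) d.M1.ls (y, ⟨0, by simp⟩) c) := by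
  rw [ev3, T3.ev_eq, nr_inf, if_neg (by norm_num), if_neg (by norm_num), dk_inf]
theorem ev_zero : ev3 H h y ((0 : ℂ) : OnePoint ℂ) a b c u =
    (D3 H h).p3 u (pt (YD d) d.M3.ls (y, ⟨0, by simp⟩) a) := by
  rw [ev3, T3.ev_eq, nr_coe, if_pos (by norm_num), dk_zero]
end ev

theorem pol : POL := by
  intro Γ Γ' _ _ _ _ _ _ d H h c w κ1 κ3 ι P hN
  obtain ⟨ν, hν⟩ := (c.uN.thq (L d)).ex (x := KA ι w)
    ((ka_comp (cR (smd d.Y (N d).ls (L d)).P.s) ι w).symm.trans (P.rd _ _ fun b => by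
      obtain ⟨⟨y, ζ⟩, rfl⟩ := (d.Y.prod (L d).sph).pr_surj b
      exact ⟨y, ζ, fun u => hN u y ζ ∞⟩))
  obtain ⟨x, hx⟩ := dec c.uq.th ν
  have k1 : pull (Sb d.Y (L d)).s ν = κ1 * c.eW :=
    pole (K := (L d).sph) (K' := Cp.Dk d.χ d.hχ) (A := d.W0.ls) (R := d.R.ls) (U := d.W1) ∞
      (fun _ => rfl) ⟨0, by simp⟩ (fun _ => Subtype.ext (mul_zero _)) c.uW0.1 c.uW1.1 c.uR.1 c.uN.th
      ι (D3 H h).p1 (fun u y n => (hN u y ∞ n).trans (ev_inf H h y _ _ _ u))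
      _ (fun _ _ => rfl) _ (fun _ _ => rfl) _ (fun _ => rfl) P.p1 hν
  have k3 : pull (z0 d.Y (Rep.ch d.χ d.hχ)) ν = κ3 * c.eZ :=
    pole (K := (L d).sph) (K' := Cp.Dk d.χ d.hχ) (A := d.W0.ls) (R := d.R.ls) (U := d.Z1)
      ((0 : ℂ) : OnePoint ℂ)
      (fun g => congrArg OnePoint.some (map_zero ((Rep.ch d.χ d.hχ).ρ g))) ⟨0, by simp⟩
      (fun _ => Subtype.ext (mul_zero _)) c.uW0.1 c.uZ1.1 c.uR.1 c.uN.th
      ι (D3 H h).p3 (fun u y n => (hN u y _ n).trans (ev_zero H h y _ _ _ u))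
      _ (fun _ _ => rfl) _ (fun _ _ => rfl) _ (fun _ => rfl) P.p3 hν
  rw [k1] at hx
  refine ⟨x, ?_, hx ▸ hν⟩
  have i : ∀ a, pull (z0 d.Y (Rep.ch d.χ d.hχ)) (pull (Sb d.Y (L d)).p a) = a :=
    pull_pull_id _ _ fun e => by obtain ⟨y, rfl⟩ := d.Y.pr_surj e; rfl
  refine eq_sub_of_add_eq' (Eq.trans ?_ ((congrArg _ hx).symm.trans k3))
  exact ((map_add _ _ _).trans (congrArg₂ (· + ·) (i _)
    ((map_mul _ _ _).trans (congrArg (· * c.eq) (i x))))).symm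

end Crest.Agent.N218.D6.Lj

end
end

-- ▼ part N218/D6/LjZer
section

/-! Row 218, block D6 (helper3): leaf `ZER` of the cut of `LOCA`. -/

set_option autoImplicit false
set_option linter.unusedVariables false
set_option linter.unusedSectionVars false

open Crest.Agent.R204.K357 unitInterval Topology Filter Set OnePoint

noncomputable section

namespace Crest.Agent.N218.D6.Lj

open K

variable {Γ Γ' : Type} [Group Γ] [TopologicalSpace Γ] [Group Γ'] [TopologicalSpace Γ']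
  [CompactSpace Γ] [CompactSpace Γ']

namespace Ze
section gen
variable {Y' : GS Γ'} {Y : GS Γ} {V' L' : LS Γ'} {V L : LS Γ} {φ : Γ' → Γ} {g : C(Y'.Z, Y.Z)}

/-- followed by the inclusion of the first factor -/
def ez (E : EqM Y' V' Y V φ g) (U : Rep Γ) : EqM Y' V' Y (V.prod U.ls) φ g where
  f := ⟨fun z => (eZ Y V U).f (g z.1, E.f z), by fun_prop⟩
  hg := E.hg
  hf γ y w := (congrArg (eZ Y V U).f (Prod.ext (E.hg γ y) (E.hf γ y w))).trans
    ((eZ Y V U).hf (φ γ) (g y) (E.f (y, w)))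
  hi y := (congrArg (fun w => (eZ Y V U).f (g y, w)) (E.hi y)).trans ((eZ Y V U).hi _)

theorem pull_ez (E : EqM Y' V' Y V φ g) (U : Rep Γ) {l : KS Y V} {m : KS Y U.ls}
    (hl : (Sb Y V).Rd l) (hm : (Sb Y U.ls).Rd m) : pull (ez E U).hm.f (xm l m) =
      (Sb Y' V').sm (pull E.b (pull (z0 Y U) m)) (pull E.hm.f l) := by
  rw [← pull_pull E.hm.f (eZ Y V U).hm.f _ fun e => by obtain ⟨y, w, rfl⟩ := pt_surj e; rfl,
    pull_eZ U hl hm]
  exact E.hm.pull_sm _ _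

/-- extension over a sphere bundle -/
def up (b : EqM Y' L' Y L φ g) (E : EqM Y' V' Y V φ g) :
    EqM (Y'.prod L'.sph) V' (Y.prod L.sph) V φ
      ⟨fun x : Y'.Z × OnePoint L'.Z => (g x.1, b.f x), by fun_prop⟩ where
  f := ⟨fun z : (Y'.Z × OnePoint L'.Z) × OnePoint V'.Z => E.f (z.1.1, z.2), by fun_prop⟩
  hg γ x := Prod.ext (b.hg γ x.1) (b.hf γ x.1 x.2)
  hf γ x w := E.hf γ x.1 w
  hi x := E.hi x.1

theorem up_sm (b : EqM Y' L' Y L φ g) (E : EqM Y' V' Y V φ g) (c : KS Y L) (l : KS Y V) :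
    pull (up b E).hm.f ((smd Y V L).P.sm c (pull (smd Y V L).q l)) =
      (smd Y' V' L').P.sm (pull b.hm.f c) (pull (smd Y' V' L').q (pull E.hm.f l)) :=
  ((up b E).hm.pull_sm c _).trans (congrArg₂ (smd Y' V' L').P.sm
    (pull_congr (fun e => by obtain ⟨y, w, rfl⟩ := pt_surj (Y := Y') (M := L') e; rfl) c)
    (pull_sq _ _ _ _ (fun e => by obtain ⟨⟨y, u⟩, w, rfl⟩ := pt_surj e; rfl) l))

theorem q_sm (a : KX Y.Q) (l : KS Y V) : pull (smd Y V L).q ((Sb Y V).sm a l) =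
    (smd Y V L).P.sm (pull (Sb Y L).p a) (pull (smd Y V L).q l) := by
  unfold Ex.sm
  rw [map_mul, pull_sq _ _ _ _ (smd Y V L).pq]
end gen

variable (d : LD Γ Γ') {V' : LS Γ'} {V : Rep Γ}

theorem res_act (γ : Γ') (z : OnePoint V.W) :
    (d.rs V).ls.sph.act γ z = V.ls.sph.act (d.φ γ) z := by
  induction z using OnePoint.rec <;> rfl

/-- restriction -/
def rr (V : Rep Γ) : EqM d.Y' (d.rs V).ls d.Y V.ls d.φ (.id _) :=
  Eqv.eqm (Y := d.Y) (Y' := d.Y') d.hφ (g := .id _) (fun _ _ => rfl) V.ls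

/-- to the small group -/
def dn (E : EqM d.Y' V' d.Y V.ls d.φ (.id _)) : EqM d.Y' V' d.Y' (d.rs V).ls id (.id _) :=
  ⟨E.f, fun _ _ => rfl, fun γ y w => (E.hf γ y w).trans (res_act d γ _).symm, E.hi⟩

theorem pull_dn (E : EqM d.Y' V' d.Y V.ls d.φ (.id _)) (l : KS d.Y V.ls) :
    pull (dn d E).hm.f (rs d l) = pull E.hm.f l :=
  pull_pull _ _ _ (fun e => by obtain ⟨y, w, rfl⟩ := pt_surj e; rfl) l

/-- to the big group -/
def ur (E : EqM d.Y' V' d.Y' (d.rs V).ls id (.id _)) : EqM d.Y' V' d.Y V.ls d.φ (.id _) :=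
  ⟨E.f, fun _ _ => rfl, fun γ y w => (E.hf γ y w).trans (res_act d γ _), E.hi⟩

theorem pull_ur (E : EqM d.Y' V' d.Y' (d.rs V).ls id (.id _)) (l : KS d.Y V.ls) :
    pull (h1 E).f (rs d l) = pull (ur d E).hm.f l :=
  pull_pull _ _ _ (fun e => by obtain ⟨y, w, rfl⟩ := pt_surj e; rfl) l

variable {d} (h : d.Ok)
include h

theorem pg : Pm d.Y' (d.rs d.W0).ls (d.rs d.Z0).ls fun x => d.γ0 ((x.1, 1), x.2) where
  ct := h.pγ0.ct.comp ((continuous_fst.prodMk continuous_const).prodMk continuous_snd)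
  pr K k := (h.pγ0.pr K k).imp fun _ a => ⟨a.1, fun p => a.2 (p, (1 : Circle))⟩
  eq γ y w := by
    refine Eq.trans ?_ ((h.pγ0.eq (d.φ γ) (y, (1 : Circle)) w).trans (res_act d γ _).symm)
    exact congrArg (fun θ => d.γ0 ((d.Y.act (d.φ γ) y, θ), d.W0.ρ (d.φ γ) w))
      ((mul_one _).trans ((h.ker _).2 ⟨γ, rfl⟩)).symm

theorem th_L {l : KS d.Y (L d)} (u : UT d.Y (L d) l) :
    (Sb d.Y' (L' (Γ' := Γ'))).Th (pull (bL h).hm.f l) := by
  let A : (L' (Γ' := Γ')).Iso ((L d).res d.φ d.hφ) := ⟨.refl ℂ, fun g w =>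
    ((ch_act _ _ _ w).trans (by rw [(h.ker _).2 ⟨g, rfl⟩]; exact one_mul (show ℂ from w))).symm⟩
  have := th_iso A (A.mp d.Y') (u.2 Γ' d.φ d.hφ d.Y' (.id _) (fun _ _ => rfl) _ (Eqv.mp d.hφ
    (fun _ _ => rfl) _))
  rwa [pull_pull _ _ (bL h).hm.f fun e => by
    obtain ⟨y, w, rfl⟩ := pt_surj e
    induction w using OnePoint.rec <;> rfl] at this

theorem ev_eq (H : PMS) (y : d.Y.Z) (ζ : OnePoint ℂ) (a : d.W0.W) (b : d.Z0.W) :
    evS H h y ζ (OnePoint.some ((0 : d.U.W), ((a, (0 : d.W1.W)), (b, (0 : d.Z1.W))))) =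
      evN H h y ζ (OnePoint.some (a, ((d.μ0 (y, b), (0 : d.W1.W)), (0 : d.U.W)))) := by
  have k : d.k (y, (0, 0)) = 0 := (h.k0 y _).2 rfl
  have e : ∀ (z : OnePoint (d.Z0.W × d.Z1.W)) (t : ℝ),
      OnePoint.map (fun e : d.Z0.W × d.Z1.W => e - (0, t • 0)) z = z := fun z t => by
    induction z using OnePoint.rec with
    | infty => rfl
    | coe z => exact congrArg OnePoint.some (by simp)
  unfold evS evN
  congr 1
  · refine congrArg OnePoint.some ?_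
    simp [LD.b3, I3, k]
  · change d.hh y _ _ 0 ((a, 0), (b, 0)) = d.g1 ((y, _), ((a, 0), ((d.μ0 (y, b), 0), 0)))
    refine congrArg wdg (Prod.ext ((e _ _).trans (congrArg (fun z => d.γ ((y, ph ζ), (a, z)))
      (smul_zero _))) (congrArg OnePoint.some (Prod.ext ?_ ((sub_zero _).trans k))))
    change d.μ (y, (b, _ • (0 : d.Z1.W))) - ((0 : d.W0.W), _ • (0 : d.W1.W)) = (d.μ0 (y, b), 0)
    simp [h.m0]
  · refine congrArg OnePoint.some ?_
    simp [LD.b1, I1, k, h.m0]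
end Ze

open Ze in
/-- **ZER** -/
theorem zer : ZER := by
  intro Γ Γ' _ _ _ _ _ _ d H h hU c w κ1 κ3 ι ι' x b a P hN hS eN ⟨al, eS⟩
  have tZ := (ut_rs c.uZ0).th
  have tW := (ut_rs c.uW0).th
  obtain ⟨κw, ew⟩ := tZ.ex (tW.1.hm (h1 h.pμ0.eqm))
  have e3 := (pull_ur d (pg h).eqm c.Z0).trans (P.k3 (ur d (pg h).eqm) fun _ _ => rfl)
  have un : IsUnit (pull d.π κ3 * κw) := by
    have := hU ((h1 h.pμ0.eqm).cm (h1 (pg h).eqm)) (fun _ _ => rfl) _ tZ
    rw [show pull ((h1 h.pμ0.eqm).cm (h1 (pg h).eqm)).f (rs d c.Z0) = _ from pull_cm _ _ _, e3,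
      (h1 h.pμ0.eqm).pull_sm, pull_id, ew, Ex.sm_sm] at this
    exact tZ.isUnit this
  refine ⟨κw, isUnit_of_mul_isUnit_left un, isUnit_of_mul_isUnit_right un, ?_⟩
  obtain ⟨A, a1, a2⟩ := exists_pr (V' := d.W.ls) (U' := d.Z.ls) (ez (rr d d.W0) d.W1)
    (ez (rr d d.Z0) d.Z1)
  obtain ⟨B, b1, b2⟩ := exists_pr (V' := d.W0.ls) (U' := d.R.ls) (rr d d.W0)
    (ez (ez (ur d h.pμ0.eqm) d.W1) d.U)
  have eA : pull A.hm.f c.S = (Sb _ _).sm (pull d.π c.eW * pull d.π c.eZ)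
      (xm (rs d c.W0) (rs d c.Z0)) :=
    (a2 _ _ c.uW.1 c.uZ.1).trans ((congrArg₂ xm (pull_ez (rr d d.W0) d.W1 c.uW0.1 c.uW1.1)
      (pull_ez (rr d d.Z0) d.Z1 c.uZ0.1 c.uZ1.1)).trans ((sm_xm _ _ _).trans
        ((congrArg _ (xm_sm _ _ _)).trans (Ex.sm_sm _ _ _ _))))
  have eB : pull B.hm.f c.N = (Sb _ _).sm (pull d.π c.eU * pull d.π c.eW * κw)
      (xm (rs d c.W0) (rs d c.Z0)) := by
    refine (b2 _ _ c.uW0.1 c.uR.1).trans ((congrArg (xm _) ?_).trans (xm_sm _ _ _))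
    refine (pull_ez (ez (ur d h.pμ0.eqm) d.W1) d.U c.uW.1 c.uU.1).trans ?_
    rw [mul_assoc, ← Ex.sm_sm, ← Ex.sm_sm, ← ew, pull_ur]
    exact congrArg _ (pull_ez (ur d h.pμ0.eqm) d.W1 c.uW0.1 c.uW1.1)
  let A' : EqM d.Y' ((d.rs d.W0).ls.prod (d.rs d.Z0).ls) d.Y d.S.ls d.φ (.id _) := A
  let B' : EqM d.Y' ((d.rs d.W0).ls.prod (d.rs d.Z0).ls) d.Y (N d).ls d.φ (.id _) := B
  let Am := (up (eI d.Y' L') (dn d A')).hm.f
  let Bm := (up (bL (d := d) h) B').hm.f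
  have key := ka_sq (cR Am) ι' (cR Bm) ι
    (fun u => ContinuousMap.ext fun e => by
      obtain ⟨⟨y, ζ⟩, v, rfl⟩ := pt_surj e
      obtain ⟨⟨p, q⟩, rfl⟩ := wdg_surj v
      refine (hS u y ζ (A.f (y, wdg (p, q)))).trans (Eq.trans ?_ (hN u y ζ (B.f (y, wdg (p, q)))).symm)
      rw [a1, b1]
      induction p using OnePoint.rec with
      | infty => rfl
      | coe p =>
        induction q using OnePoint.rec with
        | infty => rfl
        | coe q => exact DFunLike.congr_fun (ev_eq h H y ζ p q) u) w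
  have k1 := ((congrArg (pull Am) eS).symm.trans key).trans (congrArg (pull Bm) eN)
  have k2 := (up_sm (eI d.Y' L') (dn d A') _ _).symm.trans (k1.trans (up_sm (bL (d := d) h) B' _ _))
  rw [pull_eI, pull_dn, show pull A'.hm.f c.S = _ from eA, show pull B'.hm.f c.N = _ from eB,
    q_sm, q_sm, Ex.sm_sm, Ex.sm_sm] at k2
  have k3 := (((ut_rs c.uW0).xm (ut_rs c.uZ0)).thq L').inj k2
  have n1 : pull (bL h).hm.f (pull (Sb d.Y (L d)).p b) = pull (Sb d.Y' L').p (pull d.π b) :=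
    pull_sq _ _ _ _ (bL h).hm.hp b
  have n2 : pull (bL h).hm.f ((Sb d.Y (L d)).sm x c.q) =
    (Sb d.Y' L').sm (pull d.π x) (pull (bL h).hm.f c.q) := (bL h).hm.pull_sm _ _
  rw [map_add, n1, n2] at k3
  have k4 := dec_inj (th_L h c.uq) (a := a * (pull d.π c.eW * pull d.π c.eZ))
    (a' := pull d.π x * (pull d.π c.eU * pull d.π c.eW * κw))
    (b := al * (pull d.π c.eW * pull d.π c.eZ))
    (b' := pull d.π b * (pull d.π c.eU * pull d.π c.eW * κw)) (by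
      unfold Ex.sm at *
      simp only [map_mul] at k3 ⊢
      linear_combination k3)
  linear_combination k4

end Crest.Agent.N218.D6.Lj

end
end

-- ▼ part N218/D6/Push
section

/-!
# Row 218, block D6 (helper37): the end of the push represents the dual problem
-/

set_option autoImplicit false
set_option linter.unusedVariables false
set_option linter.unusedSectionVars false

open unitInterval Topology Filter Set OnePoint Metric

noncomputable section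

namespace Crest.Agent.N218.D6

open K

namespace Pu

theorem an_on : ContinuousOn an {ζ | ζ ≠ 0} := by
  refine (IsInducing.subtypeVal.continuousOn_iff (f := an)).2 (ContinuousOn.congr
    (f := fun ζ : ℂ => ζ / ‖ζ‖) (continuousOn_id.div (Complex.continuous_ofReal.comp
      continuous_norm).continuousOn fun ζ h => by simpa using h) fun ζ h => ?_)
  exact congrArg Subtype.val (dif_neg h)

theorem tt_c : Continuous tt := by unfold tt; fun_prop
theorem bp_c : Continuous bp := by unfold bp; fun_prop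
theorem tt0 {ρ : ℝ} (h : ρ ≤ 5 / 4) : tt ρ = 0 :=
  max_eq_left (min_le_of_right_le (by linarith))
theorem tt1 {ρ : ℝ} (h : 3 / 2 ≤ ρ) : tt ρ = 1 := by
  rw [tt, min_eq_left (by linarith), max_eq_right zero_le_one]
theorem bp_ne {ρ : ℝ} : bp ρ ≠ 0 ↔ ρ ∈ Ioo (1 : ℝ) 2 := by
  rw [bp, Ne, max_eq_left_iff, not_le]
  exact ⟨fun h => ⟨by nlinarith, by nlinarith⟩, fun h => mul_pos (sub_pos.2 h.1) (sub_pos.2 h.2)⟩
theorem bp_nn (ρ : ℝ) : 0 ≤ bp ρ := le_max_left _ _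
theorem bp_le (ρ : ℝ) : bp ρ ≤ 1 := max_le zero_le_one (by nlinarith [sq_nonneg (2 * ρ - 3)])

theorem vl_at {E : Type} [TopologicalSpace E] [Zero E] {p : OnePoint E} (h : p ≠ ∞) :
    ContinuousAt vl p := by
  induction p using OnePoint.rec with
  | infty => exact (h rfl).elim
  | coe e => exact isOpenEmbedding_coe.continuousAt_iff.1 continuousAt_id

theorem coe_vl {E : Type} [Zero E] {p : OnePoint E} (h : p ≠ ∞) : (vl p : E) = p := by
  induction p using OnePoint.rec with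
  | infty => exact (h rfl).elim
  | coe e => rfl

variable {Γ Γ' : Type} [Group Γ] [TopologicalSpace Γ] [CompactSpace Γ] [Group Γ']
  [TopologicalSpace Γ'] [CompactSpace Γ'] (d : LD Γ Γ')

/-- the parameters -/
abbrev Pa : Type := d.Y.Z × Circle × ℝ × d.U.W
/-- the cylinder as one map -/
def HH (x : Pa d × d.S.W) : OnePoint d.T.W := d.hh x.1.1 x.1.2.1 x.1.2.2.1 x.1.2.2.2 x.2
/-- the total source -/
abbrev Xs : Type := d.Ym.Z × d.S.W × ℂ
/-- the parameter of a point -/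
def pa (c : ℝ) (x : Xs d) : Pa d × d.S.W :=
  ((d.i x.1, an x.2.2, tt ‖x.2.2‖, c • d.u x.1), x.2.1)

variable {d}

theorem pa_on {T : Type} [TopologicalSpace T] {A : Set T} {c : T → ℝ} {x : T → Xs d}
    (hc : ContinuousOn c A) (hx : Continuous x) (h0 : ∀ t ∈ A, (x t).2.2 ≠ 0) :
    ContinuousOn (fun t => pa d (c t) (x t)) A :=
  (((d.i.continuous.comp hx.fst).continuousOn.prodMk ((an_on.comp hx.snd.snd.continuousOn h0).prodMk
    ((tt_c.comp hx.snd.snd.norm).continuousOn.prodMk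
      (hc.smul (d.u.continuous.comp hx.fst).continuousOn))))).prodMk hx.snd.fst.continuousOn

theorem hh_U {y θ t η v} {e : d.T.W} (h : d.hh y θ t η v = e) :
    e.2.2 = d.k (y, (v.1.2, v.2.2)) - η :=
  (congrArg Prod.snd (coe_injective (wdg_eq_coe h).2)).symm

variable (H : PMS) (h : d.Ok)
include H h

theorem sub (K : Set (Pa d)) (k : IsCompact K) :
    Continuous (fun x : K × d.S.W => HH d (x.1, x.2)) ∧ Prp fun x : K × d.S.W => HH d (x.1, x.2) :=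
  haveI := isCompact_iff_compactSpace.1 k
  (H d h).2.2.2.2.2.2.2 K ⟨fun p => p.1.1, by fun_prop⟩ ⟨fun p => p.1.2.1, by fun_prop⟩
    ⟨fun p => p.1.2.2.1, by fun_prop⟩ ⟨fun p => p.1.2.2.2, by fun_prop⟩

theorem HH_c : Continuous (HH d) := continuous_iff_continuousAt.2 fun x => by
  obtain ⟨K, k, n⟩ := exists_compact_mem_nhds x.1
  have : ContinuousOn (HH d) (K ×ˢ univ) := continuousOn_iff_continuous_domRestrict.2
    ((sub H h K k).1.comp (f := fun z : (K ×ˢ univ : Set (Pa d × d.S.W)) =>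
      ((⟨z.1.1, z.2.1⟩ : K), z.1.2))
      ((continuous_subtype_val.fst.subtype_mk _).prodMk continuous_subtype_val.snd) :)
  exact this.continuousAt (prod_mem_nhds n univ_mem)

theorem HH_p {K : Set (Pa d)} (k : IsCompact K) {K' : Set d.T.W} (k' : IsCompact K') :
    ∃ L, IsCompact L ∧ ∀ x : Pa d × d.S.W, x.1 ∈ K → ∀ e ∈ K', HH d x = e → x.2 ∈ L :=
  ((sub H h K k).2 K' k').imp fun L l => ⟨l.1, fun x a e b c =>
    by_contra fun n => l.2 ⟨x.1, a⟩ x.2 e n c b⟩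

theorem ends {K' : Set d.T.W} (k' : IsCompact K') : ∃ L, IsCompact L ∧ ∀ y θ t η v,
    (t = 0 ∨ t = 1) → ∀ e ∈ K', d.hh y θ t η v = e → v ∈ L := by
  obtain ⟨g1, g3, b1, b3, e1, e3, -⟩ := H d h
  obtain ⟨K1, k1, a1⟩ := g1.pr K' k'
  obtain ⟨K3, k3, a3⟩ := g3.pr K' k'
  obtain ⟨L1, l1, c1⟩ := b1.pr K1 k1
  obtain ⟨L3, l3, c3⟩ := b3.pr K3 k3
  refine ⟨Prod.snd '' (L1 ∪ L3 : Set (d.U.W × d.S.W)), (l1.union l3).image continuous_snd, ?_⟩
  rintro y θ t η v (rfl | rfl) e m q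
  · exact ⟨(η, v), .inr (by_contra fun n => c3 y (η, v) _ n rfl
      (by_contra fun n' => a3 (y, θ) _ e n' ((e3 y θ η v).symm.trans q) m)), rfl⟩
  · exact ⟨(η, v), .inl (by_contra fun n => c1 y (η, v) _ n rfl
      (by_contra fun n' => a1 (y, θ) _ e n' ((e1 y θ η v).symm.trans q) m)), rfl⟩

theorem HH_eq (g : Γ') (c : ℝ) (x : Xs d) :
    HH d (pa d c (d.Ym.act g x.1, d.S.ρ (d.φ g) x.2.1, x.2.2)) =
      d.T.ls.sph.act (d.φ g) (HH d (pa d c x)) := by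
  refine Eq.trans ?_ ((H d h).2.2.2.2.2.2.1 g _ _ _ _ _)
  change d.hh (d.i _) _ _ (c • d.u _) _ = d.hh _ _ _ (d.U.ρ (d.φ g) (c • d.u x.1)) _
  rw [h.hi g x.1, h.hu, _root_.map_smul]; rfl

theorem mid {c : ℝ} {x : Xs d} (c0 : 0 < c) (c1 : 3 / 2 ≤ ‖x.2.2‖ → 1 ≤ c)
    (z : HH d (pa d c x) = ((0 : d.T.W) : OnePoint d.T.W)) : ‖x.2.2‖ ∈ Icc (5 / 4 : ℝ) (3 / 2) := by
  change d.hh (d.i x.1) (an x.2.2) (tt ‖x.2.2‖) (c • d.u x.1) x.2.1 = _ at z
  refine ⟨le_of_not_ge fun a => ?_, le_of_not_ge fun a => h.sm _ _ c _ (c1 a) (tt1 a ▸ z)⟩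
  have u := hh_U z
  rw [tt0 a, (H d h).2.2.2.2.2.1] at z
  obtain ⟨z1, z2⟩ := wdg_eq_coe z
  have a1 : -x.2.1.2.2 = 0 := coe_injective (wdg_eq_coe z1).2
  have a2 : -x.2.1.1.2 = 0 := congrArg (·.1.2) (coe_injective z2)
  rw [(h.k0 _ _).2 (Prod.ext (neg_eq_zero.1 a2) (neg_eq_zero.1 a1)), zero_sub] at u
  exact smul_ne_zero c0.ne' (h.u0 _) (neg_eq_zero.1 u.symm)

theorem ann {T : Type} [TopologicalSpace T] [CompactSpace T] {c : T × ℝ → ℝ}
    (hc : ContinuousOn c {z | z.2 ∈ Icc (5 / 4 : ℝ) (3 / 2)}) {K' : Set d.T.W} (k' : IsCompact K') :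
    ∃ L, IsCompact L ∧ ∀ t (x : Xs d), ‖x.2.2‖ ∈ Icc (5 / 4 : ℝ) (3 / 2) → ∀ e ∈ K',
      HH d (pa d (c (t, ‖x.2.2‖)) x) = e → x.2.1 ∈ L := by
  have k : IsCompact ((univ : Set (T × d.Ym.Z)) ×ˢ (norm ⁻¹' Icc (5 / 4 : ℝ) (3 / 2) : Set ℂ)) :=
    isCompact_univ.prod ((isCompact_closedBall 0 (3 / 2)).of_isClosed_subset
      (isClosed_Icc.preimage continuous_norm) fun _ a => mem_closedBall_zero_iff.2 a.2)
  obtain ⟨L, l, a⟩ := HH_p H h (k.image_of_continuousOn (pa_on (d := d)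
    (c := fun z => c (z.1.1, ‖z.2‖)) (x := fun z => (z.1.2, 0, z.2))
    (hc.comp (by fun_prop) fun _ a => a.2) (by fun_prop)
    fun z a b => by have := a.2.1; rw [show z.2 = 0 from b, norm_zero] at this; linarith).fst) k'
  exact ⟨L, l, fun t x m => a _ ⟨((t, x.1), x.2.2), ⟨trivial, m⟩, rfl⟩⟩

/-- the problems on an annulus -/
def an' (d : LD Γ Γ') (A : Set ℝ) (c : ℝ → ℝ) : FP d.Ym d.SC (d.rs d.T) :=
  ⟨{x : Xs d | ‖x.2.2‖ ∈ A ∧ HH d (pa d (c ‖x.2.2‖) x) ≠ ∞},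
    fun x : Xs d => vl (E := d.T.W) (HH d (pa d (c ‖x.2.2‖) x))⟩

theorem fam {A : Set ℝ} (hA : IsOpen A) (A0 : (0 : ℝ) ∉ A) (A1 : Icc (5 / 4 : ℝ) (3 / 2) ⊆ A)
    {c : I × ℝ → ℝ} (hc : ContinuousOn c {z | z.2 ∈ A}) (c0 : ∀ z : I × ℝ, z.2 ∈ A → 0 < c z)
    (c1 : ∀ z : I × ℝ, z.2 ∈ A → 3 / 2 ≤ z.2 → 1 ≤ c z) {c₀ c₁ : ℝ → ℝ} (e0 : ∀ r, c (0, r) = c₀ r)
    (e1 : ∀ r, c (1, r) = c₁ r) :
    (an' d A c₀).Ok ∧ (an' d A c₁).Ok ∧ (an' d A c₀).hm.Ht (an' d A c₁).hm := by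
  have n : Continuous fun z : I × Xs d => ‖z.2.2.2‖ := by fun_prop
  have ct : ContinuousOn (fun z : I × Xs d => HH d (pa d (c (z.1, ‖z.2.2.2‖)) z.2))
      {z | ‖z.2.2.2‖ ∈ A} := (HH_c H h).comp_continuousOn (pa_on
    (hc.comp (continuous_fst.prodMk n).continuousOn fun _ a => a) continuous_snd
    fun z a b => A0 (by rwa [mem_ofPred_eq, b, norm_zero] at a))
  refine FP.ht_of _ _ {z : I × Xs d | ‖z.2.2.2‖ ∈ A ∧ HH d (pa d (c (z.1, ‖z.2.2.2‖)) z.2) ≠ ∞}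
    (fun z : I × Xs d => vl (E := d.T.W) (HH d (pa d (c (z.1, ‖z.2.2.2‖)) z.2)))
    (ct.isOpen_inter_preimage (hA.preimage n) isOpen_compl_singleton)
    (fun g t x a => ⟨a.1, fun b => a.2 ?_⟩)
    (fun z a => ContinuousAt.comp_continuousWithinAt (f := fun z : I × Xs d =>
      HH d (pa d (c (z.1, ‖z.2.2.2‖)) z.2)) (vl_at a.2) ((ct z a.1).mono fun _ b => b.1))
    (fun g t x a => ?_) ?_ (fun x => by rw [← funext e0]; rfl) (fun x _ => by rw [← funext e0]; rfl)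
    (fun x => by rw [← funext e1]; rfl) fun x _ => by rw [← funext e1]; rfl
  · by_contra k
    exact coe_ne_infty _ ((congrArg (d.T.ls.sph.act (d.φ g)) (coe_vl (E := d.T.W) k)).trans
      ((HH_eq H h g _ x).symm.trans b))
  · exact congrArg vl ((HH_eq H h g _ x).trans
      (congrArg (d.T.ls.sph.act (d.φ g)) (coe_vl (E := d.T.W) a.2)).symm)
  · obtain ⟨L, l, a⟩ := ann H h (hc.mono fun _ b => A1 b) (isCompact_singleton (x := (0 : d.T.W)))
    have cl : IsClosed ({z : I × Xs d | ‖z.2.2.2‖ ∈ Icc (5 / 4 : ℝ) (3 / 2)} ∩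
        (fun z : I × Xs d => HH d (pa d (c (z.1, ‖z.2.2.2‖)) z.2)) ⁻¹' {((0 : d.T.W) : OnePoint _)}) :=
      (ct.mono fun _ b => A1 b).preimage_isClosed_of_isClosed (isClosed_Icc.preimage n)
        isClosed_singleton
    refine (congrArg IsCompact (Set.ext fun z : I × Xs d => ?_)).mp ((isCompact_univ.prod (isCompact_univ.prod
      (l.prod (isCompact_closedBall (0 : ℂ) (3 / 2))))).of_isClosed_subset cl fun z b =>
        ⟨trivial, trivial, a z.1 z.2 b.1 0 rfl b.2, mem_closedBall_zero_iff.2 b.1.2⟩)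
    refine ⟨fun b => ⟨⟨A1 b.1, fun k => coe_ne_infty _ (b.2.symm.trans k)⟩, congrArg vl b.2⟩,
      fun b => ?_⟩
    have k := (coe_vl b.1.2).symm.trans (congrArg _ b.2)
    exact ⟨mid H h (c0 _ b.1.1) (c1 (z.1, ‖z.2.2.2‖) b.1.1) k, k⟩

theorem F5_in {x : Xs d} (a : bp ‖x.2.2‖ ≠ 0) : d.F5 x = HH d (pa d (bp ‖x.2.2‖)⁻¹ x) := if_neg a
theorem F5_out {x : Xs d} (a : bp ‖x.2.2‖ = 0) : d.F5 x = ∞ := if_pos a

theorem F5_c : Continuous d.F5 := continuous_iff_continuousAt.2 fun x => by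
  have n : Continuous fun z : Xs d => bp ‖z.2.2‖ := bp_c.comp (by fun_prop)
  by_cases a : bp ‖x.2.2‖ = 0
  · rw [ContinuousAt, F5_out H h a, hasBasis_nhds_infty.tendsto_right_iff]
    rintro K ⟨-, hK⟩
    obtain ⟨R, hR⟩ := (hK.image (f := fun e : d.T.W => e.2.2) (by fun_prop)).isBounded.exists_norm_le
    have kc : Continuous fun z : Xs d => d.k (d.i z.1, (z.2.1.1.2, z.2.1.2.2)) :=
      (isOpenEmbedding_coe.isInducing.continuous_iff.2 h.pk.ct).comp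
        ((d.i.continuous.comp continuous_fst).prodMk (by fun_prop))
    have := (n.mul (kc.norm.add (continuous_const (y := R)))).continuousAt.eventually_lt
      (d.u.continuous.comp continuous_fst).norm.continuousAt
      (show bp ‖x.2.2‖ * _ < _ by rw [a, zero_mul]; exact norm_pos_iff.2 (h.u0 _))
    filter_upwards [this] with z b
    by_cases c : bp ‖z.2.2‖ = 0
    · exact .inr (F5_out H h c)
    induction e : d.F5 z using OnePoint.rec with
    | infty => exact .inr rfl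
    | coe v =>
      refine .inl ⟨v, fun m => b.not_ge ?_, rfl⟩
      have p := (bp_nn _).lt_of_ne' c
      have u := hh_U ((F5_in H h c).symm.trans e)
      have w := norm_sub_le (d.k (d.i z.1, (z.2.1.1.2, z.2.1.2.2))) v.2.2
      have r := hR _ ⟨v, m, rfl⟩
      rw [show d.k (d.i z.1, (z.2.1.1.2, z.2.1.2.2)) - v.2.2 = (bp ‖z.2.2‖)⁻¹ • d.u z.1 from
        sub_eq_iff_comm.1 u.symm, norm_smul, Real.norm_of_nonneg (inv_pos.2 p).le,
        inv_mul_le_iff₀ p] at w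
      exact w.trans (mul_le_mul_of_nonneg_left (by simpa using r) p.le)
  · have o := (isOpen_ne.preimage n).mem_nhds a
    refine (((HH_c H h).comp_continuousOn (pa_on (A := {z : Xs d | bp ‖z.2.2‖ ≠ 0})
      (n.continuousOn.inv₀ fun _ b => b) continuous_id fun z b c => ?_)).continuousAt o).congr ?_
    · have := (bp_ne.1 b).1
      rw [show z.2.2 = 0 from c, norm_zero] at this; linarith
    · filter_upwards [o] with z b using (F5_in H h b).symm

theorem F5_pm : Pm d.Ym d.SC (d.rs d.T).ls d.F5 := by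
  refine ⟨F5_c H h, fun K' k' => ?_, fun g y (w : d.S.W × ℂ) => ?_⟩
  · obtain ⟨L, l, a⟩ := ends H h k'
    obtain ⟨L', l', a'⟩ := ann H h (T := Unit) (c := fun z => (bp z.2)⁻¹)
      ((bp_c.comp continuous_snd).continuousOn.inv₀ fun z b =>
        bp_ne.2 ⟨by linarith [b.1], by linarith [b.2]⟩) k'
    refine ⟨(L ∪ L') ×ˢ closedBall (0 : ℂ) 2, (l.union l').prod (isCompact_closedBall _ _),
      fun y (w : d.S.W × ℂ) e n q m => n ?_⟩
    have c : bp ‖w.2‖ ≠ 0 := fun c => infty_ne_coe _ ((F5_out H h (x := (y, w)) c).symm.trans q)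
    have q' := (F5_in H h (x := (y, w)) c).symm.trans q
    refine ⟨?_, mem_closedBall_zero_iff.2 (bp_ne.1 c).2.le⟩
    rcases le_total ‖w.2‖ (5 / 4) with u | u
    · exact .inl (a _ _ _ _ _ (.inl (tt0 u)) e m q')
    rcases le_total ‖w.2‖ (3 / 2) with v | v
    · exact .inr (a' () (y, w) ⟨u, v⟩ e m q')
    · exact .inl (a _ _ _ _ _ (.inr (tt1 v)) e m q')
  · by_cases c : bp ‖w.2‖ = 0
    · exact (F5_out H h c).trans (congrArg ((d.rs d.T).ls.sph.act g)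
        (F5_out H h (x := (y, w)) c)).symm
    · refine ((F5_in H h c).trans ((HH_eq H h g _ (y, w)).trans ?_)).trans
        (congrArg ((d.rs d.T).ls.sph.act g) (F5_in H h (x := (y, w)) c)).symm
      change d.T.ls.sph.act _ (HH d (pa d (bp ‖w.2‖)⁻¹ (y, w))) = _
      induction HH d (pa d (bp ‖w.2‖)⁻¹ (y, w)) using OnePoint.rec <;> rfl
end Pu

open Pu in
theorem push (H : PMS) : PUSH := by
  intro Γ Γ' _ _ _ _ _ _ d h
  have i1 : Icc (5 / 4 : ℝ) (3 / 2) ⊆ Ioo 1 2 := fun r a => ⟨by linarith [a.1], by linarith [a.2]⟩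
  obtain ⟨t0, -⟩ := fam H h (isOpen_Ioi (a := (0 : ℝ))) (lt_irrefl (0 : ℝ))
    (fun r a => one_pos.trans (i1 a).1)
    (c := Prod.snd) continuousOn_snd (fun _ a => a) (fun _ _ a => by linarith) (fun _ => rfl)
    fun _ => rfl
  have e : d.Th = an' d (Ioi 0) fun r => r := congrArg (FP.mk · _)
    (Set.ext fun x => and_congr_left' norm_pos_iff.symm)
  have c1 : ∀ z : I × ℝ, z.2 ∈ Ioo (1 : ℝ) 2 → 1 ≤ (1 - z.1) * (bp z.2)⁻¹ + z.1 * z.2 := fun z a => by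
    have := one_le_inv₀ ((bp_nn _).lt_of_ne' (bp_ne.2 a)) |>.2 (bp_le z.2)
    nlinarith [z.1.2.1, z.1.2.2, a.1]
  obtain ⟨p5, p1, ht⟩ := fam H h isOpen_Ioo (fun a => by linarith [a.1]) i1
    (c := fun z => (1 - z.1) * (bp z.2)⁻¹ + z.1 * z.2)
    (((by fun_prop : Continuous fun z : I × ℝ => (1 - z.1 : ℝ)).continuousOn.mul
      ((bp_c.comp continuous_snd).continuousOn.inv₀ fun z b => bp_ne.2 b)).add (by fun_prop))
    (fun z a => one_pos.trans_le (c1 z a)) (fun z a _ => c1 z a) (c₀ := fun r => (bp r)⁻¹)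
    (c₁ := fun r => r) (fun _ => by simp) fun _ => by simp
  refine ⟨F5_pm H h, e ▸ t0, fun F r => e ▸ (t0.exc p1 (fun x a => ⟨one_pos.trans a.1.1, a.2⟩)
    (fun _ _ => rfl) fun x a z => ⟨i1 (mid H h a.1 (fun b => by linarith)
      ((coe_vl a.2).symm.trans (congrArg _ z))), a.2⟩).tr (ht.sy.tr (p5.proper (F5_pm H h)
        (fun x a => (F5_in H h (bp_ne.2 a.1)).trans (coe_vl a.2).symm) (fun (x : Xs d) a => ?_) r))⟩
  by_cases c : bp ‖x.2.2‖ = 0
  · exact F5_out H h c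
  · exact (F5_in H h c).trans (by_contra fun k => a ⟨bp_ne.1 c, k⟩)

end Crest.Agent.N218.D6

end
end

-- ▼ part N218/D6/LjEnd

/-! Row 218, block D6 (helper66): the leaf `END` of the cut of `LOCA`. -/

set_option autoImplicit false
set_option linter.unusedVariables false
set_option linter.unusedSectionVars false

open Crest.Agent.R204.K357 unitInterval Topology Filter Set OnePoint

noncomputable section

namespace Crest.Agent.N218.D6.Lj

open K

namespace En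

/-- maps that agree on the kernel of a retraction agree on reduced classes -/
theorem agree {A B : Type} [CommRing A] [Algebra ℂ A] [CommRing B] [Algebra ℂ B] (r : A →ₐ[ℂ] A)
    (hr : ∀ u, r (r u) = r u) (f g : A →ₐ[ℂ] B) (e : ∀ u, r u = 0 → f u = g u) (w : KC A)
    (hf : KA (f.comp r) w = 0) (hg : KA (g.comp r) w = 0) : KA f w = KA g w := by
  let P : Subalgebra ℂ (A × ℂ) := AlgHom.equalizer (r.comp (AlgHom.fst ℂ _ _))
    ((Algebra.ofId ℂ A).comp (AlgHom.snd ℂ _ _))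
  obtain ⟨x, a, -⟩ := T3.mv (P := P) (A := A) (B := ℂ) (C := r.range)
    ((AlgHom.fst ℂ _ _).comp P.val) ((AlgHom.snd ℂ _ _).comp P.val) r.rangeRestrict
    (Algebra.ofId ℂ _) (fun x => Subtype.ext x.2)
    (fun a b h => ⟨⟨(a, b), congrArg Subtype.val h⟩, rfl, rfl⟩)
    (fun _ _ h h' => Subtype.ext (Prod.ext h h')) r.rangeRestrict_surjective
    (a := w - KA r w) (b := 0) (by
      rw [map_sub, ka_ka r.rangeRestrict r r.rangeRestrict fun u => Subtype.ext (hr u), sub_self,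
        map_zero])
  have k := ka_sq f ((AlgHom.fst ℂ _ _).comp P.val) g ((AlgHom.fst ℂ _ _).comp P.val) (fun u => by
    have := e (u.1.1 - algebraMap ℂ A u.1.2) (by
      rw [map_sub, r.commutes]; exact sub_eq_zero.2 u.2)
    rw [map_sub, map_sub, f.commutes, g.commutes] at this
    exact sub_left_injective this) x
  rwa [a, map_sub, map_sub, ← ka_comp, ← ka_comp, hf, hg, sub_zero, sub_zero] at k

variable {Γ Γ' : Type} [Group Γ] [TopologicalSpace Γ] [Group Γ'] [TopologicalSpace Γ']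
  [CompactSpace Γ] [CompactSpace Γ'] {d : LD Γ Γ'} (H : PMS) (h : d.Ok)

/-- the retraction to the section at infinity -/
def rt : (D3 H h).W →ₐ[ℂ] (D3 H h).W :=
  (D3 H h).en ((Sb d.Y d.T.ls).s.comp (Sb d.Y d.T.ls).p)
    ((Sb (YD d) d.M1.ls).s.comp (Sb (YD d) d.M1.ls).p)
    ((Sb (YD d) d.M3.ls).s.comp (Sb (YD d) d.M3.ls).p)
    (fun c => by obtain ⟨y, a, rfl⟩ := pt_surj c; exact ⟨pt d.YC d.M1.ls y ∞, rfl, rfl⟩)
    fun c => by obtain ⟨y, a, rfl⟩ := pt_surj c; exact ⟨pt d.YC d.M3.ls y ∞, rfl, rfl⟩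

theorem rt_rt (u : (D3 H h).W) : rt H h (rt H h u) = rt H h u :=
  Subtype.ext (Prod.ext (ContinuousMap.ext fun e => by obtain ⟨y, a, rfl⟩ := pt_surj e; rfl)
    (Prod.ext (ContinuousMap.ext fun e => by obtain ⟨y, a, rfl⟩ := pt_surj e; rfl)
      (ContinuousMap.ext fun e => by obtain ⟨y, a, rfl⟩ := pt_surj e; rfl)))

theorem ev_rt (y ζ a b c) (u : (D3 H h).W) :
    ev3 H h y ζ a b c (rt H h u) = ev3 H h y ζ ∞ ∞ ∞ u := by
  unfold ev3
  rw [T3.ev_eq, T3.ev_eq]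
  split_ifs <;> rfl

theorem p0_rt (y b) (u : (D3 H h).W) : (D3 H h).p0 (rt H h u) (pt d.Y d.T.ls y b) =
    ev3 H h y (((3 / 2 : ℝ) : ℂ) : OnePoint ℂ) ∞ ∞ ∞ u := by
  have n : nr (((3 / 2 : ℝ) : ℂ) : OnePoint ℂ) = 3 / 2 := by
    rw [nr_coe, Complex.norm_real, Real.norm_of_nonneg (by norm_num)]; norm_num
  unfold ev3
  rw [T3.ev_eq, n, if_neg (by norm_num), if_pos le_rfl]
  rfl

/-- on the annulus the evaluation factors through the cylinder -/
theorem ev_ann (y : d.Y.Z) {ζ : ℂ} (h1 : 1 ≤ ‖ζ‖) (h2 : ‖ζ‖ ≤ 2) (η : d.U.W) (v : d.S.W)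
    (u : (D3 H h).W) : evS H h y ζ (OnePoint.some (η, v)) u =
      (D3 H h).p0 u (pt d.Y d.T.ls y (d.hh y (an ζ) (tt ‖ζ‖) η v)) := by
  have n : nr ζ = ‖ζ‖ := min_eq_left h2
  have k : ((y, dk ζ) : (YD d).Z) = jD d (y, an ζ) := Prod.ext rfl (Subtype.ext (dk_an h1 h2))
  unfold evS ev3
  rw [T3.ev_eq, k]
  split_ifs with a b
  · rw [Pu.tt0 (n ▸ a), (H d h).2.2.2.2.2.1]
    exact (D3 H h).c3 u (pt d.YC d.M3.ls (y, an ζ) (OnePoint.some (d.b3 (y, (η, v)))))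
  · rw [← n]; rfl
  · rw [Pu.tt1 (n ▸ (not_le.1 b).le), (H d h).2.2.2.2.1]
    exact (D3 H h).c1 u (pt d.YC d.M1.ls (y, an ζ) (OnePoint.some (d.b1 (y, (η, v)))))

/-- the push -/
def et (d : LD Γ Γ') (s : I) (m : d.Ym.Z) (ζ : OnePoint ℂ) : OnePoint d.U.W :=
  sc ((1 - s : ℝ) + s * bp (nr ζ), (((s : ℝ) • d.u m : d.U.W) : OnePoint d.U.W))

theorem et0 (m ζ) : et d 0 m ζ = ((0 : d.U.W) : OnePoint d.U.W) := by simp [et, sc_one]
theorem et1 (m ζ) : et d 1 m ζ = sc (bp (nr ζ), (d.u m : OnePoint d.U.W)) := by simp [et]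

theorem co_z {s : I} {b : ℝ} (hb : 0 ≤ b) (e : (1 - s : ℝ) + s * b = 0) : (s : ℝ) = 1 ∧ b = 0 := by
  have a : (s : ℝ) = 1 := by nlinarith [s.2.2, mul_nonneg s.2.1 hb]
  rw [a] at e
  exact ⟨a, by linarith⟩

include h in
theorem et_c : Continuous fun q : I × d.Ym.Z × OnePoint ℂ => et d q.1 q.2.1 q.2.2 :=
  continuous_iff_continuousAt.2 fun q => (sc_at (E := d.U.W) fun z e => by
    have e : (q.1 : ℝ) • d.u q.2.1 = 0 := coe_injective e
    rw [(co_z (Pu.bp_nn _) z).1, one_smul] at e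
    exact h.u0 _ e).comp' (Continuous.continuousAt (by
      have := Pu.bp_c
      exact Continuous.prodMk (by fun_prop) (continuous_coe.comp (by fun_prop))))

theorem et_ne (s m ζ) (h1 : 5 / 4 ≤ nr ζ) (h2 : nr ζ ≤ 3 / 2) : et d s m ζ ≠ ∞ := by
  rw [et, sc_coe fun e => Pu.bp_ne.2 ⟨by linarith, by linarith⟩ (co_z (Pu.bp_nn _) e).2]
  exact coe_ne_infty _

include h in
theorem et_act (g s m ζ) : et d s (d.Ym.act g m) ζ = d.U.ls.sph.act (d.φ g) (et d s m ζ) := by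
  refine Eq.trans ?_ (sc_act d.U (d.φ g) _ _)
  rw [et, h.hu, ← _root_.map_smul]; rfl

theorem act_S (g : Γ') (v : OnePoint d.S.W) :
    (d.rs d.S).ls.sph.act g v = d.S.ls.sph.act (d.φ g) v := by
  induction v using OnePoint.rec <;> rfl

theorem bp_nr (ζ : ℂ) : bp (nr ζ) = bp ‖ζ‖ := by
  rcases le_total ‖ζ‖ 2 with a | a
  · rw [nr_coe, min_eq_left a]
  · rw [nr_coe, min_eq_right a]
    exact (by_contra fun k => (Pu.bp_ne.1 k).2.false : bp 2 = 0).trans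
      (by_contra fun k => (Pu.bp_ne.1 k).2.not_ge a : bp ‖ζ‖ = 0).symm

/-- the end of the push -/
theorem ev_end (m : d.Ym.Z) (ζ : OnePoint ℂ) (v : OnePoint d.S.W) (u : (D3 H h).W)
    (z : rt H h u = 0) : evS H h (d.i m) ζ (wdg (et d 1 m ζ, v)) u =
      (D3 H h).p0 u (pt d.Y d.T.ls (d.i m) (opx d.F5 (m, wdg (v, ζ)))) := by
  have a : ∀ ζ, evS H h (d.i m) ζ ∞ u = (D3 H h).p0 u (pt d.Y d.T.ls (d.i m) ∞) := fun ζ =>
    ((ev_rt H h _ ζ ∞ ∞ ∞ u).symm.trans (by rw [z, map_zero])).trans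
      (show (D3 H h).p0 (rt H h u) (pt d.Y d.T.ls (d.i m) ∞) = 0 by rw [z, map_zero]; rfl).symm
  induction v using OnePoint.rec with
  | infty => rw [wdg_r]; exact a ζ
  | coe v =>
    induction ζ using OnePoint.rec with
    | infty =>
      rw [et1, nr_inf, (by_contra fun k => (Pu.bp_ne.1 k).2.false : bp 2 = 0), sc_zero]
      exact a _
    | coe ζ =>
      rw [et1, bp_nr]
      change _ = (D3 H h).p0 u (pt d.Y d.T.ls (d.i m) (d.F5 (m, v, ζ)))
      by_cases b : bp ‖ζ‖ = 0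
      · rw [Pu.F5_out H h (x := (m, v, ζ)) b, b, sc_zero]
        exact a _
      · rw [Pu.F5_in H h (x := (m, v, ζ)) b, sc_coe b]
        exact ev_ann H h _ (Pu.bp_ne.1 b).1.le (Pu.bp_ne.1 b).2.le _ v u

/-- the algebra of the end -/
theorem fin {X : Type} [TopologicalSpace X] {A U S : Ex X} (D : SmD A U S) {l : KX A.E}
    {β : KX U.E} {x : KX S.E} {al a : KX X} (hl : A.Rd l) (hβ : U.Rd β) (hx : S.Rd x)
    (e : pull D.c x = D.P.sm (pull U.p al + U.sm a β) (pull D.q l)) : x = S.sm a (D.mul l β) := by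
  have k := congrArg (pull D.j) e
  rw [pull_sq D.j D.c A.p S.s D.cj, show pull S.s x = 0 from hx, map_zero, Ex.sm, map_mul,
    pull_pull_id D.j D.q D.qj, pull_sq D.j D.P.p A.p U.s D.pj, map_add, U.pull_sp,
    show pull U.s _ = 0 from hβ.sm a, add_zero] at k
  rw [← D.mul_sm]
  refine D.eq_mul hl (hβ.sm a) (e.trans ?_)
  rw [Ex.sm, map_add, add_mul, ← pull_sq D.q A.p D.P.p U.p D.pq, ← map_mul, ← k, map_zero,
    zero_add, mul_comm]

end En

open En in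
/-- **leaf END** -/
theorem lend (gs : GS') : END := by
  intro Γ Γ' _ _ _ _ _ _ d H h c w κ1 κ3 ι a P hι ⟨al, ha⟩
  obtain ⟨pm, ok, ht⟩ := push H d h
  obtain ⟨F, r⟩ := pm.exists_rg
  obtain ⟨inv, ct⟩ := gs d H h
  have hi : ∀ g y, d.i (d.Ym.act g y) = d.Y'.act g (d.i y) := h.hi
  let G := (h.hi.eqm d.hφ d.T.ls).hm.f
  let BS := eB (Y := d.Y') (Y₂ := d.Ym) d.i hi (d.rs d.S).ls
  let BL := eB (Y := d.Y') (Y₂ := d.Ym) d.i hi (L' (Γ' := Γ'))
  let BP := eB (Y := d.Y'.prod L'.sph) (Y₂ := d.Ym.prod L'.sph) (d.i.prodMap (.id _))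
    (fun g y => Prod.ext (hi g y.1) rfl) (d.rs d.S).ls
  have uT : UT d.Ym (d.rs d.T).ls (pull G c.T) := c.uT.pull d.hφ h.hi (h.hi.mp d.hφ _)
  have uS : UT d.Ym (d.rs d.S).ls (pull BS.hm.f (rs d c.S)) :=
    (ut_rs c.uS).pull (φ := .id Γ') continuous_id (g := d.i) hi fun _ _ => rfl
  have uL : UT d.Ym L' (pull BL.hm.f (pull (bL h).hm.f c.q)) :=
    (ut_bL h c.uq).pull (φ := .id Γ') continuous_id (g := d.i) hi fun _ _ => rfl
  refine ⟨ok, _, _, uT, uS.xm uL, (DFunLike.congr_fun (ht F r).pull_eq _).trans ?_⟩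
  let D := smd d.Ym (d.rs d.S).ls L'
  refine fin D (al := pull (d.ρ h) al) uS.1 uL.1 (uT.1.hm F) ?_
  let Z := (d.Ym.prod L'.sph).prod (d.rs d.S).ls.sph
  let ev : I → Z.Z → (D3 H h).W →ₐ[ℂ] ℂ := fun s (z : (d.Ym.Z × OnePoint ℂ) × OnePoint d.S.W) =>
    evS H h (d.i z.1.1) z.1.2 (wdg (et d s z.1.1 z.1.2, z.2))
  have hc : ∀ u, Continuous fun z : I × Z.Z => ev z.1 z.2 u := fun u =>
    (ct (I × d.Ym.Z × OnePoint ℂ) (fun q => d.i q.2.1) (fun q => q.2.2) _ (by fun_prop)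
      (by fun_prop) (et_c h) (fun q => et_ne _ _ _) u).comp
      (show Continuous fun z : I × (d.Ym.Z × OnePoint ℂ) × OnePoint d.S.W =>
        ((z.1, z.2.1), z.2.2) by fun_prop)
  have hv : ∀ s g z u, ev s (Z.act g z) u = ev s z u := by
    rintro s g ⟨⟨m, ζ⟩, v⟩ u
    refine Eq.trans ?_ (inv g (d.i m) ζ (wdg (et d s m ζ, v)) u)
    change evS H h (d.i (d.Ym.act g m)) (L'.sph.act g ζ) (wdg (et d s (d.Ym.act g m)
      (L'.sph.act g ζ), (show OnePoint d.S.W from (d.rs d.S).ls.sph.act g v))) u = _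
    rw [act_L, h.hi, et_act h, act_S]
    exact congrArg (fun e => evS H h _ ζ e u) (wdg_act2 d.U.ls d.S.ls (d.φ g) _ _).symm
  have k := Orb.mkH_ht Z ev hc hv w
  let f2 : (D3 H h).W →ₐ[ℂ] C(D.P.E, ℂ) := (cR ((G.comp F.f).comp D.c)).comp (D3 H h).p0
  have e2 : ∀ u m ζ v, f2 u (pt (d.Ym.prod L'.sph) (d.rs d.S).ls (m, ζ) v) =
      (D3 H h).p0 u (pt d.Y d.T.ls (d.i m) (opx d.F5 (m, wdg (v, ζ)))) := fun u m ζ v =>
    congrArg (fun e => (D3 H h).p0 u (G e)) (r.opx m _)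
  have k2 := agree (rt H h) (rt_rt H h) (Orb.mkH Z (ev 1) (fun u => (hc u).comp (.prodMk_right 1))
    (hv 1)) f2 (fun u z => ContinuousMap.ext fun x => by
      obtain ⟨⟨m, ζ⟩, v, rfl⟩ := pt_surj (Y := d.Ym.prod L'.sph) (M := (d.rs d.S).ls) x
      exact (ev_end H h m ζ v u z).trans (e2 u m ζ v).symm) w
    (P.rd _ _ fun x => by
      obtain ⟨⟨m, ζ⟩, v, rfl⟩ := pt_surj (Y := d.Ym.prod L'.sph) (M := (d.rs d.S).ls) x
      exact ⟨d.i m, ζ, fun u => ev_rt H h _ _ _ _ _ u⟩)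
    (P.rd _ _ fun x => by
      obtain ⟨⟨m, ζ⟩, v, rfl⟩ := pt_surj (Y := d.Ym.prod L'.sph) (M := (d.rs d.S).ls) x
      exact ⟨d.i m, _, fun u => (e2 _ m ζ v).trans (p0_rt H h _ _ u)⟩)
  have k0 : KA (Orb.mkH Z (ev 0) (fun u => (hc u).comp (.prodMk_right 0)) (hv 0)) w =
      pull BP.hm.f (KA ι w) := (ka_ka (cR BP.hm.f) ι _ (fun u => ContinuousMap.ext fun x => by
    obtain ⟨⟨m, ζ⟩, v, rfl⟩ := pt_surj (Y := d.Ym.prod L'.sph) (M := (d.rs d.S).ls) x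
    exact (hι u (d.i m) ζ v).trans
      (congrArg (fun e => evS H h (d.i m) ζ (wdg (e, v)) u) (et0 m ζ).symm)) w).symm
  let G' : C((Sb d.Ym (d.rs d.T).ls).E, (Sb d.Y d.T.ls).E) := G
  have k3 : pull D.c (pull F.f (pull G' c.T)) = KA f2 w :=
    ((pull_comp _ _ _).trans ((congrArg (pull D.c) (pull_comp F.f G' c.T)))).symm.trans
      ((congrArg _ P.p0.symm).trans (ka_comp _ _ w).symm)
  have b : ∀ x, pull BP.b x = pull BL.hm.f x := pull_congr fun e => by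
    obtain ⟨y, v, rfl⟩ := pt_surj (Y := d.Ym) (M := L') e; rfl
  refine k3.trans (k2.symm.trans (k.symm.trans (k0.trans ((congrArg _ ha).trans
    ((BP.hm.pull_sm _ _).trans (congrArg₂ D.P.sm ((b _).trans ((map_add _ _ _).trans ?_))
      (pull_sq BP.hm.f _ D.q BS.hm.f (fun e => by obtain ⟨y, v, rfl⟩ := pt_surj e; rfl) _)))))))
  exact congrArg₂ (· + ·) (pull_sq BL.hm.f _ (Sb d.Ym L').p (d.ρ h) BL.hm.hp al)
    (BL.hm.pull_sm _ _)

end Crest.Agent.N218.D6.Lj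

end
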