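import Crest.Agent.N218.D6.Df2
import Crest.Agent.N218.D6.Kit
import Crest.Agent.N218.Pm.Loop
import Crest.Agent.N218.D6.Lk1
import Crest.Agent.N218.D3.Rep
import Crest.Agent.N218.Th.Fin
import Crest.Agent.N218.Sk.SatP
import Crest.Agent.N218.In.Kit

-- ▼ part N218/D6/Lk0
section

/-!
# Row 218, block D6, leaf LINK1 (helper45): the intermediate problem
-/

set_option autoImplicit false
set_option linter.unusedVariables false

open Set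

noncomputable section

namespace Crest.Agent.N218.D6.Lk

open K Pm In
open Sk (Cn X22 Sat)

variable {k n₁ n₂ m : ℕ} (D : Data X22 (Cn n₁) (Cn n₂))

/-- the projection, slotwise -/
def pv (x : X22) (v : V k (Cn n₁ × Cn n₂)) : V k (Cn n₁ × Cn n₂) :=
  fun i => (D.π₁ x (v i).1, D.π₂ x (v i).2)

/-- the dual problem of the orbit loop, normalised by `tt ‖ζ‖` -/
def T2 (kV : V k (Cn n₁ × Cn n₂) → Fin m → ℂ) :
    FP (YG k m) (VS k (Cn n₁ × Cn n₂)) (VT k m (Cn n₁ × Cn n₂)) :=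
  ⟨{x : ((US 2 × US 2) × US m) × V k (Cn n₁ × Cn n₂) × ℂ | x.2.2 ≠ 0 ∧
      ((hx x.1.1, ang x.2.2), x.2.1 - (1 - tt ‖x.2.2‖) • mn x.2.1) ∈ (D.Orb k).O},
    fun x : ((US 2 × US 2) × US m) × V k (Cn n₁ × Cn n₂) × ℂ =>
      ((D.Orb k).P ((hx x.1.1, ang x.2.2), x.2.1 - (1 - tt ‖x.2.2‖) • mn x.2.1) +
        (1 - tt ‖x.2.2‖) • mn x.2.1, kV (pv D (hx x.1.1) x.2.1) - ‖x.2.2‖ • x.1.2.1)⟩

/-- sub-leaf: change of the normalising function and of the cycle -/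
def L1B : Prop := ∀ (k n₁ n₂ m : ℕ) (D : Data X22 (Cn n₁) (Cn n₂)) (c κ R₀ M : ℝ)
  (kV : V k (Cn n₁ × Cn n₂) → Fin m → ℂ) (δ : ℝ), D.Ok c κ R₀ M → Sat D → KV k D kV → 0 < δ →
  ((D.Orb k).F (tau δ)).Ok →
  (T2 D kV).Ok ∧ (T2 D kV).hm.Ht (ThV ((D.Orb k).F (tau δ)) kV).hm

end Crest.Agent.N218.D6.Lk

end
end

-- ▼ part N218/D6/Lk3
section

/-!
# Row 218, block D6, leaf LINK1 (helper45): frames
-/

set_option autoImplicit false
set_option linter.unusedVariables false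
set_option linter.unusedSectionVars false
set_option maxHeartbeats 400000

open Set OnePoint

noncomputable section

namespace Crest.Agent.N218.D6.Lk

open K K.Cp Pm In
open Sk (Cn S3 X22 Frm Sat)

section slot
variable {k n : ℕ} {E : Type} [NormedAddCommGroup E] [InnerProductSpace ℂ E]
  {s : Fin n → S3 × S3 → E} {π : X22 → E →L[ℂ] E} {a a' : Fin n → ℤ} (h : Frm π a a' s)
  (y : US 2 × US 2)
include h

theorem sl_w (e : V k E) (t : ℝ) : up s y (fi ((fo (dn s y e)).1, t • (fo (dn s y e)).2)) =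
    fun i => π (hx y) ((e - (1 - t) • mn e) i) := by
  rw [← up_dn y h, dn_sub, dn_rsmul, ← mn_dn, ← fi_fo (dn s y e - _), fo_sub, fo_rsmul, fo_mn]
  congr 2
  refine Prod.ext (by simp) ?_
  simp only [Prod.snd_sub, Prod.smul_snd]
  module

theorem sl_m (e : V k E) : up s y (fi (0, (fo (dn s y e)).2)) = mn fun i => π (hx y) (e i) := by
  rw [← fo_mn, fi_fo, ← mn_up, up_dn y h]

theorem sl_t (e : V k E) (t : ℝ) (i : Ix k) :
    up s y (fi (0, t • (fo (dn s y e)).2)) i = t • π (hx y) (mn e i) := by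
  have : ((0, t • (fo (dn s y e)).2) : CC k n) = t • (0, (fo (dn s y e)).2) := by simp
  rw [this, fi_rsmul, up_rsmul, ← fo_mn, fi_fo, mn_dn, up_dn y h]; rfl

theorem pi_pi (e : E) : π (hx y) (π (hx y) e) = π (hx y) e := by
  have := pi_up (k := 0) y h (dn s y fun _ => e) 0
  rwa [up_dn y h] at this

theorem dn_sw (c : CC k n) (e : V k E) :
    fo (dn s y fun i => up s y (fi c) i + (e i - π (hx y) (e i))) = c := by
  rw [← dn_pi y h]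
  simp only [map_add, map_sub, pi_pi h, sub_self, add_zero, pi_up y h]
  rw [dn_up y h, fo_fi]
end slot

theorem rep_ang {ζ : ℂ} (h : ζ ≠ 0) : ∃ j : ℤ, rep (ang ζ) = rt (an ζ) + j := by
  have : rt (an ζ) = ζ.arg / (2 * Real.pi) := by
    have e : (an ζ : ℂ) = ζ / ‖ζ‖ := congrArg (fun z : Circle => (z : ℂ)) (dif_neg h)
    rw [rt, e, div_eq_mul_inv ζ, ← Complex.ofReal_inv,
      Complex.arg_mul_real (inv_pos.2 (norm_pos_iff.2 h))]
  exact ⟨_, (Lo.rep_coe _).trans (by rw [this])⟩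

section per
variable {k : ℕ} {E F : Type} [NormedAddCommGroup E] [InnerProductSpace ℂ E]
  [FiniteDimensional ℂ E] [NormedAddCommGroup F] [InnerProductSpace ℂ F]
theorem per_all (p : E → Prop) (r : ℝ) (j : ℤ) (e : V k E) :
    (∀ i, p (Fo.g (-(r + j)) e i)) ↔ ∀ i, p (Fo.g (-r) e i) := by
  refine ⟨fun a i => ?_, fun a i => Data.g_per r j e i ▸ a _⟩
  have := a (i - ((-j : ℤ) : Ix k))
  rwa [Data.g_per, sub_add_cancel] at this
theorem per_g (f : E → F) (r : ℝ) (j : ℤ) (e : V k E) :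
    Fo.g (r + j) (fun i => f (Fo.g (-(r + j)) e i)) = Fo.g r fun i => f (Fo.g (-r) e i) := by
  rw [Fo.g_add, Lo.g_int]
  congr 1
  funext i
  change f (Fo.g (-(r + j)) e (i + j)) = _
  rw [Data.g_per, Int.cast_neg, add_neg_cancel_right]
end per

variable {k n n₁ n₂ m : ℕ} (D : Data X22 (Cn n₁) (Cn n₂))
  (s₁ : Fin n → S3 × S3 → Cn n₁) (s₂ : Fin n → S3 × S3 → Cn n₂) (y : US 2 × US 2)

/-- from coordinates -/
def U (c : CC k n × CC k n) : V k (Cn n₁ × Cn n₂) := pr (up s₁ y (fi c.1)) (up s₂ y (fi c.2))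
/-- to coordinates -/
def Dn (v : V k (Cn n₁ × Cn n₂)) : CC k n × CC k n := (fo (dn s₁ y (s1 v)), fo (dn s₂ y (s2 v)))
/-- the complement -/
def Q (v : V k (Cn n₁ × Cn n₂)) : V k (Cn n₁ × Cn n₂) := v - pv D (hx y) v

variable {D s₁ s₂} {a a' b b' : Fin n → ℤ} (h₁ : Frm D.π₁ a a' s₁) (h₂ : Frm D.π₂ b b' s₂)
include h₁ h₂

theorem Dn_sw (c : CC k n × CC k n) (v : V k (Cn n₁ × Cn n₂)) :
    Dn s₁ s₂ y (U s₁ s₂ y c + Q D y v) = c :=
  Prod.ext (dn_sw h₁ y c.1 (s1 v)) (dn_sw h₂ y c.2 (s2 v))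

theorem Q_sw (c : CC k n × CC k n) (v : V k (Cn n₁ × Cn n₂)) :
    Q D y (U s₁ s₂ y c + Q D y v) = Q D y v := by
  funext i
  refine Prod.ext ?_ ?_ <;>
    simp [Q, U, pv, N218.Pm.pr, pi_pi h₁, pi_pi h₂, pi_up y h₁, pi_up y h₂]

theorem U_Dn (v : V k (Cn n₁ × Cn n₂)) : U s₁ s₂ y (Dn s₁ s₂ y v) + Q D y v = v := by
  funext i
  refine Prod.ext ?_ ?_ <;> simp [Q, U, Dn, pv, N218.Pm.pr, fi_fo, up_dn y h₁, up_dn y h₂, s1, s2]

theorem U_eq (g : GG k) (c : CC k n × CC k n) :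
    U s₁ s₂ (ay (ph k g) y) (aw a a' (ph k g) c.1, aw b b' (ph k g) c.2) =
      fun i => U s₁ s₂ y c (i + g.1.toAdd) := by
  rw [U, up_ph h₁, up_ph h₂]; rfl

theorem Dn_eq (g : GG k) (v : V k (Cn n₁ × Cn n₂)) :
    Dn s₁ s₂ (ay (ph k g) y) (fun i => v (i + g.1.toAdd)) =
      (aw a a' (ph k g) (Dn s₁ s₂ y v).1, aw b b' (ph k g) (Dn s₁ s₂ y v).2) :=
  Prod.ext (dn_ph h₁ y g (s1 v)) (dn_ph h₂ y g (s2 v))

omit h₁ h₂ in
theorem Q_eq (g : GG k) (v : V k (Cn n₁ × Cn n₂)) :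
    Q D (ay (ph k g) y) (fun i => v (i + g.1.toAdd)) = fun i => Q D y v (i + g.1.toAdd) := by
  rw [Q, hx_ay]; rfl

omit h₁ h₂ in
theorem U_smul (t : ℝ) (c : CC k n × CC k n) : U s₁ s₂ y (t • c) = t • U s₁ s₂ y c := by
  rw [U, Prod.smul_fst, Prod.smul_snd, fi_rsmul, fi_rsmul, up_rsmul, up_rsmul]; rfl
omit h₁ h₂ in
theorem Dn_smul (t : ℝ) (v : V k (Cn n₁ × Cn n₂)) : Dn s₁ s₂ y (t • v) = t • Dn s₁ s₂ y v :=
  Prod.ext ((congrArg fo (dn_rsmul s₁ y t (s1 v))).trans (fo_rsmul _ _))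
    ((congrArg fo (dn_rsmul s₂ y t (s2 v))).trans (fo_rsmul _ _))
omit h₁ h₂ in
theorem Q_smul (t : ℝ) (v : V k (Cn n₁ × Cn n₂)) : Q D y (t • v) = t • Q D y v := by
  funext i
  refine Prod.ext ?_ ?_ <;> simp [Q, pv, smul_sub]

section ct
variable {T : Type} [TopologicalSpace T] {z : T → US 2 × US 2} (hz : Continuous z)
include hz
theorem ct_U {c : T → CC k n × CC k n} (hc : Continuous c) :
    Continuous fun t => U s₁ s₂ (z t) (c t) :=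
  continuous_pi fun i => ((continuous_apply i).comp (ct_up h₁ hz (ct_fi.comp hc.fst))).prodMk
    ((continuous_apply i).comp (ct_up h₂ hz (ct_fi.comp hc.snd)))
theorem ct_Dn {v : T → V k (Cn n₁ × Cn n₂)} (hv : Continuous v) :
    Continuous fun t => Dn s₁ s₂ (z t) (v t) :=
  (ct_fo.comp (ct_dn h₁ hz (continuous_pi fun i => ((continuous_apply i).comp hv).fst))).prodMk
    (ct_fo.comp (ct_dn h₂ hz (continuous_pi fun i => ((continuous_apply i).comp hv).snd)))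
theorem ct_Q {v : T → V k (Cn n₁ × Cn n₂)} (hv : Continuous v) :
    Continuous fun t => Q D (z t) (v t) :=
  (hv.sub (ct_U h₁ h₂ hz (ct_Dn h₁ h₂ hz hv))).congr fun t =>
    (eq_sub_of_add_eq' (U_Dn (z t) h₁ h₂ (v t))).symm
end ct

variable {c κ R₀ M : ℝ} (o : D.Ok c κ R₀ M) (S : Sat D) {kV : V k (Cn n₁ × Cn n₂) → Fin m → ℂ}
  (p : ℕ) (u : US m) (v : V k (Cn n₁ × Cn n₂)) {ζ : ℂ}
include S

theorem g_pi (r t : ℝ) (i : Ix k) :
    Fo.g r (up s₁ y (fi ((Dn s₁ s₂ y v).1.1, t • (Dn s₁ s₂ y v).1.2))) i =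
      D.π₁ (hx y) (Fo.g r (s1 (v - (1 - t) • mn v)) i) :=
  (congrArg (fun e => Fo.g r e i) (sl_w h₁ y (s1 v) t)).trans (Lo.g_N r _ _ i).symm

theorem dom (hζ : ζ ≠ 0) (t : ℝ) : ((hx y, ang ζ), v - (1 - t) • mn v) ∈ (D.Orb k).O ↔
    ∀ i, (hx y, Fo.g (-rt (an ζ))
      (up s₁ y (fi ((Dn s₁ s₂ y v).1.1, t • (Dn s₁ s₂ y v).1.2))) i) ∈ D.Ov := by
  obtain ⟨j, e⟩ := rep_ang hζ
  change (∀ i, (hx y, Fo.g (-rep (ang ζ)) (s1 (v - (1 - t) • mn v)) i) ∈ D.Ov) ↔ _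
  rw [e, per_all fun w => (hx y, w) ∈ D.Ov]
  exact forall_congr' fun i => by rw [g_pi y h₁ h₂ S, ← S.ov]

theorem main_O : ((y, u), (v, ζ)) ∈ (T2 D kV).O ↔
    ((y, u), (Dn s₁ s₂ y v, ζ)) ∈ (ld k D s₁ s₂ a a' b b' p kV).Th.O := by
  refine and_congr_right fun hζ => (dom y h₁ h₂ S v hζ _).trans ?_
  change _ ↔ wdg (OnePoint.map _ (gm k D s₁ s₂ y (an ζ)
    ((Dn s₁ s₂ y v).1.1, tt ‖ζ‖ • (Dn s₁ s₂ y v).1.2)), OnePoint.some _) ≠ ∞
  rw [gm]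
  split_ifs with i
  · exact iff_of_true i (coe_ne_infty _)
  · exact iff_of_false i fun n => n rfl

include o in
theorem main_f (K : KV k D kV) (i : ((y, u), (v, ζ)) ∈ (T2 D kV).O) :
    (T2 D kV).f ((y, u), (v, ζ)) =
      (U s₁ s₂ y (-((ld k D s₁ s₂ a a' b b' p kV).Th.f ((y, u), (Dn s₁ s₂ y v, ζ))).2.1,
        -((ld k D s₁ s₂ a a' b b' p kV).Th.f ((y, u), (Dn s₁ s₂ y v, ζ))).1) + Q D y v,
      ((ld k D s₁ s₂ a a' b b' p kV).Th.f ((y, u), (Dn s₁ s₂ y v, ζ))).2.2) := by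
  have i' := (dom y h₁ h₂ S v i.1 _).1 i.2
  obtain ⟨j, e⟩ := rep_ang i.1
  have A : (ld k D s₁ s₂ a a' b b' p kV).Th.f ((y, u), (Dn s₁ s₂ y v, ζ)) =
      (fo (dn s₂ y (Fo.g (rt (an ζ)) fun i => D.v (hx y, Fo.g (-rt (an ζ))
        (up s₁ y (fi ((Dn s₁ s₂ y v).1.1, tt ‖ζ‖ • (Dn s₁ s₂ y v).1.2))) i))) -
          (0, (1 - tt ‖ζ‖) • (Dn s₁ s₂ y v).2.2),
        (mm k D s₁ s₂ y ((Dn s₁ s₂ y v).2.1, tt ‖ζ‖ • (Dn s₁ s₂ y v).2.2) -
          (0, (1 - tt ‖ζ‖) • (Dn s₁ s₂ y v).1.2),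
        kV (pr (up s₁ y (fi (0, (Dn s₁ s₂ y v).1.2))) (up s₂ y (fi (0, (Dn s₁ s₂ y v).2.2)))) -
          ‖ζ‖ • u.1)) := by
    change vl (wdg (OnePoint.map _ (gm k D s₁ s₂ y (an ζ)
      ((Dn s₁ s₂ y v).1.1, tt ‖ζ‖ • (Dn s₁ s₂ y v).1.2)), OnePoint.some _)) = _
    rw [gm, if_pos i']; rfl
  rw [A]
  refine Prod.ext (funext fun l => Prod.ext ?_ ?_) ?_
  · change s1 (v - (1 - tt ‖ζ‖) • mn v) l - D.π₁ (hx y) (s1 (v - (1 - tt ‖ζ‖) • mn v) l) -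
      D.u (hx y, s2 (v - (1 - tt ‖ζ‖) • mn v) l) + (1 - tt ‖ζ‖) • mn (s1 v) l =
      up s₁ y (fi (-(_ - _))) l + (s1 v l - D.π₁ (hx y) (s1 v l))
    rw [fi_neg, up_neg, fi_sub, up_sub, mm, fi_fo, up_dn y h₁, Pi.neg_apply, Pi.sub_apply, S.u]
    have e1 := congrFun (sl_w h₂ y (s2 v) (tt ‖ζ‖)) l
    have e2 := sl_t h₁ y (s1 v) (1 - tt ‖ζ‖) l
    have e3 := o.up (hx y) (s2 (v - (1 - tt ‖ζ‖) • mn v) l)
    refine Eq.trans ?_ (congrArg₂ (fun p q => -(D.u (hx y, p) - q) + _) e1 e2).symm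
    refine Eq.trans ?_ (congrArg (fun p => -(p - _) + _) e3).symm
    change s1 v l - (1 - tt ‖ζ‖) • mn (s1 v) l - D.π₁ (hx y) (s1 v l - (1 - tt ‖ζ‖) • mn (s1 v) l) -
      _ + _ = _
    rw [map_sub, (D.π₁ (hx y)).map_smul_of_tower]
    abel
  · change s2 (v - (1 - tt ‖ζ‖) • mn v) l - D.π₂ (hx y) (s2 (v - (1 - tt ‖ζ‖) • mn v) l) -
      Fo.g (rep (ang ζ)) (fun i => D.v (hx y, Fo.g (-rep (ang ζ))
        (s1 (v - (1 - tt ‖ζ‖) • mn v)) i)) l + (1 - tt ‖ζ‖) • mn (s2 v) l =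
      up s₂ y (fi (-(_ - _))) l + (s2 v l - D.π₂ (hx y) (s2 v l))
    rw [e, per_g fun w => D.v (hx y, w), fi_neg, up_neg, fi_sub, up_sub, fi_fo,
      up_dn' y h₂ (pi_g y h₂ _ fun i => o.vp _ (i' i)), Pi.neg_apply, Pi.sub_apply]
    simp only [g_pi y h₁ h₂ S, S.v]
    have e2 := sl_t h₂ y (s2 v) (1 - tt ‖ζ‖) l
    refine Eq.trans ?_ (congrArg (fun q => -(_ - q) + _) e2).symm
    change s2 v l - (1 - tt ‖ζ‖) • mn (s2 v) l - D.π₂ (hx y) (s2 v l - (1 - tt ‖ζ‖) • mn (s2 v) l) -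
      _ + _ = _
    rw [map_sub, (D.π₂ (hx y)).map_smul_of_tower]
    abel
  · change kV (pv D (hx y) v) - _ = kV _ - _
    rw [← K.od]
    exact congrArg (fun w => kV w - _)
      (congrArg₂ N218.Pm.pr (sl_m h₁ y (s1 v)) (sl_m h₂ y (s2 v))).symm

end Crest.Agent.N218.D6.Lk

end
end

-- ▼ part N218/D6/Link1
section

/-!
# Row 218, block D6 (helper45): the leaf LINK1
-/

set_option autoImplicit false
set_option linter.unusedVariables false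
set_option maxHeartbeats 400000

open Set OnePoint Module

noncomputable section

namespace Crest.Agent.N218.D6.Lk

open K K.Cp Pm In
open Sk (Cn S3 X22 Frm Sat)

variable {k n n₁ n₂ : ℕ} (m : ℕ) {D : Data X22 (Cn n₁) (Cn n₂)}
  {s₁ : Fin n → S3 × S3 → Cn n₁} {s₂ : Fin n → S3 × S3 → Cn n₂}
  {a a' b b' : Fin n → ℤ} (h₁ : Frm D.π₁ a a' s₁) (h₂ : Frm D.π₂ b b' s₂) (p : ℕ)
  (kV : V k (Cn n₁ × Cn n₂) → Fin m → ℂ)

variable (k) in
/-- passive factor -/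
abbrev PV (E : Type) [NormedAddCommGroup E] [NormedSpace ℝ E] [FiniteDimensional ℝ E] :
    Rep (GG k) := (VV k E).prod (Rep.triv _ ℂ)
/-- the other passive factor -/
abbrev PS (d : LD GT (GG k)) : Rep (GG k) := (d.rs d.S).prod (Rep.triv _ ℂ)

/-- the swap of the sources -/
def al : FI (YG k m) ((ld k D s₁ s₂ a a' b b' p kV).SC.prod (PV k (Cn n₁ × Cn n₂)).ls)
    ((VS k (Cn n₁ × Cn n₂)).prod (PS (ld k D s₁ s₂ a a' b b' p kV)).ls) where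
  f x := ((U s₁ s₂ x.1.1 x.2.1.1 + Q D x.1.1 x.2.2.1, x.2.1.2), (Dn s₁ s₂ x.1.1 x.2.2.1, x.2.2.2))
  g x := ((Dn s₁ s₂ x.1.1 x.2.1.1, x.2.1.2), (U s₁ s₂ x.1.1 x.2.2.1 + Q D x.1.1 x.2.1.1, x.2.2.2))
  cf := (((ct_U h₁ h₂ continuous_fst.fst continuous_snd.fst.fst).add
    (ct_Q h₁ h₂ continuous_fst.fst continuous_snd.snd.fst)).prodMk continuous_snd.fst.snd).prodMk
    ((ct_Dn h₁ h₂ continuous_fst.fst continuous_snd.snd.fst).prodMk continuous_snd.snd.snd)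
  cg := ((ct_Dn h₁ h₂ continuous_fst.fst continuous_snd.fst.fst).prodMk
    continuous_snd.fst.snd).prodMk (((ct_U h₁ h₂ continuous_fst.fst continuous_snd.snd.fst).add
    (ct_Q h₁ h₂ continuous_fst.fst continuous_snd.fst.fst)).prodMk continuous_snd.snd.snd)
  gf y w := Prod.ext (Prod.ext (Dn_sw y.1 h₁ h₂ _ _) rfl) (Prod.ext
    ((congrArg (_ + ·) (Q_sw y.1 h₁ h₂ _ _)).trans (U_Dn y.1 h₁ h₂ _)) rfl)
  fg y w := Prod.ext (Prod.ext ((congrArg (_ + ·) (Q_sw y.1 h₁ h₂ _ _)).trans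
    (U_Dn y.1 h₁ h₂ _)) rfl) (Prod.ext (Dn_sw y.1 h₁ h₂ _ _) rfl)
  eq g y w := Prod.ext (Prod.ext (congrArg₂ (· + ·) (U_eq y.1 h₁ h₂ g w.1.1) (Q_eq y.1 g w.2.1))
    rfl) (Prod.ext (Dn_eq y.1 h₁ h₂ g w.2.1) rfl)

theorem aw_neg (a a' : Fin n → ℤ) (g : GT) (c : CC k n) : -aw a a' g c = aw a a' g (-c) :=
  (((WE k a a').prod (WO k a a')).ρ g).map_neg c |>.symm

/-- the swap of the targets -/
def be : FI (YG k m) (((ld k D s₁ s₂ a a' b b' p kV).rs (ld k D s₁ s₂ a a' b b' p kV).T).ls.prod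
      (PV k (Cn n₁ × Cn n₂)).ls)
    ((VT k m (Cn n₁ × Cn n₂)).ls.prod (PS (ld k D s₁ s₂ a a' b b' p kV)).ls) where
  f x := ((U s₁ s₂ x.1.1 (-(show CC k n from x.2.1.2.1), -(show CC k n from x.2.1.1)) +
    Q D x.1.1 x.2.2.1, x.2.1.2.2), (Dn s₁ s₂ x.1.1 x.2.2.1, x.2.2.2))
  g x := ((-(Dn s₁ s₂ x.1.1 x.2.1.1).2, -(Dn s₁ s₂ x.1.1 x.2.1.1).1, x.2.1.2),
    (U s₁ s₂ x.1.1 x.2.2.1 + Q D x.1.1 x.2.1.1, x.2.2.2))
  cf := (((ct_U h₁ h₂ continuous_fst.fst ((Continuous.neg (G := CC k n)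
    continuous_snd.fst.snd.fst).prodMk (Continuous.neg (G := CC k n) continuous_snd.fst.fst))).add
    (ct_Q h₁ h₂ continuous_fst.fst continuous_snd.snd.fst)).prodMk
    continuous_snd.fst.snd.snd).prodMk
    ((ct_Dn h₁ h₂ continuous_fst.fst continuous_snd.snd.fst).prodMk continuous_snd.snd.snd)
  cg := ((ct_Dn h₁ h₂ continuous_fst.fst continuous_snd.fst.fst).snd.neg.prodMk
    ((ct_Dn h₁ h₂ continuous_fst.fst continuous_snd.fst.fst).fst.neg.prodMk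
    continuous_snd.fst.snd)).prodMk (((ct_U h₁ h₂ continuous_fst.fst continuous_snd.snd.fst).add
    (ct_Q h₁ h₂ continuous_fst.fst continuous_snd.fst.fst)).prodMk continuous_snd.snd.snd)
  gf y w := Prod.ext (Prod.ext
    ((congrArg (fun c : CC k n × CC k n => -c.2) (Dn_sw y.1 h₁ h₂ _ _)).trans (neg_neg _))
    (Prod.ext ((congrArg (fun c : CC k n × CC k n => -c.1) (Dn_sw y.1 h₁ h₂ _ _)).trans
      (neg_neg _)) rfl))
    (Prod.ext ((congrArg (_ + ·) (Q_sw y.1 h₁ h₂ _ _)).trans (U_Dn y.1 h₁ h₂ _)) rfl)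
  fg y w := Prod.ext (Prod.ext ((congrArg₂ (· + ·) (congrArg (U s₁ s₂ y.1)
    (Prod.ext (neg_neg _) (neg_neg _))) (Q_sw y.1 h₁ h₂ _ _)).trans
    (U_Dn y.1 h₁ h₂ _)) rfl) (Prod.ext (Dn_sw y.1 h₁ h₂ _ _) rfl)
  eq g y w := Prod.ext (Prod.ext (congrArg₂ (· + ·) ((congrArg (U s₁ s₂ _)
    (Prod.ext (aw_neg a a' _ w.1.2.1) (aw_neg b b' _ w.1.1))).trans (U_eq y.1 h₁ h₂ g
      (-(show CC k n from w.1.2.1), -(show CC k n from w.1.1)))) (Q_eq y.1 g w.2.1))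
    rfl) (Prod.ext (Dn_eq y.1 h₁ h₂ g w.2.1) rfl)

theorem th_PV (E : Type) [NormedAddCommGroup E] [NormedSpace ℝ E] [FiniteDimensional ℝ E] {r : ℕ}
    (h : finrank ℝ E = 2 * r) : ∃ l, (Sb (YG k m) (PV k E).ls).Th l := by
  obtain ⟨l, -, u, -⟩ := Cx.sp (hχ := cc (ck k)) (r := m) Th.thom (Fo.inc_inj _)
    (D3.Rp.cx_rr (k := k) h)
  have e : Eqv (Y' := YG k m) (Y := Sp (ck k) (cc _) m) (pg k)
    ⟨fun y : (US 2 × US 2) × US m => y.2, continuous_snd⟩ := fun _ _ => rfl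
  obtain ⟨l', u', -⟩ := ut_even Th.thom (YG k m) ℂ 1 (by simp)
  exact ⟨_, ((u.pull (pg_ct k) e (e.mp (pg_ct k) _)).xm u').th⟩

section
variable {m kV} {c κ R₀ M : ℝ} (o : D.Ok c κ R₀ M) (S : Sat D) (y : US 2 × US 2) (u : US m)
  {v q : V k (Cn n₁ × Cn n₂)} {ζ : ℂ} {w : CC k n × CC k n} (e : Dn s₁ s₂ y v = w)
include h₁ h₂ S e
theorem mO : ((y, u), (v, ζ)) ∈ (T2 D kV).O ↔
    ((y, u), (w, ζ)) ∈ (ld k D s₁ s₂ a a' b b' p kV).Th.O := by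
  subst e; exact main_O y h₁ h₂ S p u v
include o in
theorem mf (K : KV k D kV) (e' : Q D y v = q)
    (i : ((y, u), (w, ζ)) ∈ (ld k D s₁ s₂ a a' b b' p kV).Th.O) :
    (T2 D kV).f ((y, u), (v, ζ)) =
      (U s₁ s₂ y (-((ld k D s₁ s₂ a a' b b' p kV).Th.f ((y, u), (w, ζ))).2.1,
        -((ld k D s₁ s₂ a a' b b' p kV).Th.f ((y, u), (w, ζ))).1) + q,
      ((ld k D s₁ s₂ a a' b b' p kV).Th.f ((y, u), (w, ζ))).2.2) := by
  subst e e'; exact main_f y h₁ h₂ o S p u v K ((main_O y h₁ h₂ S p u v).2 i)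
end

end Lk

open K Pm In Lk in
/-- **LINK1** from the change of normalisation -/
theorem link1_of (H : L1B) : LINK1 := by
  intro k n n₁ n₂ D c κ R₀ M a a' b b' s₁ s₂ hk o S h₁ h₂ m p kV K d A δ hδ F lT lS e t s he
  obtain ⟨B, ht⟩ := H k n₁ n₂ m D c κ R₀ M kV δ o S K hδ F
  obtain ⟨lP, tP⟩ := th_PV (k := k) m (Sk.Cn n₁ × Sk.Cn n₂) (r := n₁ + n₂) (by
    rw [finrank_prod, finrank_real_of_complex, finrank_real_of_complex]; simp [mul_add])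
  obtain ⟨lT', lS', t', s', e'⟩ := swap A B (PV k _) (PS _) (al m h₁ h₂ p kV) (be m h₁ h₂ p kV)
    (fun y r w => Prod.ext (Prod.ext ((congrArg₂ (· + ·) ((congrArg (U s₁ s₂ y.1)
      (Prod.ext (smul_neg (A := CC k n) r _).symm (smul_neg (A := CC k n) r _).symm)).trans
      (U_smul y.1 r (_, _))) (Q_smul y.1 r _)).trans (smul_add _ _ _).symm) rfl)
      (Prod.ext (Dn_smul y.1 r _) rfl))
    (fun y w => mO h₁ h₂ p S y.1 y.2 (Dn_sw y.1 h₁ h₂ w.1.1 w.2.1))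
    (fun y w i => Prod.ext (mf h₁ h₂ p o S y.1 y.2 (Dn_sw y.1 h₁ h₂ w.1.1 w.2.1) K
      (Q_sw y.1 h₁ h₂ w.1.1 w.2.1) i) rfl) tP s t s he
  exact ⟨lT', lS', 1, t', s', isUnit_one, by rw [one_mul, ← FP.pb_eq ht]; exact e'⟩

end Crest.Agent.N218.D6

end
end

-- ▼ part N218/D6/Lk2

/-!
# Row 218, block D6, leaf LINK1 (helper56): change of the normalising function and of the cycle
-/

set_option autoImplicit false
set_option linter.unusedVariables false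
set_option linter.unusedSectionVars false
set_option maxHeartbeats 400000

open Set unitInterval Metric

noncomputable section

namespace Crest.Agent.N218.D6.Lk

open K Pm In
open Sk (Cn X22 Sat)

namespace Lb

theorem cp_of {X W : Type} [TopologicalSpace X] [T2Space X] [TopologicalSpace W] [T1Space W]
    [Zero W] {O K : Set X} {f : X → W} (c : ContinuousOn f O) (k : IsCompact K) (s : K ⊆ O)
    (z : ∀ x ∈ O, f x = 0 → x ∈ K) : IsCompact {x ∈ O | f x = 0} := by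
  have := k.of_isClosed_subset ((c.mono s).preimage_isClosed_of_isClosed k.isClosed
    (isClosed_singleton (x := 0))) inter_subset_left
  convert this using 1
  exact Set.ext fun x => ⟨fun a => ⟨z x a.1 a.2, a.2⟩, fun a => ⟨s a.1, a.2⟩⟩

theorem tt_c : Continuous tt := by unfold tt; fun_prop
theorem tt0 {ρ : ℝ} (h : ρ ≤ 5 / 4) : tt ρ = 0 := max_eq_left (min_le_of_right_le (by linarith))
theorem tt1 {ρ : ℝ} (h : 3 / 2 ≤ ρ) : tt ρ = 1 := by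
  rw [tt, min_eq_left (by linarith), max_eq_right zero_le_one]
theorem tt_mem (ρ : ℝ) : tt ρ ∈ Icc (0 : ℝ) 1 :=
  ⟨le_max_left _ _, max_le zero_le_one (min_le_left _ _)⟩

theorem us_le {m : ℕ} (u : US m) : ‖u.1‖ ≤ 1 :=
  (pi_norm_le_iff_of_nonneg zero_le_one).2 fun i => Un1.norm_le u.2 i
theorem us_ge {m : ℕ} (u : US m) : 1 ≤ m * ‖u.1‖ := by
  have a : ‖∑ i, (starRingEnd ℂ) (u.1 i) * u.1 i‖ = 1 := by rw [show _ = _ from u.2, norm_one]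
  rw [← a]
  refine (norm_sum_le _ _).trans ((Finset.sum_le_card_nsmul _ _ ‖u.1‖ fun i _ => ?_).trans ?_)
  · rw [norm_mul, RCLike.norm_conj]
    exact (mul_le_of_le_one_left (norm_nonneg _) (Un1.norm_le u.2 i)).trans (norm_le_pi_norm _ i)
  · simp

section
variable {k : ℕ} {E : Type} [NormedAddCommGroup E] [NormedSpace ℝ E]

/-- translation -/
abbrev tr (g : Ix k) (y : V k E) : V k E := fun i => y (i + g)

theorem tr0 (y : V k E) : tr 0 y = y := funext fun i => congrArg y (add_zero i)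
theorem mn_tr (g : Ix k) (y : V k E) : mn (tr g y) = tr g (mn y) :=
  funext fun i => by simp only [mn, tr, add_right_comm]
theorem norm_tr (g : Ix k) (y : V k E) : ‖tr g y‖ = ‖y‖ :=
  (Equiv.addRight g).surjective.pi_norm_comp y

theorem mn_tr0 {g : Ix k} {y : V k E} (e : mn (tr g y) = 0) : mn y = 0 := by
  rwa [mn_tr, ← norm_eq_zero, norm_tr, norm_eq_zero] at e

theorem pm_act {B : Type} [TopologicalSpace B] {A : PM B k E} (h : A.Ok) (g : Ix k) :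
    ∀ b y, (b, y) ∈ A.O → (b, tr g y) ∈ A.O ∧ A.P (b, tr g y) = tr g (A.P (b, y)) := by
  induction g using sh_ind with
  | h0 => exact fun b y a => by simp only [tr0]; exact ⟨a, trivial⟩
  | h1 g ih =>
    intro b y a
    obtain ⟨u, v⟩ := ih b y a
    unfold tr at *
    rw [← sh_tr, ← sh_tr, ← v]
    exact ⟨h.inv _ u, h.eq _ u⟩
end

variable {k n₁ n₂ m : ℕ} (D : Data X22 (Cn n₁) (Cn n₂)) {c κ R₀ M : ℝ}

/-- zeros lie in the ranges of the projections -/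
theorem pv_eq (h : D.Ok c κ R₀ M) (S : Sat D) {b : X22 × UnitAddCircle}
    {v a : V k (Cn n₁ × Cn n₂)} (o : (b, v - a) ∈ (D.Orb k).O)
    (e : (D.Orb k).P (b, v - a) + a = 0) : pv D b.1 v = v := by
  funext i
  have e1 : (v i).1 = D.π₁ b.1 ((v - a) i).1 + D.u (b.1, ((v - a) i).2) := by
    have : (v i).1 - (a i).1 - D.π₁ b.1 ((v - a) i).1 - D.u (b.1, ((v - a) i).2) + (a i).1 = 0 :=
      congrArg (fun w => (w i).1) e
    rw [← sub_eq_zero, ← this]; abel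
  have e2 : (v i).2 = D.π₂ b.1 ((v - a) i).2 + Fo.g (rep b.2)
      (fun i => D.v (b.1, Fo.g (-rep b.2) (s1 (v - a)) i)) i := by
    have : (v i).2 - (a i).2 - D.π₂ b.1 ((v - a) i).2 - Fo.g (rep b.2)
        (fun i => D.v (b.1, Fo.g (-rep b.2) (s1 (v - a)) i)) i + (a i).2 = 0 :=
      congrArg (fun w => (w i).2) e
    rw [← sub_eq_zero, ← this]; abel
  refine Prod.ext ?_ ?_
  · change D.π₁ b.1 (v i).1 = _
    rw [e1, map_add, h.p₁.id, S.u]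
  · change D.π₂ b.1 (v i).2 = _
    have := congrFun (Fo.mu_N (Fo.gs (rep b.2)) (D.π₂ b.1)
      fun i => D.v (b.1, Fo.g (-rep b.2) (s1 (v - a)) i)) i
    rw [e2, map_add, h.p₂.id, Fo.g, ← this]
    exact congrArg (fun w => _ + Fo.mu _ w i) (funext fun j => h.vp _ (o j))

variable (k n₁ n₂ m) in
/-- the total space -/
abbrev TT : Type := I × ((US 2 × US 2) × US m) × V k (Cn n₁ × Cn n₂) × ℂ

variable (kV : V k (Cn n₁ × Cn n₂) → Fin m → ℂ) (δ : ℝ)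

/-- the base point -/
def bb (z : TT k n₁ n₂ m) : X22 × UnitAddCircle := (hx z.2.1.1, ang z.2.2.2)
/-- the normalising function -/
def ta (z : TT k n₁ n₂ m) : ℝ := (1 - z.1) * tt ‖z.2.2.2‖ + z.1 * tau δ ((), z.2.2.1)
/-- the correction -/
def aa (z : TT k n₁ n₂ m) : V k (Cn n₁ × Cn n₂) := (1 - ta δ z) • mn z.2.2.1
/-- the domain -/
def OO : Set (TT k n₁ n₂ m) := {z | z.2.2.2 ≠ 0 ∧ (bb z, z.2.2.1 - aa δ z) ∈ (D.Orb k).O}
/-- the map -/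
def ff (z : TT k n₁ n₂ m) : V k (Cn n₁ × Cn n₂) × (Fin m → ℂ) :=
  ((D.Orb k).P (bb z, z.2.2.1 - aa δ z) + aa δ z,
    kV (z.2.2.1 - (1 - z.1 : ℝ) • (z.2.2.1 - pv D (hx z.2.1.1) z.2.2.1)) - ‖z.2.2.2‖ • z.2.1.2.1)

variable {D kV δ}

theorem ta_c : Continuous (ta δ : TT k n₁ n₂ m → ℝ) := by
  have := tt_c
  unfold ta tau
  fun_prop
theorem aa_c : Continuous (aa δ : TT k n₁ n₂ m → _) := by
  have := ta_c (k := k) (n₁ := n₁) (n₂ := n₂) (m := m) (δ := δ)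
  unfold aa
  fun_prop
theorem ta_mem (hδ : 0 < δ) (z : TT k n₁ n₂ m) : ta δ z ∈ Icc (0 : ℝ) 1 := by
  have a := tt_mem ‖z.2.2.2‖
  have b := (tau_ok hδ).mem ((), z.2.2.1)
  have c := z.1.2
  unfold ta
  constructor <;> nlinarith [a.1, a.2, b.1, b.2, c.1, c.2]
theorem cw_c : ContinuousOn (fun z : TT k n₁ n₂ m => (bb z, z.2.2.1 - aa δ z))
    {z | z.2.2.2 ≠ 0} := by
  have a : Continuous fun z : TT k n₁ n₂ m => hx z.2.1.1 := by fun_prop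
  have b : ContinuousOn (fun z : TT k n₁ n₂ m => ang z.2.2.2) {z | z.2.2.2 ≠ 0} :=
    ang_on.comp (f := fun z : TT k n₁ n₂ m => z.2.2.2) (by fun_prop) fun _ a => a
  have c : Continuous fun z : TT k n₁ n₂ m => z.2.2.1 := by fun_prop
  exact (a.continuousOn.prodMk b).prodMk (c.sub aa_c).continuousOn

theorem op (h : D.Ok c κ R₀ M) : IsOpen (OO D δ : Set (TT k n₁ n₂ m)) :=
  cw_c.isOpen_inter_preimage (isOpen_ne_fun (by fun_prop) continuous_const) (Sk.Sa.orb_ok h k).op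

theorem ct (h : D.Ok c κ R₀ M) (H : KV k D kV) : ContinuousOn (ff D kV δ) (OO D δ) := by
  have p1 := h.p₁.ct
  have p2 := h.p₂.ct
  have := H.ct
  refine ContinuousOn.prodMk (((Sk.Sa.orb_ok h k).ct.comp (cw_c.mono fun _ a => a.1)
    fun _ a => a.2).add aa_c.continuousOn) (Continuous.continuousOn ?_)
  unfold pv
  fun_prop

theorem zer (h : D.Ok c κ R₀ M) (S : Sat D) {z : TT k n₁ n₂ m} (o : z ∈ OO D δ)
    (e : ff D kV δ z = 0) : (D.Orb k).P (bb z, z.2.2.1 - aa δ z) + aa δ z = 0 ∧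
      kV z.2.2.1 = ‖z.2.2.2‖ • z.2.1.2.1 := by
  have e1 : (D.Orb k).P (bb z, z.2.2.1 - aa δ z) + aa δ z = 0 := congrArg Prod.fst e
  have e2 : kV (z.2.2.1 - (1 - z.1 : ℝ) • (z.2.2.1 - pv D (hx z.2.1.1) z.2.2.1)) -
    ‖z.2.2.2‖ • z.2.1.2.1 = 0 := congrArg Prod.snd e
  have p : pv D (hx z.2.1.1) z.2.2.1 = z.2.2.1 := pv_eq D h S o.2 e1
  rw [p, sub_self, smul_zero, sub_zero, sub_eq_zero] at e2
  exact ⟨e1, e2⟩

theorem mn_ne (H : KV k D kV) {v : V k (Cn n₁ × Cn n₂)} {ζ : ℂ} {u : US m} (a : ζ ≠ 0)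
    (e : kV v = ‖ζ‖ • u.1) : mn v ≠ 0 := fun b => by
  rw [(H.z v).2 b, eq_comm, smul_eq_zero, norm_eq_zero] at e
  have := us_ge u
  rw [e.resolve_left a, norm_zero, mul_zero] at this
  linarith

theorem up (h : D.Ok c κ R₀ M) (S : Sat D) (H : KV k D kV) (hδ : 0 < δ) {z : TT k n₁ n₂ m}
    (o : z ∈ OO D δ) (e : ff D kV δ z = 0) : ‖z.2.2.2‖ ≤ 3 / 2 ∨ ‖mn z.2.2.1‖ ≤ δ := by
  obtain ⟨e1, e2⟩ := zer h S o e
  by_contra n
  rw [not_or, not_le, not_le] at n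
  have t : aa δ z = 0 := by
    rw [aa, ta, tt1 n.1.le, (tau_ok hδ).o ((), z.2.2.1) n.2.le]; simp
  have o2 := o.2
  rw [t, sub_zero] at o2
  rw [t, sub_zero, add_zero] at e1
  exact H.sm _ o2 e1 z.2.1.2 _ (by linarith [n.1]) e2

theorem lo (h : D.Ok c κ R₀ M) (S : Sat D) (H : KV k D kV) (hδ : 0 < δ) {z : TT k n₁ n₂ m}
    (o : z ∈ OO D δ) (e : ff D kV δ z = 0) : 5 / 4 ≤ ‖z.2.2.2‖ ∨ δ / 2 ≤ ‖mn z.2.2.1‖ := by
  obtain ⟨e1, e2⟩ := zer h S o e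
  by_contra n
  rw [not_or, not_le, not_le] at n
  have t : ta δ z = 0 := by
    have : tau δ ((), z.2.2.1) = 0 := max_eq_left (min_le_of_right_le (by
      rw [sub_nonpos, div_le_one hδ]; linarith [n.2]))
    rw [ta, tt0 n.1.le, this]; simp
  have o2 := o.2
  rw [aa, t] at o2 e1
  exact mn_ne H o.1 e2 ((Sk.Sa.orb_ok h k).t0 o2 e1)

theorem bds (h : D.Ok c κ R₀ M) (S : Sat D) (H : KV k D kV) (hδ : 0 < δ) : ∃ R C : ℝ,
    ∀ z ∈ (OO D δ : Set (TT k n₁ n₂ m)), ff D kV δ z = 0 → ‖aa δ z‖ ≤ R ∧ ‖z.2.2.2‖ ≤ C := by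
  obtain ⟨R, hR⟩ := H.pr (3 / 2)
  obtain ⟨C, hC⟩ := (isCompact_closedBall (0 : V k (Cn n₁ × Cn n₂)) δ).exists_bound_of_continuousOn
    H.ct.continuousOn
  refine ⟨max R δ, max (3 / 2) (m * C), fun z o e => ?_⟩
  have e2 := (zer h S o e).2
  have u := up h S H hδ o e
  have nk : ‖kV z.2.2.1‖ = ‖z.2.2.2‖ * ‖z.2.1.2.1‖ := by rw [e2, norm_smul, norm_norm]
  have b1 : ‖mn z.2.2.1‖ ≤ max R δ := u.elim (fun a => le_max_of_le_left (hR _ (by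
    rw [nk]
    exact (mul_le_of_le_one_right (norm_nonneg _) (us_le _)).trans a))) le_max_of_le_right
  refine ⟨?_, u.elim le_max_of_le_left fun a => ?_⟩
  · have := ta_mem hδ z
    rw [aa, norm_smul, Real.norm_of_nonneg (sub_nonneg.2 this.2)]
    exact (mul_le_of_le_one_left (norm_nonneg _) (sub_le_self _ this.1)).trans b1
  · have := hC _ (mem_closedBall_zero_iff.2 a)
    rw [H.od, nk] at this
    refine le_max_of_le_right ((le_mul_of_one_le_right (norm_nonneg _) (us_ge z.2.1.2)).trans ?_)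
    rw [mul_left_comm]
    exact mul_le_mul_of_nonneg_left this (Nat.cast_nonneg _)

variable (kV δ) in
/-- a compact set away from `ζ = 0` -/
def KK (R C : ℝ) : Set (TT k n₁ n₂ m) :=
  (univ ×ˢ univ ×ˢ closedBall 0 R ×ˢ closedBall 0 C) ∩
    (({z | 5 / 4 ≤ ‖z.2.2.2‖} ∪ {z | δ / 2 ≤ ‖mn z.2.2.1‖}) ∩
      {z | kV z.2.2.1 = ‖z.2.2.2‖ • z.2.1.2.1})

theorem KK_cp (H : KV k D kV) (R C : ℝ) : IsCompact (KK kV δ R C) := by
  have := H.ct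
  have a : Continuous fun z : TT k n₁ n₂ m => ‖z.2.2.2‖ := by fun_prop
  have b : Continuous fun z : TT k n₁ n₂ m => ‖mn z.2.2.1‖ := by fun_prop
  have c : Continuous fun z : TT k n₁ n₂ m => kV z.2.2.1 := by fun_prop
  have d : Continuous fun z : TT k n₁ n₂ m => ‖z.2.2.2‖ • z.2.1.2.1 := by fun_prop
  exact (isCompact_univ.prod (isCompact_univ.prod ((isCompact_closedBall _ _).prod
    (isCompact_closedBall _ _)))).inter_right (((isClosed_le continuous_const a).union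
      (isClosed_le continuous_const b)).inter (isClosed_eq c d))

theorem KK_ne (H : KV k D kV) (hδ : 0 < δ) (R C : ℝ) : KK kV δ R C ⊆ {z | z.2.2.2 ≠ 0} :=
  fun z a e => by
    have b : kV z.2.2.1 = ‖z.2.2.2‖ • z.2.1.2.1 := a.2.2
    have c : 5 / 4 ≤ ‖z.2.2.2‖ ∨ δ / 2 ≤ ‖mn z.2.2.1‖ := a.2.1
    rw [e, norm_zero, zero_smul, H.z] at b
    rw [e, b, norm_zero, norm_zero] at c
    rcases c with c | c <;> linarith

theorem cp2 (H : KV k D kV) (hδ : 0 < δ) (R C : ℝ)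
    {K : Set ((X22 × UnitAddCircle) × V k (Cn n₁ × Cn n₂))} (k1 : IsCompact K) :
    IsCompact (KK kV δ R C ∩ {z | (bb z, z.2.2.1 - aa δ z) ∈ K}) :=
  have k2 := KK_cp (δ := δ) H R C
  k2.of_isClosed_subset (((cw_c (δ := δ)).mono
    (KK_ne H hδ R C)).preimage_isClosed_of_isClosed k2.isClosed k1.isClosed) inter_subset_left

theorem cp3 {B F : Type} [TopologicalSpace B] [CompactSpace B] [NormedAddCommGroup F]
    [NormedSpace ℝ F] {A : PM B k F} (h : A.Ok) (R : ℝ) : ∃ (K : Set (B × V k F)) (N : ℝ),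
    IsCompact K ∧ K ⊆ A.O ∧ (∀ b w, (b, w) ∈ K → ‖w‖ ≤ N) ∧
      ∀ b w a, (b, w) ∈ A.O → A.P (b, w) + a = 0 → ‖a‖ ≤ R → (b, w) ∈ K := by
  have k1 := h.pp univ isCompact_univ R
  obtain ⟨N, hN⟩ := k1.exists_bound_of_continuousOn continuous_snd.continuousOn
  exact ⟨_, N, k1, fun _ a => a.1, fun b w a => hN _ a, fun b w a o e n =>
    ⟨o, trivial, by rwa [eq_neg_of_add_eq_zero_left e, norm_neg]⟩⟩

theorem cp (h : D.Ok c κ R₀ M) (S : Sat D) (H : KV k D kV) (hδ : 0 < δ) :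
    IsCompact {z ∈ (OO D δ : Set (TT k n₁ n₂ m)) | ff D kV δ z = 0} := by
  obtain ⟨R, C, hb⟩ := bds h S H hδ
  obtain ⟨K, N, k1, s1, hN, hK⟩ := cp3 (Sk.Sa.orb_ok h k) R
  refine cp_of (ct h H) (cp2 H hδ (N + R) C k1) (fun z a => ⟨KK_ne H hδ _ _ a.1, s1 a.2⟩)
    fun z o e => ?_
  obtain ⟨e1, e2⟩ := zer h S o e
  obtain ⟨b3, b2⟩ := hb z o e
  have b4 := hK _ _ _ o.2 e1 b3
  have b7 : ‖z.2.2.1‖ ≤ N + R := by
    have := norm_add_le (z.2.2.1 - aa δ z) (aa δ z)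
    rw [sub_add_cancel] at this
    linarith [hN _ _ b4]
  exact ⟨⟨⟨trivial, trivial, mem_closedBall_zero_iff.2 b7, mem_closedBall_zero_iff.2 b2⟩,
    lo h S H hδ o e, e2⟩, b4⟩

/-- the action -/
def ac (g : GG k) (z : TT k n₁ n₂ m) : TT k n₁ n₂ m :=
  (z.1, (YG k m).act g z.2.1, tr g.1.toAdd z.2.2.1, z.2.2.2)

theorem hx_ac (g : GG k) (z : TT k n₁ n₂ m) : hx (ac g z).2.1.1 = hx z.2.1.1 := hx_ay (ph k g) _
theorem bb_ac (g : GG k) (z : TT k n₁ n₂ m) : bb (ac g z) = bb z := Prod.ext (hx_ac g z) rfl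
theorem aa_ac (g : GG k) (z : TT k n₁ n₂ m) : aa δ (ac g z) = tr g.1.toAdd (aa δ z) := by
  simp only [aa, ta, ac, tau, mn_tr, norm_tr]; rfl

theorem eqv (h : D.Ok c κ R₀ M) (H : KV k D kV) (g : GG k) {z : TT k n₁ n₂ m} (o : z ∈ OO D δ) :
    ac g z ∈ OO D δ ∧ ff D kV δ (ac g z) =
      (tr g.1.toAdd (ff D kV δ z).1, fun j => (ck k g.1 : ℂ) * (ff D kV δ z).2 j) := by
  obtain ⟨a, b⟩ := pm_act (Sk.Sa.orb_ok h k) g.1.toAdd _ _ o.2
  refine ⟨⟨o.1, ?_⟩, Prod.ext ?_ ?_⟩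
  · rw [bb_ac, aa_ac]; exact a
  · simp only [ff, bb_ac, aa_ac]
    exact congrArg (· + tr g.1.toAdd (aa δ z)) b
  · simp only [ff, hx_ac]
    have := H.eq g.1 (z.2.2.1 - (1 - z.1 : ℝ) • (z.2.2.1 - pv D (hx z.2.1.1) z.2.2.1))
    refine (congrArg (· - ‖z.2.2.2‖ • fun j => (ck k g.1 : ℂ) * z.2.1.2.1 j) this).trans ?_
    funext j
    simp only [Pi.sub_apply, Pi.smul_apply, Complex.real_smul]
    ring

variable (x : ((US 2 × US 2) × US m) × V k (Cn n₁ × Cn n₂) × ℂ)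

theorem a0 : aa δ ((0, x) : TT k n₁ n₂ m) = (1 - tt ‖x.2.2‖) • mn x.2.1 := by simp [aa, ta]
theorem a1 : aa δ ((1, x) : TT k n₁ n₂ m) =
    (1 - tau δ ((hx x.1.1, ang x.2.2), x.2.1)) • mn x.2.1 := by simp [aa, ta, tau]
theorem O0 : x ∈ (T2 D kV).O ↔ (0, x) ∈ OO D δ := by
  simp only [OO, mem_ofPred_eq, a0]; rfl
theorem f0 : (T2 D kV).f x = ff D kV δ (0, x) := by
  simp only [ff, a0]
  refine Prod.ext rfl (congrArg (fun w => kV w - _) ?_)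
  simp
theorem O1 : x ∈ (ThV ((D.Orb k).F (tau δ)) kV).O ↔ (1, x) ∈ OO D δ ∧ mn x.2.1 ≠ 0 := by
  simp only [OO, mem_ofPred_eq, a1]
  exact ⟨fun a => ⟨⟨a.1, a.2.2⟩, a.2.1⟩, fun a => ⟨a.1.1, a.2, a.1.2⟩⟩
theorem f1 : (ThV ((D.Orb k).F (tau δ)) kV).f x = ff D kV δ (1, x) := by
  simp only [ff, a1]
  refine Prod.ext rfl (congrArg (fun w => kV w - _) ?_)
  simp

end Lb
open Lb

/-- **sub-leaf L1B** -/
theorem l1b : L1B := fun k n₁ n₂ m D c κ R₀ M kV δ h S H hδ hF => by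
  let P1 : FP (YG k m) (VS k (Cn n₁ × Cn n₂)) (VT k m (Cn n₁ × Cn n₂)) :=
    ⟨{x | (1, x) ∈ OO D δ}, fun x => ff D kV δ (1, x)⟩
  obtain ⟨o0, o1, ht⟩ := FP.ht_of (T2 D kV) P1 (OO D δ) (ff D kV δ) (op h)
    (fun g t x o => (eqv h H g o).1) (ct h H) (fun g t x o => (eqv h H g o).2) (cp h S H hδ)
    O0 (fun x _ => f0 x) (fun _ => Iff.rfl) fun _ _ => rfl
  have sub : (ThV ((D.Orb k).F (tau δ)) kV).O ⊆ P1.O := fun x o => ((O1 x).1 o).1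
  have eq : ∀ x ∈ (ThV ((D.Orb k).F (tau δ)) kV).O,
      (ThV ((D.Orb k).F (tau δ)) kV).f x = P1.f x := fun x o => f1 x
  have z : ∀ x ∈ P1.O, P1.f x = 0 → x ∈ (ThV ((D.Orb k).F (tau δ)) kV).O := fun x o e =>
    (O1 x).2 ⟨o, mn_ne H o.1 (zer h S o e).2⟩
  refine ⟨o0, ht.tr (o1.exc (o1.shrink ?_ (fun g x o => ?_) sub eq z) sub eq z)⟩
  · have : (ThV ((D.Orb k).F (tau δ)) kV).O = P1.O ∩ {x | mn x.2.1 ≠ 0} := Set.ext O1
    rw [this]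
    exact o1.op.inter (isOpen_ne_fun (cont_mn continuous_snd.fst) continuous_const)
  · exact (O1 _).2 ⟨o1.inv g x (sub o), fun e => o.2.1 (mn_tr0 (g := g.1.toAdd) e)⟩

end Crest.Agent.N218.D6.Lk

end
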